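import Crest.Agent.R094.Defs

/-! Row 94: basic API of the flows `Tp`, `Tm`. -/

set_option autoImplicit false

open scoped InnerProductSpace
open Set Metric

namespace Crest.Agent.R094

variable {E : Type*} [NormedAddCommGroup E] [InnerProductSpace ℝ E]

variable {u : E → ℝ} {L s t : ℝ}

theorem Lip.neg (hu : Lip u L) : Lip (-u) L := by
  refine ⟨hu.nonneg, fun x y => ?_⟩
  have := hu.le y x
  rw [norm_sub_rev] at this
  simp only [Pi.neg_apply]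
  linarith

theorem Lip.mono {L' : ℝ} (hu : Lip u L) (h : L ≤ L') : Lip u L' := by
  exact ⟨hu.nonneg.trans h, fun x y =>
    (hu.le x y).trans (mul_le_mul_of_nonneg_right h (norm_nonneg _))⟩

theorem Lip.abs_le (hu : Lip u L) (x y : E) : |u x - u y| ≤ L * ‖x - y‖ := by
  have := hu.le y x
  rw [norm_sub_rev] at this
  exact _root_.abs_le.2 ⟨by linarith, hu.le x y⟩

theorem Lip.continuous (hu : Lip u L) : Continuous u := by
  refine (LipschitzWith.of_dist_le_mul (K := ⟨L, hu.nonneg⟩) fun x y => ?_).continuous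
  rw [dist_eq_norm x y]
  exact hu.abs_le x y

theorem Tm_eq (u : E → ℝ) (s : ℝ) (x : E) : Tm u s x = -Tp (-u) s x := rfl

theorem Tm_neg (u : E → ℝ) (s : ℝ) (x : E) : Tm (-u) s x = -Tp u s x := by
  rw [Tm, neg_neg]

theorem Tp_neg (u : E → ℝ) (s : ℝ) (x : E) : Tp (-u) s x = -Tm u s x := by
  rw [Tm, neg_neg]

theorem Sp_neg (u : E → ℝ) (s : ℝ) (x : E) : Sp (-u) s x = (u x - Tm u s x) / s := by
  rw [Sp, Tp_neg, Pi.neg_apply]
  ring

theorem basic_le (hu : Lip u L) (hs : 0 ≤ s) (x a : E) :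
    u (x + s • a) - s * ‖a‖ ^ 2 / 2 ≤ u x + s * (L * ‖a‖ - ‖a‖ ^ 2 / 2) := by
  have h := hu.le (x + s • a) x
  rw [add_sub_cancel_left, norm_smul, Real.norm_of_nonneg hs] at h
  linarith

theorem basic_le' (hu : Lip u L) (hs : 0 ≤ s) (x a : E) :
    u (x + s • a) - s * ‖a‖ ^ 2 / 2 ≤ u x + L ^ 2 * s / 2 := by
  nlinarith [basic_le hu hs x a, mul_nonneg hs (sq_nonneg (L - ‖a‖))]

/-- The family is bounded above by `u x + L² s / 2`. -/
theorem le_Tp (hu : Lip u L) (hs : 0 ≤ s) (x a : E) :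
    u (x + s • a) - s * ‖a‖ ^ 2 / 2 ≤ Tp u s x := by
  exact le_ciSup (f := fun a : E => u (x + s • a) - s * ‖a‖ ^ 2 / 2)
    ⟨_, forall_mem_range.2 (basic_le' hu hs x)⟩ a

theorem Tp_le {x : E} {c : ℝ} (h : ∀ a : E, u (x + s • a) - s * ‖a‖ ^ 2 / 2 ≤ c) :
    Tp u s x ≤ c := by
  exact ciSup_le h

theorem Tp_zero (u : E → ℝ) (x : E) : Tp u 0 x = u x := by
  simp [Tp]

theorem self_le_Tp (hu : Lip u L) (hs : 0 ≤ s) (x : E) : u x ≤ Tp u s x := by
  simpa using le_Tp hu hs x 0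

theorem Tp_le_add (hu : Lip u L) (hs : 0 ≤ s) (x : E) : Tp u s x ≤ u x + L ^ 2 * s / 2 := by
  exact Tp_le (basic_le' hu hs x)

/-- Point form. -/
theorem le_Tp_add (hu : Lip u L) (hs : 0 < s) (x w : E) :
    u w ≤ Tp u s x + ‖w - x‖ ^ 2 / (2 * s) := by
  have h := le_Tp hu hs.le x (s⁻¹ • (w - x))
  rw [smul_inv_smul₀ hs.ne', add_sub_cancel, norm_smul, norm_inv, Real.norm_of_nonneg hs.le] at h
  have e : s * (s⁻¹ * ‖w - x‖) ^ 2 / 2 = ‖w - x‖ ^ 2 / (2 * s) := by field_simp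
  linarith

theorem norm_le_of_Tp_eq (hu : Lip u L) (hs : 0 < s) {x a : E}
    (h : Tp u s x = u (x + s • a) - s * ‖a‖ ^ 2 / 2) : ‖a‖ ≤ 2 * L := by
  have h1 := self_le_Tp hu hs.le x
  have h2 := basic_le hu hs.le x a
  have h3 : 0 ≤ L * ‖a‖ - ‖a‖ ^ 2 / 2 := nonneg_of_mul_nonneg_right (by linarith) hs
  by_contra h4
  nlinarith [hu.nonneg]

theorem exists_Tp_eq [FiniteDimensional ℝ E] (hu : Lip u L) (hs : 0 ≤ s) (x : E) :
    ∃ a : E, ‖a‖ ≤ 2 * L ∧ Tp u s x = u (x + s • a) - s * ‖a‖ ^ 2 / 2 := by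
  have hL := hu.nonneg
  have hc := hu.continuous
  have : ProperSpace E := FiniteDimensional.proper_real E
  obtain ⟨a, ha, h⟩ := (isCompact_closedBall (0 : E) (2 * L)).exists_isMaxOn
    (f := fun a : E => u (x + s • a) - s * ‖a‖ ^ 2 / 2) (nonempty_closedBall.2 (by linarith))
    (by fun_prop)
  refine ⟨a, mem_closedBall_zero_iff.1 ha, le_antisymm (Tp_le fun b => ?_) (le_Tp hu hs x a)⟩
  by_cases hb : ‖b‖ ≤ 2 * L
  · exact h (mem_closedBall_zero_iff.2 hb)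
  · have h1 : u (x + s • (0 : E)) - s * ‖(0 : E)‖ ^ 2 / 2 ≤ _ :=
      h (mem_closedBall_self (by linarith))
    have h2 : L * ‖b‖ - ‖b‖ ^ 2 / 2 ≤ 0 := by nlinarith
    simp only [smul_zero, add_zero, norm_zero] at h1
    nlinarith [basic_le hu hs x b, mul_nonpos_of_nonneg_of_nonpos hs h2]

theorem Lip.tp (hu : Lip u L) (hs : 0 ≤ s) : Lip (Tp u s) L := by
  refine ⟨hu.nonneg, fun x y => sub_le_iff_le_add.2 (Tp_le fun a => ?_)⟩
  have h1 := hu.le (x + s • a) (y + s • a)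
  rw [add_sub_add_right_eq_sub] at h1
  linarith [le_Tp hu hs y a]

theorem Tp_mono {v : E → ℝ} (hv : Lip v L) (hs : 0 ≤ s) (h : ∀ x, u x ≤ v x) (x : E) :
    Tp u s x ≤ Tp v s x := by
  exact Tp_le fun a => (sub_le_sub_right (h _) _).trans (le_Tp hv hs x a)

/-- Semigroup law. For `≤` use `‖(s a + t b)/(s+t)‖² (s+t) ≤ s ‖a‖² + t ‖b‖²`, for `≥` use `a = b`. -/
theorem Tp_add (hu : Lip u L) (hs : 0 ≤ s) (ht : 0 ≤ t) (x : E) :
    Tp (Tp u s) t x = Tp u (s + t) x := by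
  refine le_antisymm (Tp_le fun b => sub_le_iff_le_add.2 (Tp_le fun a => ?_)) (Tp_le fun a => ?_)
  · rcases (add_nonneg hs ht).eq_or_lt with h0 | h0
    · obtain rfl : s = 0 := by linarith
      obtain rfl : t = 0 := by linarith
      simp [Tp_zero]
    · have h1 := le_Tp_add hu h0 x (x + t • b + s • a)
      have h2 : ‖x + t • b + s • a - x‖ ≤ t * ‖b‖ + s * ‖a‖ := by
        rw [add_assoc, add_sub_cancel_left]
        refine (norm_add_le _ _).trans_eq ?_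
        rw [norm_smul, norm_smul, Real.norm_of_nonneg hs, Real.norm_of_nonneg ht]
      have h3 : ‖x + t • b + s • a - x‖ ^ 2 / (2 * (s + t)) ≤ s * ‖a‖ ^ 2 / 2 + t * ‖b‖ ^ 2 / 2 := by
        rw [div_le_iff₀ (by linarith)]
        nlinarith [pow_le_pow_left₀ (norm_nonneg _) h2 2,
          mul_nonneg (mul_nonneg hs ht) (sq_nonneg (‖a‖ - ‖b‖))]
      linarith
  · have h1 := le_Tp (hu.tp hs) ht x a
    have h2 := le_Tp hu hs (x + t • a) a
    rw [add_assoc, ← add_smul, add_comm t s] at h2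
    linarith

theorem Tp_mono_time (hu : Lip u L) (hs : 0 ≤ s) (hst : s ≤ t) (x : E) :
    Tp u s x ≤ Tp u t x := by
  have h := Tp_add hu hs (sub_nonneg.2 hst) x
  rw [add_sub_cancel] at h
  exact h ▸ self_le_Tp (hu.tp hs) (sub_nonneg.2 hst) x

theorem Tm_le (hu : Lip u L) (hs : 0 ≤ s) (x b : E) :
    Tm u s x ≤ u (x - s • b) + s * ‖b‖ ^ 2 / 2 := by
  have h := le_Tp hu.neg hs x (-b)
  rw [smul_neg, ← sub_eq_add_neg, norm_neg, Pi.neg_apply] at h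
  rw [Tm]
  linarith

theorem le_Tm {x : E} {c : ℝ} (h : ∀ b : E, c ≤ u (x - s • b) + s * ‖b‖ ^ 2 / 2) :
    c ≤ Tm u s x := by
  refine le_neg.2 (Tp_le fun a => ?_)
  have := h (-a)
  rw [smul_neg, sub_neg_eq_add, norm_neg] at this
  rw [Pi.neg_apply]
  linarith

theorem Tm_zero (u : E → ℝ) (x : E) : Tm u 0 x = u x := by
  rw [Tm, Tp_zero, Pi.neg_apply, neg_neg]

theorem Tm_le_self (hu : Lip u L) (hs : 0 ≤ s) (x : E) : Tm u s x ≤ u x := by
  simpa using Tm_le hu hs x 0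

theorem sub_le_Tm (hu : Lip u L) (hs : 0 ≤ s) (x : E) : u x - L ^ 2 * s / 2 ≤ Tm u s x := by
  have h := Tp_le_add hu.neg hs x
  rw [Pi.neg_apply] at h
  rw [Tm]
  linarith

/-- Point form. -/
theorem Tm_le_add (hu : Lip u L) (hs : 0 < s) (x w : E) :
    Tm u s x ≤ u w + ‖w - x‖ ^ 2 / (2 * s) := by
  have h := le_Tp_add hu.neg hs x w
  rw [Pi.neg_apply] at h
  rw [Tm]
  linarith

theorem norm_le_of_Tm_eq (hu : Lip u L) (hs : 0 < s) {x b : E}
    (h : Tm u s x = u (x - s • b) + s * ‖b‖ ^ 2 / 2) : ‖b‖ ≤ 2 * L := by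
  refine (norm_neg b).symm.trans_le (norm_le_of_Tp_eq hu.neg hs (x := x) ?_)
  rw [Tp_neg, h, smul_neg, ← sub_eq_add_neg, norm_neg, Pi.neg_apply]
  ring

theorem exists_Tm_eq [FiniteDimensional ℝ E] (hu : Lip u L) (hs : 0 ≤ s) (x : E) :
    ∃ b : E, ‖b‖ ≤ 2 * L ∧ Tm u s x = u (x - s • b) + s * ‖b‖ ^ 2 / 2 := by
  obtain ⟨a, ha, h⟩ := exists_Tp_eq hu.neg hs x
  refine ⟨-a, by rwa [norm_neg], ?_⟩
  rw [Tm, h, smul_neg, sub_neg_eq_add, norm_neg, Pi.neg_apply]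
  ring

theorem Lip.tm (hu : Lip u L) (hs : 0 ≤ s) : Lip (Tm u s) L := by
  exact (hu.neg.tp hs).neg

theorem Tm_add (hu : Lip u L) (hs : 0 ≤ s) (ht : 0 ≤ t) (x : E) :
    Tm (Tm u s) t x = Tm u (s + t) x := by
  have e : -Tm u s = Tp (-u) s := funext fun y => neg_neg _
  rw [Tm, e, Tp_add hu.neg hs ht, Tm]

/-- If `Tm u s x` is attained with velocity `b`, then `Tp (-u) s x` is attained with `-b`. -/
theorem Tp_neg_eq_of_Tm_eq {x b : E} (h : Tm u s x = u (x - s • b) + s * ‖b‖ ^ 2 / 2) :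
    Tp (-u) s x = (-u) (x + s • (-b)) - s * ‖-b‖ ^ 2 / 2 := by
  rw [Tp_neg, h, smul_neg, ← sub_eq_add_neg, norm_neg, Pi.neg_apply]
  ring

end Crest.Agent.R094
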