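import Crest.Agent.R094.Scale

/-! Row 94: the upward chain of near-extremal points stays in the cone of the base point. -/

set_option autoImplicit false

open scoped InnerProductSpace
open Set Metric

namespace Crest.Agent.R094

variable {E : Type*} [NormedAddCommGroup E] [InnerProductSpace ℝ E]

/-- The conclusion of `step` used in the chain (the case `i = 2J`). -/
def StepUp (E : Type*) [NormedAddCommGroup E] [InnerProductSpace ℝ E] (Γ A N D : ℝ) : Prop :=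
  ∀ (u : E → ℝ) (L S η : ℝ) (J : ℕ) (y v : E) (h : ℝ), Lip u L → 16 * A ≤ S → 2 ≤ J →
    η ≤ 1 / J → (∀ w ∈ ball y (D * (L + 1)), Good u Γ S η w) →
    Frame u y (16 * A) v h (5 * Γ) → 1 - 1 / (J : ℝ) ≤ Env u 1 y - u y →
    ∃ (t : ℝ) (z : E), |t| ≤ A ∧ ‖z‖ ≤ A ∧
      2 - N / J ≤ Env u 2 (y + t • v + z) - u (y + t • v + z)

theorem chain_step {Γ A D : ℝ} {N : ℕ} (hΓ : 1 ≤ Γ) (hA : 1 ≤ A) (hN : 1 ≤ N) (hD : 0 ≤ D)
    (hstep : StepUp E Γ A N D) {u : E → ℝ} {L S η θ : ℝ} {P : E} (hu : Lip u L)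
    (hS : 32 * A ≤ S) (hθ : 0 < θ) (hθ1 : 2 * θ ≤ 1) (J : ℕ) (hJ : 2 ≤ J)
    (hη : η ≤ θ / ((N : ℝ) * J))
    (hG : ∀ w ∈ ball P ((D + 7 * A * Γ) * (L + 1)), Good u Γ S η w)
    {V z : E} {H t : ℝ} (hF : Frame u P (32 * A * θ) V H Γ) (ht : |t| ≤ A * θ)
    (hz : ‖z‖ ≤ 4 * A * √Γ * θ)
    (h0 : θ * (1 - 1 / ((N : ℝ) * J)) ≤ Env u θ (P + t • V + z) - u (P + t • V + z)) :
    ∃ (V : E) (H t : ℝ) (z : E), Frame u P (32 * A * (2 * θ)) V H Γ ∧
      |t| ≤ A * (2 * θ) ∧ ‖z‖ ≤ 4 * A * √Γ * (2 * θ) ∧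
      2 * θ * (1 - 1 / (J : ℝ)) ≤ Env u (2 * θ) (P + t • V + z) - u (P + t • V + z) := by
  have hL := hu.nonneg
  have hAθ : 0 < A * θ := by positivity
  have hs : 0 < 32 * A * θ := by positivity
  have hg1 : 1 ≤ √Γ := Real.one_le_sqrt.2 hΓ
  have hg2 : √Γ ^ 2 = Γ := Real.sq_sqrt (by linarith)
  have hg3 : √Γ ≤ Γ := by nlinarith
  have hN0 : (1 : ℝ) ≤ N := by exact_mod_cast hN
  have hJ0 : (2 : ℝ) ≤ J := by exact_mod_cast hJ
  set x := P + t • V + z with hx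
  have hF1 : Frame u x (32 * A * θ / 2) V H (5 * Γ) := by
    refine (hF.transfer hs (σ₀ := t) (by linarith) z).mono (by positivity) ?_
    have h1 : ‖z‖ ^ 2 ≤ (4 * A * √Γ * θ) ^ 2 := pow_le_pow_left₀ (norm_nonneg _) hz 2
    have h2 : 3 * ‖z‖ ^ 2 / (8 * (32 * A * θ) ^ 2) ≤ Γ := by
      rw [div_le_iff₀ (by positivity)]
      have h3 : (4 * A * √Γ * θ) ^ 2 = 16 * (A * θ) ^ 2 * Γ := by
        rw [show (4 * A * √Γ * θ) ^ 2 = 16 * (A * θ) ^ 2 * √Γ ^ 2 by ring, hg2]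
      have h4 : 0 ≤ (A * θ) ^ 2 * Γ := by positivity
      nlinarith
    linarith
  have hF2 : Frame (resc u x θ θ) 0 (16 * A) V H (5 * Γ) := by
    refine Frame.rescale₁ hθ (by positivity) ?_
    rw [smul_zero, add_zero, show 16 * A * θ = 32 * A * θ / 2 by ring]
    exact hF1
  have hV : ‖V‖ ≤ L + Γ + 1 := hF.norm_le hu hs
  have hθ2 : θ ≤ 1 := by linarith
  have hG2 : ∀ w ∈ ball (0 : E) (D * (L + 1)), Good (resc u x θ θ) Γ (S / θ) (η / θ) w := by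
    intro w hw
    refine Good.rescale₁ hu hθ hθ2 (hG _ ?_)
    rw [mem_ball_zero_iff] at hw
    rw [mem_ball_iff_norm, show x + θ • w - P = t • V + z + θ • w by rw [hx]; abel]
    have h1 : ‖t • V‖ ≤ A * (L + Γ + 1) := by
      rw [norm_smul, Real.norm_eq_abs]
      exact mul_le_mul (ht.trans (by nlinarith)) hV (norm_nonneg _) (by linarith)
    have h2 : ‖θ • w‖ ≤ ‖w‖ := by
      rw [norm_smul, Real.norm_eq_abs, abs_of_pos hθ]
      exact mul_le_of_le_one_left (norm_nonneg _) hθ2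
    have h3 : ‖z‖ ≤ 4 * A * Γ := by
      refine hz.trans ?_
      have : √Γ * θ ≤ Γ := (mul_le_of_le_one_right (by linarith) hθ2).trans hg3
      nlinarith
    have h4 : A * (L + Γ + 1) + 4 * A * Γ ≤ 7 * A * Γ * (L + 1) := by
      have h5 : L + Γ + 1 + 4 * Γ ≤ 7 * Γ * (L + 1) := by nlinarith
      nlinarith
    have h5 := norm_add₃_le (a := t • V) (b := z) (c := θ • w)
    linarith
  have hNJ : (0 : ℝ) < (N : ℝ) * J := by positivity
  obtain ⟨t', z', ht', hz', h1⟩ := hstep (resc u x θ θ) L (S / θ) (η / θ) (N * J) 0 V H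
    (hu.rescale₁ x hθ) (by rw [le_div_iff₀ hθ]; nlinarith) (by nlinarith)
    (by rw [div_le_iff₀ hθ]; push_cast; rwa [one_div_mul_eq_div]) hG2 hF2 (by
      rw [Env_resc₁ hu x hθ zero_le_one, resc_apply, smul_zero, add_zero, one_mul, ← sub_div,
        le_div_iff₀ hθ]
      push_cast
      linarith)
  rw [Env_resc₁ hu x hθ zero_le_two, resc_apply, ← sub_div, le_div_iff₀ hθ] at h1
  obtain ⟨V', H', hF'⟩ := (hG P (mem_ball_self (by positivity))).frame (32 * A * (2 * θ))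
    (by positivity) (by nlinarith)
  have hVV : ‖V - V'‖ ≤ 5 / 4 * √Γ := by
    have h2 := hF.uniq_v (hF'.shrink hs (by linarith)) hs
    rw [show Γ * (32 * A * (2 * θ)) / (32 * A * θ) = 2 * Γ by field_simp] at h2
    refine abs_le_of_sq_le_sq' ?_ (by positivity) |>.2
    rw [mul_pow, hg2]
    linarith
  have ht2 : |t + θ * t'| ≤ A * (2 * θ) := by
    have h2 := abs_add_le t (θ * t')
    rw [abs_mul, abs_of_pos hθ] at h2
    nlinarith
  refine ⟨V', H', t + θ * t', z + θ • z' + (t + θ * t') • (V - V'), hF', ht2, ?_, ?_⟩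
  · have h2 : ‖θ • z'‖ ≤ θ * A := by
      rw [norm_smul, Real.norm_eq_abs, abs_of_pos hθ]
      exact mul_le_mul_of_nonneg_left hz' hθ.le
    have h3 : ‖(t + θ * t') • (V - V')‖ ≤ A * (2 * θ) * (5 / 4 * √Γ) := by
      rw [norm_smul, Real.norm_eq_abs]
      exact mul_le_mul ht2 hVV (norm_nonneg _) (by positivity)
    have h4 := norm_add₃_le (a := z) (b := θ • z') (c := (t + θ * t') • (V - V'))
    nlinarith
  · have e : P + (t + θ * t') • V' + (z + θ • z' + (t + θ * t') • (V - V')) =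
        x + θ • (0 + t' • V + z') := by
      rw [hx]; module
    rw [e]
    refine le_trans ?_ h1
    push_cast
    have h2 : (N : ℝ) / (N * J) = 1 / J := by field_simp
    have h3 : (0 : ℝ) ≤ 1 / J := by positivity
    rw [h2]
    have h4 : 0 ≤ θ * (1 / (J : ℝ)) := mul_nonneg hθ.le h3
    linarith

/-- Induction on `j ≤ n`, with `θ_j = 2^j θ₀`, `J_j = 4 N^(n-j)`, `Az = 4 A √Γ`. Statement at `j`: for every
frame `(V, H)` at `P` of scale `32 A θ_j` and constant `Γ`... (equivalently for one such frame, which exists by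
`Good.frame`) there are `t, z` with `|t| ≤ A θ_j`, `‖z‖ ≤ Az θ_j` and, at `x = P + t V + z`,
`θ_j (1 - 1/J_j) ≤ Env u θ_j x - u x`. Step: transfer the frame to `x` (scale `16 A θ_j`, constant
`4Γ + 3‖z‖²/(8 (32Aθ_j)²) ≤ 5Γ`), apply `hstep` to `resc u x θ_j θ_j` at `0` (`Good.rescale₁`,
`Frame.rescale₁`, `Env_resc₁`; `η/θ_j ≤ 1/J_j`; the ball of radius `θ_j D (L+1)` around `x` lies in the big
ball since `‖V‖ ≤ L+Γ+1`, `θ_j ≤ 1`) to get `x' = x + θ_j (t' V + z')` with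
`θ_j (2 - N/J_j) ≤ Env u θ_{j+1} x' - u x'`, and `N / J_j ≤ 2 / J_{j+1}`. For a frame `(V', H')` of scale
`32 A θ_{j+1}`, `‖V - V'‖² ≤ 3Γ/2` (`shrink`, `uniq_v`); `x' = P + (t + θ_j t') V' + z''` with
`z'' = z + θ_j z' + (t + θ_j t') (V - V')`, `‖z''‖ ≤ θ_j (Az + A + 2A √(3Γ/2)) ≤ 2 Az θ_j`. -/
theorem chain {Γ A D : ℝ} {N : ℕ} (hΓ : 1 ≤ Γ) (hA : 1 ≤ A) (hN : 1 ≤ N) (hD : 0 ≤ D)
    (hstep : StepUp E Γ A N D) {u : E → ℝ} {L S η θ₀ : ℝ} {P : E} (n : ℕ) (hu : Lip u L)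
    (hS : 32 * A ≤ S) (hθ₀ : 0 < θ₀) (hn : 2 ^ n * θ₀ ≤ 1) (hη : η ≤ θ₀ / (4 * (N : ℝ) ^ n))
    (hG : ∀ w ∈ ball P ((D + 7 * A * Γ) * (L + 1)), Good u Γ S η w)
    (h0 : θ₀ * (1 - 1 / (4 * (N : ℝ) ^ n)) ≤ Env u θ₀ P - u P) :
    ∃ (V : E) (H t : ℝ) (z : E), Frame u P (32 * A * (2 ^ n * θ₀)) V H Γ ∧
      |t| ≤ A * (2 ^ n * θ₀) ∧ ‖z‖ ≤ 4 * A * √Γ * (2 ^ n * θ₀) ∧
      2 ^ n * θ₀ * (3 / 4) ≤ Env u (2 ^ n * θ₀) (P + t • V + z) - u (P + t • V + z) := by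
  have hL := hu.nonneg
  have hN0 : (1 : ℝ) ≤ N := by exact_mod_cast hN
  have key : ∀ j k : ℕ, j + k = n → ∃ (V : E) (H t : ℝ) (z : E),
      Frame u P (32 * A * (2 ^ j * θ₀)) V H Γ ∧ |t| ≤ A * (2 ^ j * θ₀) ∧
      ‖z‖ ≤ 4 * A * √Γ * (2 ^ j * θ₀) ∧ 2 ^ j * θ₀ * (1 - 1 / (4 * (N : ℝ) ^ k)) ≤
        Env u (2 ^ j * θ₀) (P + t • V + z) - u (P + t • V + z) := by
    intro j
    induction j with
    | zero =>
      intro k hk
      obtain rfl : k = n := by omega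
      have h1 : θ₀ ≤ 1 := le_trans (le_mul_of_one_le_left hθ₀.le (one_le_pow₀ one_le_two)) hn
      obtain ⟨V, H, hF⟩ := (hG P (mem_ball_self (by positivity))).frame (32 * A * (2 ^ 0 * θ₀))
        (by positivity) (by rw [pow_zero, one_mul]; nlinarith)
      refine ⟨V, H, 0, 0, hF, by rw [abs_zero]; positivity, by rw [norm_zero]; positivity, ?_⟩
      simpa using h0
    | succ j ih =>
      intro k hk
      obtain ⟨V, H, t, z, hF, ht, hz, h1⟩ := ih (k + 1) (by omega)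
      have e : (N : ℝ) * ((4 * N ^ k : ℕ) : ℝ) = 4 * (N : ℝ) ^ (k + 1) := by push_cast; ring
      have h2 : (2 : ℝ) * (2 ^ j * θ₀) = 2 ^ (j + 1) * θ₀ := by ring
      have h3 : (2 : ℝ) ^ (j + 1) * θ₀ ≤ 1 :=
        le_trans (mul_le_mul_of_nonneg_right (pow_le_pow_right₀ one_le_two (by omega)) hθ₀.le) hn
      have h4 : η ≤ 2 ^ j * θ₀ / (4 * (N : ℝ) ^ (k + 1)) := by
        refine hη.trans (div_le_div₀ (by positivity)
          (le_mul_of_one_le_left hθ₀.le (one_le_pow₀ one_le_two)) (by positivity) ?_)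
        exact mul_le_mul_of_nonneg_left (pow_le_pow_right₀ hN0 (by omega)) (by norm_num)
      have h5 : 2 ≤ 4 * N ^ k := by
        have := Nat.one_le_pow k N hN
        omega
      have h6 := chain_step hΓ hA hN hD hstep hu hS (θ := 2 ^ j * θ₀) (by positivity)
        (h2 ▸ h3) (4 * N ^ k) h5 (e ▸ h4) hG hF ht hz (e ▸ h1)
      rw [h2] at h6
      push_cast at h6
      exact h6
  obtain ⟨V, H, t, z, hF, ht, hz, h1⟩ := key n 0 rfl
  refine ⟨V, H, t, z, hF, ht, hz, ?_⟩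
  rwa [pow_zero, show (1 : ℝ) - 1 / (4 * 1) = 3 / 4 by norm_num] at h1

end Crest.Agent.R094
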