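import Crest.Agent.R094.Defs
import Crest.Prelude.Def_InfHarmonic

/-! Row 94: viscosity solutions enjoy comparison with cones. -/

set_option autoImplicit false

open scoped InnerProductSpace
open Set Metric

namespace Crest.Agent.R094

theorem cone_grad {d : ℕ} {g g' : ℝ → ℝ} (hg : ∀ r, HasDerivAt g (g' r) r)
    {x y : EuclideanSpace ℝ (Fin d)} (hy : y ≠ x) :
    HasGradientAt (fun w => g ‖w - x‖) ((g' ‖y - x‖ / ‖y - x‖) • (y - x)) y := by
  have h0 : 0 < ‖y - x‖ := norm_pos_iff.2 (sub_ne_zero.2 hy)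
  have h1 := (((hasFDerivAt_id y).sub_const x).norm_sq).sqrt (by simpa using h0.ne')
  simp only [id, Real.sqrt_sq (norm_nonneg _)] at h1
  have h2 := (hg ‖y - x‖).comp_hasFDerivAt y h1
  rw [hasGradientAt_iff_hasFDerivAt]
  refine h2.congr_fderiv ?_
  ext v
  simp only [smul_apply, ContinuousLinearMap.comp_apply,
    ContinuousLinearMap.id_apply, innerSL_apply_apply, smul_eq_mul, InnerProductSpace.toDual_apply_apply,
    real_inner_smul_left, nsmul_eq_mul]
  field_simp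
  ring

theorem cone_lap {d : ℕ} {g g' : ℝ → ℝ} {c : ℝ} (hg : ∀ r, HasDerivAt g (g' r) r)
    {x z : EuclideanSpace ℝ (Fin d)} (hz : z ≠ x) (hg' : HasDerivAt g' c ‖z - x‖)
    (hC : ContDiffAt ℝ 2 (fun w => g ‖w - x‖) z) :
    Crest.AnalysisR.PDE.infLaplacian (fun w => g ‖w - x‖) z = c * g' ‖z - x‖ ^ 2 := by
  have h0 : 0 < ‖z - x‖ := norm_pos_iff.2 (sub_ne_zero.2 hz)
  unfold Crest.AnalysisR.PDE.infLaplacian
  rw [(cone_grad hg hz).gradient, iteratedFDeriv_two_apply]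
  simp only [Matrix.cons_val_zero, Matrix.cons_val_one]
  obtain ⟨k, hk⟩ : ∃ k, k = g' ‖z - x‖ / ‖z - x‖ := ⟨_, rfl⟩
  rw [← hk]
  have hd : DifferentiableAt ℝ (fderiv ℝ (fun w => g ‖w - x‖)) z :=
    (hC.fderiv_right (m := 1) (by norm_num)).differentiableAt one_ne_zero
  have l1 : HasDerivAt (fun t : ℝ => z + t • (k • (z - x))) (k • (z - x)) 0 := by
    simpa using ((hasDerivAt_id (0 : ℝ)).smul_const (k • (z - x))).const_add z
  have l2 := (HasFDerivAt.comp_hasDerivAt_of_eq (hl := hd.hasFDerivAt) (hf := l1)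
    (hy := by simp)).clm_apply (hasDerivAt_const (0 : ℝ) (k • (z - x)))
  have l3 : HasDerivAt (fun t : ℝ => (1 + t * k) * ‖z - x‖) (k * ‖z - x‖) 0 := by
    simpa using (((hasDerivAt_id (0 : ℝ)).mul_const k).const_add 1).mul_const ‖z - x‖
  have l4 := (HasDerivAt.comp_of_eq (hh₂ := hg') (hh := l3) (hy := by simp)).mul_const
    (k * ‖z - x‖)
  have l5 : ∀ᶠ t : ℝ in nhds 0, 0 < 1 + t * k := by
    have : ContinuousAt (fun t : ℝ => 1 + t * k) 0 := by fun_prop
    exact this.eventually (lt_mem_nhds (by simp))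
  have l6 := l4.congr_of_eventuallyEq (f₁ := fun t : ℝ =>
      (fderiv ℝ (fun w => g ‖w - x‖) ∘ fun t : ℝ => z + t • (k • (z - x))) t (k • (z - x))) (by
    filter_upwards [l5] with t ht
    have e1 : z + t • (k • (z - x)) - x = (1 + t * k) • (z - x) := by
      rw [add_smul, one_smul, mul_smul]; abel
    have e2 : ‖z + t • (k • (z - x)) - x‖ = (1 + t * k) * ‖z - x‖ := by
      rw [e1, norm_smul, Real.norm_eq_abs, abs_of_pos ht]
    have e3 : z + t • (k • (z - x)) ≠ x := by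
      rw [← sub_ne_zero, ← norm_pos_iff, e2]; positivity
    have e4 := (hasGradientAt_iff_hasFDerivAt.1 (cone_grad hg e3)).fderiv
    simp only [Function.comp]
    rw [e4, e2, e1, InnerProductSpace.toDual_apply_apply, real_inner_smul_left, real_inner_smul_left,
      real_inner_smul_right, real_inner_self_eq_norm_sq]
    field_simp)
  have l7 := l2.unique l6
  simp only [map_zero, add_zero] at l7
  rw [l7, hk]
  field_simp

theorem cone_contDiffAt {d : ℕ} {g : ℝ → ℝ} (hg : ContDiff ℝ 2 g)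
    {x z : EuclideanSpace ℝ (Fin d)} (hz : z ≠ x) : ContDiffAt ℝ 2 (fun w => g ‖w - x‖) z :=
  hg.contDiffAt.comp z ((contDiffAt_id.sub contDiffAt_const).norm ℝ (sub_ne_zero.2 hz))

theorem cone_main {d : ℕ} {u : EuclideanSpace ℝ (Fin d) → ℝ} (hc : ContinuousOn u (ball 0 1))
    (ht : ∀ (x z : EuclideanSpace ℝ (Fin d)) (m A ε r : ℝ), z ∈ ball (0 : EuclideanSpace ℝ (Fin d)) 1 →
      z ≠ x → 0 < ε → 0 < A - 2 * ε * (‖z - x‖ - r) →
      ¬ IsLocalMax (fun w => u w - (m + A * (‖w - x‖ - r) - ε * (‖w - x‖ - r) ^ 2)) z) :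
    ConeUp u := by
  intro x r₁ r₂ m₁ m₂ h0 h12 hx hm hu₁ hu₂ w hw1 hw2
  have hr : 0 < r₂ - r₁ := by linarith
  obtain ⟨a, ha⟩ : ∃ a, a = (m₂ - m₁) / (r₂ - r₁) := ⟨_, rfl⟩
  have ha0 : 0 ≤ a := by rw [ha]; exact div_nonneg (by linarith) hr.le
  have ha1 : a * (r₂ - r₁) = m₂ - m₁ := by rw [ha]; field_simp
  have e0 : (m₂ - m₁) * (‖w - x‖ - r₁) / (r₂ - r₁) = a * (‖w - x‖ - r₁) := by rw [ha]; ring
  rw [e0]
  refine le_of_forall_pos_le_add fun δ hδ => ?_
  obtain ⟨ε, hε⟩ : ∃ ε, ε = δ / (4 * (r₂ - r₁) ^ 2) := ⟨_, rfl⟩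
  have hε0 : 0 < ε := by rw [hε]; positivity
  have hε1 : 4 * ε * (r₂ - r₁) * (r₂ - r₁) = δ := by rw [hε]; field_simp
  have hεr : 0 < ε * (r₂ - r₁) := mul_pos hε0 hr
  set K : Set (EuclideanSpace ℝ (Fin d)) := closedBall x r₂ ∩ (ball x r₁)ᶜ with hK
  have hKm : ∀ y, y ∈ K ↔ ‖y - x‖ ≤ r₂ ∧ r₁ ≤ ‖y - x‖ := fun y => by
    simp only [hK, mem_inter_iff, mem_closedBall, mem_compl_iff, mem_ball, dist_eq_norm, not_lt]
  have hKc : IsCompact K := (isCompact_closedBall x r₂).inter_right isOpen_ball.isClosed_compl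
  have hKb : K ⊆ ball 0 1 := fun y hy => by
    rw [mem_ball_zero_iff]
    have := norm_le_norm_add_norm_sub' y x
    linarith [((hKm y).1 hy).1]
  obtain ⟨z, hz, hmax⟩ := hKc.exists_isMaxOn ⟨w, (hKm w).2 ⟨hw2, hw1⟩⟩
    (f := fun w => u w - (m₁ + (a + 4 * ε * (r₂ - r₁)) * (‖w - x‖ - r₁) - ε * (‖w - x‖ - r₁) ^ 2))
    ((hc.mono hKb).sub (by fun_prop))
  obtain ⟨z2, z1⟩ := (hKm z).1 hz
  have hle : u z - (m₁ + (a + 4 * ε * (r₂ - r₁)) * (‖z - x‖ - r₁) - ε * (‖z - x‖ - r₁) ^ 2) ≤ 0 := by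
    rcases z1.eq_or_lt with e1 | e1
    · have := hu₁ z e1.ge
      rw [← e1]
      linarith
    rcases z2.eq_or_lt with e2 | e2
    · have := hu₂ z z2
      rw [e2]
      nlinarith [mul_pos hεr hr]
    exfalso
    refine ht x z m₁ _ ε r₁ (hKb hz) (fun h => ?_) hε0 ?_ (hmax.isLocalMax ?_)
    · rw [h, sub_self, norm_zero] at e1
      linarith
    · have : ε * (‖z - x‖ - r₁) ≤ ε * (r₂ - r₁) := mul_le_mul_of_nonneg_left (by linarith) hε0.le
      linarith
    · have c1 : Continuous fun y : EuclideanSpace ℝ (Fin d) => ‖y - x‖ := by fun_prop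
      filter_upwards [c1.continuousAt.eventually (lt_mem_nhds e1),
        c1.continuousAt.eventually (gt_mem_nhds e2)] with y h1 h2
      exact (hKm y).2 ⟨h2.le, h1.le⟩
  have hw := hmax ((hKm w).2 ⟨hw2, hw1⟩)
  simp only [mem_ofPred_eq] at hw
  have b1 : 4 * ε * (r₂ - r₁) * (‖w - x‖ - r₁) ≤ 4 * ε * (r₂ - r₁) * (r₂ - r₁) :=
    mul_le_mul_of_nonneg_left (by linarith) (by linarith)
  have b2 : 0 ≤ ε * (‖w - x‖ - r₁) ^ 2 := by positivity
  linarith

/-- Let `a = (m₂ - m₁)/(r₂ - r₁) ≥ 0`, `τ > 0`, `ε = τ/(4(r₂ - r₁))`,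
`g r = m₁ + (a+τ)(r - r₁) - ε (r - r₁)²`, `φ w = g ‖w - x‖`. On the compact annulus `u - φ` attains its
maximum; at an interior maximum point `z ≠ x`, `φ` is `C²` near `z` and
`infLaplacian φ z = g'² g'' = -2ε g'² < 0` (`g' ≥ τ/2`), contradicting the subsolution test. On the two
spheres `u - φ ≤ 0`. Let `τ → 0`. For `-u` test the supersolution property with `-φ`. -/
theorem coneUp_of_infHarmonic {d : ℕ} {u : EuclideanSpace ℝ (Fin d) → ℝ}
    (hu : Crest.AnalysisR.PDE.IsInfinityHarmonicOn u (ball 0 1)) : ConeUp u ∧ ConeUp (-u) := by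
  have key : ∀ (σ m A ε r : ℝ) (x z : EuclideanSpace ℝ (Fin d)), z ≠ x →
      ContDiffAt ℝ 2 (fun w => σ * (m + A * (‖w - x‖ - r) - ε * (‖w - x‖ - r) ^ 2)) z ∧
      Crest.AnalysisR.PDE.infLaplacian
        (fun w => σ * (m + A * (‖w - x‖ - r) - ε * (‖w - x‖ - r) ^ 2)) z =
        σ * (-(2 * ε)) * (σ * (A - 2 * ε * (‖z - x‖ - r))) ^ 2 := by
    intro σ m A ε r x z hz
    have c1 := cone_contDiffAt (g := fun s => σ * (m + A * (s - r) - ε * (s - r) ^ 2))
      (by fun_prop) hz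
    refine ⟨c1, cone_lap (g := fun s => σ * (m + A * (s - r) - ε * (s - r) ^ 2))
      (g' := fun s => σ * (A - 2 * ε * (s - r))) (fun s => ?_) hz ?_ c1⟩
    · have h1 := (hasDerivAt_id' s).sub_const r
      exact ((((h1.const_mul A).const_add m).sub ((h1.pow 2).const_mul ε)).const_mul σ).congr_deriv
        (by simp; left; ring)
    · have h1 := (hasDerivAt_id' ‖z - x‖).sub_const r
      exact (((h1.const_mul (2 * ε)).const_sub A).const_mul σ).congr_deriv (by simp)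
  constructor
  · refine cone_main hu.1 fun x z m A ε r hz hzx hε hA hmax => ?_
    obtain ⟨k1, k2⟩ := key 1 m A ε r x z hzx
    have := (hu.2 z hz _ k1).1 (by simpa only [one_mul] using hmax)
    rw [k2] at this
    nlinarith [mul_pos hε (pow_pos hA 2)]
  · refine cone_main hu.1.neg fun x z m A ε r hz hzx hε hA hmax => ?_
    obtain ⟨k1, k2⟩ := key (-1) m A ε r x z hzx
    have := (hu.2 z hz _ k1).2 (by
      refine hmax.neg.congr (Filter.Eventually.of_forall fun w => ?_)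
      simp only [Pi.neg_apply]
      ring)
    rw [k2] at this
    nlinarith [mul_pos hε (pow_pos hA 2)]

end Crest.Agent.R094
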