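import Crest.Agent.R094.Env

/-! Row 94: Lipschitz extension and convexity in time. -/

set_option autoImplicit false

open scoped InnerProductSpace
open Set Metric

namespace Crest.Agent.R094

variable {E : Type*} [NormedAddCommGroup E] [InnerProductSpace ℝ E]

variable [FiniteDimensional ℝ E]

omit [InnerProductSpace ℝ E] [FiniteDimensional ℝ E] in
theorem coneExt_lip {u : E → ℝ} (hp : ConeUp u)
    (hosc : ∀ x ∈ ball (0 : E) 1, ∀ y ∈ ball (0 : E) 1, u x - u y ≤ 1) {x w : E}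
    (hx : ‖x‖ ≤ 3 / 4) (hw : ‖w‖ ≤ 3 / 4) : u w ≤ u x + 8 * ‖w - x‖ := by
  have hx1 : x ∈ ball (0 : E) 1 := mem_ball_zero_iff.2 (by linarith)
  by_cases h : ‖w - x‖ ≤ 1 / 8
  · have h1 := hp x 0 (1 / 8) (u x) (u x + 1) le_rfl (by norm_num) (by linarith) (by linarith)
      (fun z hz => by rw [sub_eq_zero.1 (norm_le_zero_iff.1 hz)])
      (fun z hz => by
        have hz1 : z ∈ ball (0 : E) 1 := by
          rw [mem_ball_zero_iff]
          have := norm_add_le (z - x) x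
          rw [sub_add_cancel] at this
          linarith
        linarith [hosc z hz1 x hx1]) w (norm_nonneg _) h
    have e : (u x + 1 - u x) * (‖w - x‖ - 0) / (1 / 8 - 0) = 8 * ‖w - x‖ := by ring
    linarith
  · have := hosc w (mem_ball_zero_iff.2 (by linarith)) x hx1
    linarith [not_le.1 h]

theorem coneExt_cvx {v V : E → ℝ} (hp : ConeUp v) (hV : Lip V 8)
    (he : ∀ x : E, ‖x‖ ≤ 3 / 4 → V x = v x) {x : E} (hx : ‖x‖ ≤ 5 / 8) : Cvx V (1 / 128) x := by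
  refine LinearOrder.convexOn_of_lt (convex_Icc _ _) ?_
  intro s₁ h₁ s₂ h₂ h12 α β hα hβ hαβ
  simp only [smul_eq_mul]
  set s := α * s₁ + β * s₂ with hs
  have hα' : α = 1 - β := by linarith
  have hs1 : s - s₁ = β * (s₂ - s₁) := by rw [hs, hα']; ring
  have hs2 : s₂ - s = α * (s₂ - s₁) := by
    have : β = 1 - α := by linarith
    rw [hs, this]; ring
  have h1s : s₁ ≤ s := by nlinarith [mul_pos hβ (sub_pos.2 h12)]
  have h2s : s ≤ s₂ := by nlinarith [mul_pos hα (sub_pos.2 h12)]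
  have hs0 : 0 ≤ s := le_trans h₁.1 h1s
  obtain ⟨a, ha, hopt⟩ := exists_Tp_eq hV hs0 x
  rcases (norm_nonneg a).eq_or_lt with h0 | h0
  · have ha0 : a = 0 := norm_eq_zero.1 h0.symm
    rw [hopt, ha0]
    simp only [smul_zero, add_zero, norm_zero]
    have e1 := self_le_Tp hV h₁.1 x
    have e2 := self_le_Tp hV h₂.1 x
    have e3 : V x = α * V x + β * V x := by rw [← add_mul, hαβ, one_mul]
    nlinarith [mul_le_mul_of_nonneg_left e1 hα.le, mul_le_mul_of_nonneg_left e2 hβ.le]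
  · set ρ := ‖a‖ with hρ
    have hr2 : s₂ * ρ ≤ 1 / 8 := by nlinarith [h₂.1, h₂.2]
    have hin : ∀ z : E, ‖z - x‖ ≤ 1 / 8 → V z = v z := fun z hz => he z (by
      have := norm_add_le (z - x) x
      rw [sub_add_cancel] at this
      linarith)
    have hbd : ∀ t : ℝ, 0 ≤ t → t ≤ s₂ → ∀ z : E, ‖z - x‖ ≤ t * ρ →
        v z ≤ Tp V t x + t * ρ ^ 2 / 2 := by
      intro t ht ht2 z hz
      have htr : t * ρ ≤ 1 / 8 := le_trans (mul_le_mul_of_nonneg_right ht2 h0.le) hr2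
      rw [← hin z (le_trans hz htr)]
      rcases ht.eq_or_lt with ht0 | ht0
      · subst ht0
        rw [zero_mul] at hz
        rw [sub_eq_zero.1 (norm_le_zero_iff.1 hz), Tp_zero]
        simp
      · have e1 := le_Tp_add hV ht0 x z
        have e2 : ‖z - x‖ ^ 2 / (2 * t) ≤ t * ρ ^ 2 / 2 := by
          rw [div_le_iff₀ (by linarith)]
          nlinarith [pow_le_pow_left₀ (norm_nonneg _) hz 2]
        linarith
    have hw : ‖x + s • a - x‖ = s * ρ := by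
      rw [add_sub_cancel_left, norm_smul, Real.norm_of_nonneg hs0]
    have hm : Tp V s₁ x + s₁ * ρ ^ 2 / 2 ≤ Tp V s₂ x + s₂ * ρ ^ 2 / 2 := by
      have := Tp_mono_time hV h₁.1 h12.le x
      nlinarith [sq_nonneg ρ]
    have key := hp x (s₁ * ρ) (s₂ * ρ) _ _ (mul_nonneg h₁.1 h0.le)
      (mul_lt_mul_of_pos_right h12 h0) (by linarith) hm (hbd s₁ h₁.1 h12.le)
      (hbd s₂ h₂.1 le_rfl) (x + s • a) (by rw [hw]; exact mul_le_mul_of_nonneg_right h1s h0.le)
      (by rw [hw]; exact mul_le_mul_of_nonneg_right h2s h0.le)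
    rw [hw, mul_div_assoc _ (s * ρ - s₁ * ρ)] at key
    have e : (s * ρ - s₁ * ρ) / (s₂ * ρ - s₁ * ρ) = β := by
      rw [← sub_mul, ← sub_mul, hs1, div_eq_iff (mul_pos (sub_pos.2 h12) h0).ne']
      ring
    rw [e, ← hin _ (by rw [hw]; exact le_trans (mul_le_mul_of_nonneg_right h2s h0.le) hr2)] at key
    rw [hopt]
    have e4 : s * ρ ^ 2 / 2 = α * (s₁ * ρ ^ 2 / 2) + β * (s₂ * ρ ^ 2 / 2) := by rw [hs]; ring
    rw [e4, hα']
    rw [hα'] at e4
    linarith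

/-- Lipschitz bound: `ConeUp` with `r₁ = 0`, `r₂ = 1/8`, `m₁ = u x`, `m₂ = u x + 1` gives
`u w - u x ≤ 8‖w - x‖` for `‖x‖ ≤ 3/4`, `w` in the unit ball. Extend from `closedBall 0 (3/4)`
(`LipschitzOnWith.extend_real`). Convexity at `‖x‖ ≤ 5/8`: for `s₁ < s < s₂` in `[0,1/128]` let `a` be optimal
at `s`, `ρ = ‖a‖ ≤ 16`; if `ρ > 0` apply `ConeUp` with `r_i = s_i ρ ≤ 1/8`,
`m_i = Tp U s_i x + s_i ρ²/2` (`le_Tp_add`, `Tp_mono_time`) at `w = x + s a`. Same for `-U`. -/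
theorem cone_ext {u : E → ℝ} (hp : ConeUp u) (hm : ConeUp (-u))
    (hosc : ∀ x ∈ ball (0 : E) 1, ∀ y ∈ ball (0 : E) 1, u x - u y ≤ 1) :
    ∃ U : E → ℝ, Lip U 8 ∧ (∀ x : E, ‖x‖ ≤ 3 / 4 → U x = u x) ∧
      ∀ x : E, ‖x‖ ≤ 5 / 8 → Cvx U (1 / 128) x ∧ Cvx (-U) (1 / 128) x := by
  have hl : LipschitzOnWith 8 u (closedBall 0 (3 / 4)) := by
    refine LipschitzOnWith.of_le_add_mul 8 fun x hx y hy => ?_
    rw [dist_eq_norm]
    exact coneExt_lip hp hosc (mem_closedBall_zero_iff.1 hy) (mem_closedBall_zero_iff.1 hx)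
  obtain ⟨U, hU, heq⟩ := hl.extend_real
  have hL : Lip U 8 := by
    refine ⟨by norm_num, fun x y => ?_⟩
    have := hU.le_add_mul x y
    rw [dist_eq_norm] at this
    push_cast at this
    linarith
  have he : ∀ x : E, ‖x‖ ≤ 3 / 4 → U x = u x := fun x hx =>
    (heq (mem_closedBall_zero_iff.2 hx)).symm
  refine ⟨U, hL, he, fun x hx => ⟨coneExt_cvx hp hL he hx, coneExt_cvx hm hL.neg ?_ hx⟩⟩
  intro y hy
  simp [he y hy]

end Crest.Agent.R094
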