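import Crest.Agent.R094.RigidHalf

/-! Row 94: rigidity when both mean slopes at `P` are almost constant over a long range of scales. -/

set_option autoImplicit false

open scoped InnerProductSpace
open Set Metric

namespace Crest.Agent.R094

variable {E : Type*} [NormedAddCommGroup E] [InnerProductSpace ℝ E]

variable [FiniteDimensional ℝ E]

theorem Rigid_poly (C : ℝ) (hC : 0 ≤ C) : ∃ k : ℕ, 1 ≤ k ∧ C * ((k : ℝ) + 1) ^ 2 ≤ 2 ^ k := by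
  have ht := tendsto_pow_const_div_const_pow_of_one_lt 2 (show (1 : ℝ) < 2 by norm_num)
  have hpos : (0 : ℝ) < 1 / (2 * C + 1) := by positivity
  obtain ⟨k, hk⟩ := ((ht.eventually (gt_mem_nhds hpos)).and (Filter.eventually_ge_atTop 2)).exists
  obtain ⟨k, rfl⟩ : ∃ k', k = k' + 1 := ⟨k - 1, by omega⟩
  refine ⟨k, by omega, ?_⟩
  have h1 := hk.1
  rw [div_lt_div_iff₀ (by positivity) (by positivity), one_mul, pow_succ (2 : ℝ) k] at h1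
  push_cast at h1
  nlinarith [sq_nonneg ((k : ℝ) + 1)]

theorem Rigid_one {Γ s₀ T R L S η H : ℝ} {k r : ℕ} {u : E → ℝ} {P V : E} (hΓ : 1 ≤ Γ)
    (hs₀ : 0 < s₀) (hT : T = 2 ^ k * s₀) (hR : R = 2 ^ r * T) (hr : 1 ≤ r)
    (c1 : (2 * (r : ℝ) + 7) ^ 2 * Γ ≤ 10 * 4 ^ r)
    (c2 : 2 * T ^ 2 * (2 * Γ + ((2 * (r : ℝ) + 12) * Γ) ^ 2) / R ≤ 1 / 32)
    (hu : Lip u L) (hS : 2 * R ≤ S)
    (hG : ∀ w ∈ ball P ((2 * T + 1) * (L + 1)), Good u Γ S η w) (hF : Frame u P s₀ V H Γ)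
    (hε : Sp u (2 * R) P - Sp u T P ≤ 1 / (32 * T)) :
    ∃ a : E, ‖V - a‖ ≤ (2 * k + 5) * Γ ∧ ∀ σ : ℝ, |σ| ≤ T / 2 → ∀ ζ : E,
      T * (Sp u (2 * R) P - Sp (-u) (2 * R) P) + σ * (Sp (-u) (2 * R) P + ‖a‖ ^ 2 / 2) +
        ⟪a, ζ + σ • (V - a)⟫_ℝ - ‖ζ + σ • (V - a)‖ ^ 2 / T - 1 / 16 ≤
        u (P + σ • V + ζ) - u P := by
  have hT0 : 0 < T := by rw [hT]; positivity
  have hL := hu.nonneg
  have hTR : 2 * T ≤ R := by
    rw [hR]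
    have : (2 : ℝ) ^ 1 ≤ 2 ^ r := pow_le_pow_right₀ (by norm_num) hr
    nlinarith
  have hR0 : 0 < R := by linarith
  have hP := hG P (mem_ball_self (by positivity))
  obtain ⟨v₀, h₀, F₀⟩ := hP.frame T hT0 (by linarith)
  obtain ⟨v₁, h₁, F₁⟩ := hP.frame (2 * R) (by linarith) hS
  have n0 : ‖v₀ - V‖ ≤ 2 * (k + 1) * Γ :=
    Frame.chain hΓ hs₀ hP.frame hF k (by rw [← hT]; linarith) (hT ▸ F₀)
  have e2 : 2 * R = 2 ^ (r + 1) * T := by rw [hR]; ring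
  have n1 : ‖v₁ - v₀‖ ≤ 2 * ((r + 1 : ℕ) + 1) * Γ :=
    Frame.chain hΓ hT0 hP.frame F₀ (r + 1) (e2 ▸ hS) (e2 ▸ F₁)
  push_cast at n1
  obtain ⟨a, haL, ha⟩ := exists_Tp_eq hu hT0.le P
  have n2 : ‖a - v₀‖ ≤ 3 * Γ := by
    have := F₀.argmax hu hT0 le_rfl ha
    rw [mul_div_assoc, div_self hT0.ne', mul_one] at this
    exact abs_le_of_sq_le_sq' (by nlinarith) (by positivity) |>.2
  have n3 : ‖a - v₁‖ ≤ (2 * r + 7) * Γ := by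
    have := norm_sub_le_norm_sub_add_norm_sub a v₀ v₁
    rw [norm_sub_rev v₀ v₁] at this
    linarith
  have F₂ : Frame u (P + T • a) R v₁ h₁ (5 * Γ) := by
    have := F₁.transfer (by linarith) (σ₀ := T) (by rw [abs_of_pos hT0]; linarith) (T • (a - v₁))
    rw [show P + T • v₁ + T • (a - v₁) = P + T • a by module, show 2 * R / 2 = R by ring] at this
    refine this.mono hR0 ?_
    have h4 : R ^ 2 = 4 ^ r * T ^ 2 := by
      rw [hR, mul_pow, ← pow_mul, mul_comm r 2, pow_mul]; norm_num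
    have : 3 * ‖T • (a - v₁)‖ ^ 2 / (8 * (2 * R) ^ 2) ≤ Γ := by
      rw [div_le_iff₀ (by positivity), norm_smul, Real.norm_eq_abs, mul_pow, sq_abs, mul_pow, h4]
      have h5 : ‖a - v₁‖ ^ 2 ≤ Γ * (10 * 4 ^ r) :=
        calc ‖a - v₁‖ ^ 2 ≤ ((2 * r + 7) * Γ) ^ 2 := by gcongr
          _ = Γ * ((2 * r + 7) ^ 2 * Γ) := by ring
          _ ≤ _ := by gcongr
      have h6 : 0 ≤ T ^ 2 * (Γ * 4 ^ r) := by positivity
      nlinarith [mul_le_mul_of_nonneg_left h5 (sq_nonneg T)]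
    linarith
  obtain ⟨b, -, hb⟩ := exists_Tm_eq hu hR0.le (P + T • a)
  have n4 : ‖b - v₁‖ ≤ 5 * Γ := by
    have := F₂.argmin hu hR0 le_rfl hb
    rw [mul_div_assoc, div_self hR0.ne', mul_one] at this
    exact abs_le_of_sq_le_sq' (by nlinarith) (by positivity) |>.2
  have n5 : ‖a - b‖ ≤ (2 * r + 12) * Γ := by
    have := norm_sub_le_norm_sub_add_norm_sub a v₁ b
    rw [norm_sub_rev v₁ b] at this
    linarith
  have hQ := hG (P + T • a) (by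
    rw [mem_ball_iff_norm, add_sub_cancel_left, norm_smul, Real.norm_eq_abs, abs_of_pos hT0]
    nlinarith [mul_le_mul_of_nonneg_left haL hT0.le])
  refine ⟨a, ?_, fun σ hσ ζ => ?_⟩
  · have := norm_sub_le_norm_sub_add_norm_sub V v₀ a
    rw [norm_sub_rev V v₀, norm_sub_rev v₀ a] at this
    linarith
  have key := rigid_half (Hp := Sp u (2 * R) P) (Hm := Sp (-u) (2 * R) P) (ε := 1 / (32 * T))
    (c₁ := 2 * Γ) (c₂ := ((2 * (r : ℝ) + 12) * Γ) ^ 2) hu hT0 hTR (by positivity) (by positivity)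
    ha (by rw [Tp_eq_Sp u hT0, add_sub_cancel_left]; gcongr; linarith)
    (by rw [Tp_eq_Sp u hT0, add_sub_cancel_left]
        exact mul_le_mul_of_nonneg_left (hP.pos.cvx.Sp_mono hT0 (by linarith) hS) hT0.le)
    (by rw [Tm_eq_Sp u (show 0 < R - T by linarith), sub_sub_cancel]
        exact mul_le_mul_of_nonneg_left (hP.neg.cvx.Sp_mono (by linarith) (by linarith) hS)
          (by linarith))
    (hQ.neg.cvx.mono (by linarith)) hb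
    (by have := abs_le.1 (F₁.Sp_bound hu (by linarith))
        have := abs_le.1 (F₁.Sm_bound hu (by linarith))
        linarith)
    (by gcongr) hσ (ζ + σ • (V - a))
  rw [show P + σ • a + (ζ + σ • (V - a)) = P + σ • V + ζ by module,
    show T * (1 / (32 * T)) = 1 / 32 by field_simp] at key
  linarith

theorem Rigid_sq {T : ℝ} (hT : 4 ≤ T) (x ξ : E) :
    ‖x + ξ‖ ^ 2 / T ≤ 2 * (‖x‖ ^ 2 / T) + ‖ξ‖ ^ 2 / 2 := by
  have hT0 : 0 < T := by linarith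
  have a1 : ‖x + ξ‖ ^ 2 ≤ 2 * ‖x‖ ^ 2 + 2 * ‖ξ‖ ^ 2 := by
    have := pow_le_pow_left₀ (norm_nonneg _) (norm_add_le x ξ) 2
    nlinarith [sq_nonneg (‖x‖ - ‖ξ‖)]
  rw [div_le_iff₀ hT0, add_mul, mul_assoc, div_mul_cancel₀ _ hT0.ne']
  nlinarith [mul_le_mul_of_nonneg_left hT (sq_nonneg ‖ξ‖)]

set_option maxHeartbeats 400000 in
/-- Choose `k₀` with `B² / T ≤ 1/20` where `T = L₀ = 2^k₀ (32A)`, `B = Az + A (2k₀+5) Γ`; then `r ≥ 2` with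
`R = 2^(r-1) T`, `(2r+5)² Γ ≤ 10 · 4^(r-1)`, `2T²(2Γ + (2r+10)²Γ²)/R ≤ 1/32`; `ε = 1/(32T)`, `D = 2T+1`.
Let `Hp = Sp u (2R) P`, `Hm = Sp (-u) (2R) P`, `(v₀,h₀)`, `(v₁,h₁)` frames at `P` of scales `T`, `2R`
(`|Hp - Hm| ≤ 2Γ`, `‖v₀ - V‖ ≤ 2(k₀+1)Γ`, `‖v₁ - v₀‖ ≤ 2(r+1)Γ` by `Frame.chain`). Let `a` be optimal for
`Tp u T P` and `b` for `Tm u T P` (`‖a - v₀‖², ‖b - v₀‖² ≤ 5Γ`). The frame `v₁` transferred to
`P + T a = P + T v₁ + T (a - v₁)` has scale `R` and constant `≤ 5Γ`, so the optimal `b'` for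
`Tm u R (P + T a)` has `‖b' - v₁‖² ≤ 25Γ` and `‖a - b'‖ ≤ (2r+10)Γ`. `rigid_half` for `u` gives, with
`c = T (Hp - Hm)`, `e₀ = Tε + 2T²(c₁+c₂)/R ≤ 1/16`, for `|σ| ≤ A`:
`u (P + σ V + ζ) - u P ≥ c + Lo(σ,ζ) - ‖ζ + σ (V-a)‖²/T - e₀`, `Lo(σ,ζ) = σ (Hm + ‖a‖²/2) + ⟪a, ζ + σ (V-a)⟫`;
`rigid_half` for `-u` (velocity `-b`, time `-σ`, roles of `Hp`, `Hm` swapped) gives
`u (P + σ V + ζ) - u P ≤ c + Up(σ,ζ) + ‖ζ + σ (V-b)‖²/T + e₀`, `Up(σ,ζ) = σ (Hp + ‖b‖²/2) + ⟪b, ζ + σ (V-b)⟫`.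
Both `Lo`, `Up` are linear; comparing at `(-t,-z)` gives `Up(t,z) - Lo(t,z) ≤ 2B²/T + 2e₀`. With
`x = P + tV + z`: `Env u 1 x ≤ Tp u 1 (x - b) + ‖b‖²/2` (`Env_le'`) and for every `ξ`
`u (x+ξ) - ‖b+ξ‖²/2 + ‖b‖²/2 ≤ u P + c + Up(t,z) + 2B²/T + e₀` (as `2/T ≤ 1/2`). Total `5B²/T + 4e₀ ≤ 1/2`. -/
theorem rigid (Γ A Az : ℝ) (hΓ : 1 ≤ Γ) (hA : 1 ≤ A) (hAz : 0 ≤ Az) :
    ∃ (L₀ ε D : ℝ) (r : ℕ), 32 * A ≤ L₀ ∧ 0 < ε ∧ 0 ≤ D ∧
      ∀ (u : E → ℝ) (L S η : ℝ) (P V : E) (H t : ℝ) (z : E), Lip u L → 2 ^ r * L₀ ≤ S →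
        (∀ w ∈ ball P (D * (L + 1)), Good u Γ S η w) → Frame u P (32 * A) V H Γ →
        |t| ≤ A → ‖z‖ ≤ Az →
        Sp u (2 ^ r * L₀) P - Sp u L₀ P ≤ ε → Sp (-u) (2 ^ r * L₀) P - Sp (-u) L₀ P ≤ ε →
        Env u 1 (P + t • V + z) - u (P + t • V + z) ≤ 1 / 2 := by
  obtain ⟨k, -, hk⟩ := Rigid_poly ((Az + 5 * A * Γ) ^ 2) (by positivity)
  obtain ⟨T, hT⟩ : ∃ T : ℝ, T = 2 ^ k * (32 * A) := ⟨_, rfl⟩
  have h2k : (1 : ℝ) ≤ 2 ^ k := one_le_pow₀ (by norm_num)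
  have hTA : 32 * A ≤ T := by rw [hT]; nlinarith
  have hT0 : 0 < T := by linarith
  obtain ⟨r, hr1, hr⟩ := Rigid_poly (64 * 146 * T * Γ ^ 2 + 49 * Γ) (by positivity)
  obtain ⟨B, hB⟩ : ∃ B : ℝ, B = Az + A * ((2 * k + 5) * Γ) := ⟨_, rfl⟩
  have hk0 : (0 : ℝ) ≤ k := Nat.cast_nonneg k
  have hr0 : (0 : ℝ) ≤ r := Nat.cast_nonneg r
  have hB0 : 0 ≤ B := by rw [hB]; positivity
  have hBT : B ^ 2 / T ≤ 1 / 20 := by
    have h1 : B ≤ (Az + 5 * A * Γ) * (k + 1) := by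
      rw [hB]
      have : 0 ≤ A * Γ * k := by positivity
      have : 0 ≤ Az * k := by positivity
      nlinarith
    have h2 : B ^ 2 ≤ 2 ^ k := (pow_le_pow_left₀ hB0 h1 2).trans (by rw [mul_pow]; exact hk)
    rw [div_le_div_iff₀ hT0 (by norm_num), hT]
    nlinarith
  have c1 : (2 * (r : ℝ) + 7) ^ 2 * Γ ≤ 10 * 4 ^ r := by
    have h1 : (2 : ℝ) ^ r ≤ 4 ^ r := pow_le_pow_left₀ (by norm_num) (by norm_num) r
    have h2 : (2 * (r : ℝ) + 7) ^ 2 ≤ 49 * (r + 1) ^ 2 := by nlinarith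
    have h3 : 0 ≤ 64 * 146 * T * Γ ^ 2 * (r + 1) ^ 2 := by positivity
    have h4 : (0 : ℝ) ≤ 4 ^ r := by positivity
    nlinarith [mul_le_mul_of_nonneg_right h2 (show 0 ≤ Γ by linarith)]
  have c2 : 2 * T ^ 2 * (2 * Γ + ((2 * (r : ℝ) + 12) * Γ) ^ 2) / (2 ^ r * T) ≤ 1 / 32 := by
    have h2 : 2 * Γ + ((2 * (r : ℝ) + 12) * Γ) ^ 2 ≤ 146 * Γ ^ 2 * (r + 1) ^ 2 := by
      have a1 : (2 * (r : ℝ) + 12) ^ 2 ≤ 144 * (r + 1) ^ 2 := by nlinarith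
      have a2 : Γ ≤ Γ ^ 2 * (r + 1) ^ 2 := by
        have : (1 : ℝ) ≤ (r + 1) ^ 2 := by nlinarith
        nlinarith [mul_le_mul_of_nonneg_left this (sq_nonneg Γ)]
      nlinarith [mul_le_mul_of_nonneg_left a1 (sq_nonneg Γ)]
    have h3 : 0 ≤ 49 * Γ * (r + 1) ^ 2 := by positivity
    have h4 : 64 * T * (146 * Γ ^ 2 * (r + 1) ^ 2) ≤ 2 ^ r := by nlinarith
    rw [div_le_div_iff₀ (by positivity) (by norm_num)]
    have h5 := mul_le_mul_of_nonneg_left h2 (show 0 ≤ 64 * T by positivity)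
    nlinarith [mul_le_mul_of_nonneg_left (h5.trans h4) hT0.le]
  refine ⟨T, 1 / (32 * T), 2 * T + 1, r + 1, hTA, by positivity, by positivity, ?_⟩
  intro u L S η P V H t z hu hS hG hF ht hz h1 h2
  rw [show 2 ^ (r + 1) * T = 2 * (2 ^ r * T) by ring] at hS h1 h2
  obtain ⟨a, na, ha⟩ := Rigid_one hΓ (by linarith) hT rfl hr1 c1 c2 hu hS hG hF h1
  obtain ⟨b', nb, hb⟩ := Rigid_one hΓ (by linarith) hT rfl hr1 c1 c2 hu.neg hS
    (fun w hw => (hG w hw).negate) hF.neg h2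
  obtain ⟨b, rfl⟩ : ∃ b, b' = -b := ⟨-b', (neg_neg _).symm⟩
  rw [neg_neg] at hb
  rw [show -V - -b = -(V - b) by abel, norm_neg] at nb
  generalize Sp u (2 * (2 ^ r * T)) P = Hp at ha hb
  generalize Sp (-u) (2 * (2 ^ r * T)) P = Hm at ha hb
  have hb' : ∀ σ : ℝ, |σ| ≤ T / 2 → ∀ ζ : E, u (P + σ • V + ζ) - u P ≤
      T * (Hp - Hm) + σ * (Hp + ‖b‖ ^ 2 / 2) + ⟪b, ζ + σ • (V - b)⟫_ℝ +
        ‖ζ + σ • (V - b)‖ ^ 2 / T + 1 / 16 := by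
    intro σ hσ ζ
    have := hb (-σ) (by rwa [abs_neg]) ζ
    rw [show ζ + -σ • (-V - -b) = ζ + σ • (V - b) by module, show P + -σ • -V + ζ = P + σ • V + ζ
      by module, inner_neg_left, norm_neg, Pi.neg_apply, Pi.neg_apply] at this
    linarith
  have ht' : |t| ≤ T / 2 := by linarith
  have hn : ∀ c : E, ‖V - c‖ ≤ (2 * k + 5) * Γ → ‖z + t • (V - c)‖ ≤ B := by
    intro c hc
    refine (norm_add_le _ _).trans ?_
    rw [norm_smul, Real.norm_eq_abs, hB]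
    gcongr
  have hn2 : ∀ c : E, ‖V - c‖ ≤ (2 * k + 5) * Γ → ‖z + t • (V - c)‖ ^ 2 / T ≤ 1 / 20 := by
    intro c hc
    refine le_trans ?_ hBT
    have := hn c hc
    gcongr
  have q1 := ha (-t) (by rwa [abs_neg]) (-z)
  have q2 := hb' (-t) (by rwa [abs_neg]) (-z)
  rw [show -z + -t • (V - a) = -(z + t • (V - a)) by module, inner_neg_right, norm_neg] at q1
  rw [show -z + -t • (V - b) = -(z + t • (V - b)) by module, inner_neg_right, norm_neg] at q2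
  have q3 := ha t ht' z
  have q4 := Env_le' hu zero_le_one (P + t • V + z) b
  have q5 : Tp u 1 (P + t • V + z - (1 : ℝ) • b) ≤ u P + T * (Hp - Hm) + t * (Hp + ‖b‖ ^ 2 / 2) +
      ⟪b, z + t • (V - b)⟫_ℝ + 1 / 10 + 1 / 16 - ‖b‖ ^ 2 / 2 := by
    refine Tp_le fun c => ?_
    obtain ⟨ξ, rfl⟩ : ∃ ξ, c = b + ξ := ⟨c - b, by abel⟩
    have := hb' t ht' (z + ξ)
    rw [show z + ξ + t • (V - b) = z + t • (V - b) + ξ by abel, inner_add_right] at this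
    rw [show P + t • V + z - (1 : ℝ) • b + (1 : ℝ) • (b + ξ) = P + t • V + (z + ξ) by module,
      norm_add_sq_real]
    have h3 := Rigid_sq (show 4 ≤ T by linarith) (z + t • (V - b)) ξ
    have := hn2 b nb
    linarith
  have := hn2 a na
  have := hn2 b nb
  linarith

end Crest.Agent.R094
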