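import Crest.Agent.R094.Step
import Crest.Agent.R094.Rigid
import Crest.Agent.R094.Chain

/-! Row 94: the normalised configuration cannot be near-extremal. -/

set_option autoImplicit false

open scoped InnerProductSpace
open Set Metric

namespace Crest.Agent.R094

variable {E : Type*} [NormedAddCommGroup E] [InnerProductSpace ℝ E]

variable [FiniteDimensional ℝ E]

/-- Pigeonhole for the increments of a finite sequence. -/
theorem core_pigeon (f : ℕ → ℝ) (K : ℕ) (hK : 1 ≤ K) {ε : ℝ} (h : f K - f 0 ≤ K * ε) :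
    ∃ k, k < K ∧ f (k + 1) - f k ≤ ε := by
  by_contra hc
  push Not at hc
  have h1 : ∀ m, 1 ≤ m → m ≤ K → (m : ℝ) * ε < f m - f 0 := by
    intro m hm
    induction m, hm using Nat.le_induction with
    | base => intro h1; simpa using hc 0 (by omega)
    | succ m hm ih =>
      intro hmK
      have h2 := ih (by omega)
      have h3 := hc m (by omega)
      push_cast; linarith
  have := h1 K hK le_rfl
  linarith

set_option maxHeartbeats 800000 in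
/-- Take `A, N₂, D₁` from `step`, `N = ⌈N₂⌉₊`, `Az = 4A√Γ`, and `L₀, ε, D₂, r` from `rigid`. Let
`K : ℕ` with `K ε ≥ 2 N₂ + 12 Γ`, `K ≥ 1`, `n = r K`, `i₀ = N · 4 N^n`, `J₁ : ℕ` with `J₁ ≥ 2`, `J₁ ≥ i₀`,
`2^n L₀ i₀ ≤ 8 A J₁`; `θ₀ = i₀ / J₁` (so `2^n θ₀ ≤ 1/4`), `η = 1/J₁`, `S = 32 A`. Suppose
`1 - η ≤ Env u 1 0 - u 0`. With a frame `(v,h)` at `0` of scale `16A`, `step` at `i = i₀` gives
`P = t v + z` with `θ₀ - N₂/J₁ ≤ Env u θ₀ P - u P` and `h - N₂ ≤ Sp (-u) (2/J₁) P`; a frame at `P` of scale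
`2/J₁` gives `Sp u (2/J₁) P ≥ h - N₂ - 2Γ`; the frame transferred to `P` (scale `8A`, constant `≤ 5Γ`) gives
`Sp (±u) (8A) P ≤ h + 5Γ`. `f k = Sp u s_k P + Sp (-u) s_k P`, `s_k = 2^(r k) L₀ θ₀ ∈ [2/J₁, 8A]` for
`k ≤ K`; both summands are monotone (`Cvx.Sp_mono`), `f K - f 0 ≤ 2N₂ + 12Γ`, so some `k < K` has
`f (k+1) - f k ≤ ε`. Apply `chain` with `n' = r k` (`4N^n' ≤ 4N^n`), `τ = 2^n' θ₀`, then `rigid` to
`resc u P τ τ` at `0` (with `S/τ`, `η/τ`; `Sp_resc₁`, `resc_neg`): `3/4 ≤ 1/2`, contradiction. -/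
theorem core (Γ : ℝ) (hΓ : 1 ≤ Γ) :
    ∃ η S D : ℝ, 0 < η ∧ η ≤ 1 ∧ 1 ≤ S ∧ 0 ≤ D ∧
      ∀ (u : E → ℝ) (L : ℝ), Lip u L → (∀ w ∈ ball (0 : E) (D * (L + 1)), Good u Γ S η w) →
        Env u 1 0 - u 0 < 1 - η := by
  obtain ⟨A, N₂, D₁, hA, hN₂, hD₁, hstep⟩ := step (E := E) Γ hΓ
  have hA0 : 0 < A := by linarith
  have hΓ0 : 0 < Γ := by linarith
  obtain ⟨N, hNN, hN1⟩ : ∃ N : ℕ, N₂ ≤ N ∧ 1 ≤ N :=
    ⟨⌈N₂⌉₊, Nat.le_ceil _, Nat.one_le_iff_ne_zero.2 (Nat.ceil_pos.2 (by linarith)).ne'⟩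
  have hN1' : (1 : ℝ) ≤ N := by exact_mod_cast hN1
  have hup : StepUp E Γ A N D₁ := by
    intro u L S η J y v h hu hS hJ hη hG hF h1
    obtain ⟨t, z, ht, hz, h2, -⟩ := hstep u L S η J y v h hu hS hJ hη hG hF h1 (2 * J)
      (by omega) le_rfl
    have hJ0 : (0 : ℝ) < J := by exact_mod_cast (by omega : 0 < J)
    have h3 : ((2 * J : ℕ) : ℝ) / J = 2 := by push_cast; field_simp
    rw [h3] at h2
    refine ⟨t, z, ht, hz, le_trans ?_ h2⟩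
    have : N₂ / J ≤ N / J := by gcongr
    linarith
  obtain ⟨L₀, ε, D₂, r, hL₀, hε, hD₂, hrig⟩ :=
    rigid (E := E) Γ A (4 * A * √Γ) hΓ hA (by positivity)
  have hL₀0 : 0 < L₀ := by linarith
  obtain ⟨K, hK1, hK⟩ : ∃ K : ℕ, 1 ≤ K ∧ 2 * N₂ + 12 * Γ ≤ K * ε := by
    refine ⟨⌈(2 * N₂ + 12 * Γ) / ε⌉₊ + 1, by omega, ?_⟩
    have h1 := Nat.le_ceil ((2 * N₂ + 12 * Γ) / ε)
    rw [div_le_iff₀ hε] at h1
    push_cast; nlinarith
  obtain ⟨i₀, hi₀⟩ : ∃ i₀ : ℕ, i₀ = N * (4 * N ^ (r * K)) := ⟨_, rfl⟩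
  have hi1 : 1 ≤ i₀ := by
    rw [hi₀]; exact Nat.succ_le_of_lt (by positivity)
  have hi1' : (1 : ℝ) ≤ i₀ := by exact_mod_cast hi1
  obtain ⟨J, hJ2, hJi, hJ⟩ : ∃ J : ℕ, 2 ≤ J ∧ i₀ ≤ J ∧ 2 ^ (r * K) * L₀ * i₀ ≤ 8 * A * J := by
    refine ⟨⌈2 ^ (r * K) * L₀ * i₀ / (8 * A)⌉₊ + i₀ + 2, by omega, by omega, ?_⟩
    have h1 := Nat.le_ceil (2 ^ (r * K) * L₀ * i₀ / (8 * A))
    rw [div_le_iff₀ (by positivity)] at h1
    push_cast; nlinarith
  have hJ2' : (2 : ℝ) ≤ J := by exact_mod_cast hJ2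
  have hJ0 : (0 : ℝ) < J := by linarith
  obtain ⟨θ₀, hθ₀⟩ : ∃ θ₀ : ℝ, θ₀ = (i₀ : ℝ) / J := ⟨_, rfl⟩
  have hθ0 : 0 < θ₀ := by rw [hθ₀]; positivity
  have hθ1 : 1 / (J : ℝ) ≤ θ₀ := by rw [hθ₀]; gcongr
  have hθ2 : 2 ^ (r * K) * L₀ * θ₀ ≤ 8 * A := by
    rw [hθ₀, ← mul_div_assoc, div_le_iff₀ hJ0]; exact hJ
  refine ⟨1 / J, 32 * A, D₁ + D₂ + 10 * A * Γ, by positivity, ?_, by linarith, by positivity, ?_⟩
  · rw [div_le_one hJ0]; linarith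
  intro u L hu hG
  by_contra hc
  have hc' : 1 - 1 / (J : ℝ) ≤ Env u 1 0 - u 0 := not_lt.1 hc
  have hL := hu.nonneg
  have hL1 : 0 < L + 1 := by linarith
  have hAΓ : 0 < A * Γ := by positivity
  have hG0 : Good u Γ (32 * A) (1 / J) 0 := hG 0 (mem_ball_self (by positivity))
  obtain ⟨v, h, hF⟩ := hG0.frame (16 * A) (by positivity) (by linarith)
  obtain ⟨t₀, z₀, ht₀, hz₀, h1, h2⟩ := hstep u L (32 * A) (1 / J) J 0 v h hu (by linarith) hJ2 le_rfl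
    (fun w hw => hG w (ball_subset_ball (mul_le_mul_of_nonneg_right (by linarith) hL1.le) hw))
    (hF.mono (by positivity) (by linarith)) hc' i₀ hi1 (by omega)
  have hFP := hF.transfer (by positivity) (σ₀ := t₀) (by linarith) z₀
  have hv := hF.norm_le hu (by positivity)
  obtain ⟨P, hP⟩ : ∃ P : E, P = 0 + t₀ • v + z₀ := ⟨_, rfl⟩
  rw [← hP] at h1 h2 hFP
  rw [← hθ₀] at h1
  have hPn : ‖P‖ ≤ 3 * A * Γ * (L + 1) := by
    have h3 : ‖P‖ ≤ |t₀| * ‖v‖ + ‖z₀‖ := by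
      rw [hP, zero_add]
      refine (norm_add_le _ _).trans ?_
      rw [norm_smul, Real.norm_eq_abs]
    have h4 : |t₀| * ‖v‖ ≤ A * (L + Γ + 1) := by gcongr
    have h5 : A * L ≤ A * Γ * L := by
      have : A ≤ A * Γ := by nlinarith
      exact mul_le_mul_of_nonneg_right this hL
    have h6 : A ≤ A * Γ := by nlinarith
    have h7 : 0 ≤ A * Γ * L := by positivity
    linarith
  have hGP : ∀ (ρ : ℝ) (w : E), ρ ≤ D₁ + D₂ + 7 * A * Γ → ‖w - P‖ < ρ * (L + 1) →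
      Good u Γ (32 * A) (1 / J) w := by
    intro ρ w hρ hw
    refine hG w ?_
    rw [mem_ball_zero_iff]
    have h3 : ‖w‖ ≤ ‖w - P‖ + ‖P‖ := by simpa using norm_add_le (w - P) P
    have h4 : ρ * (L + 1) ≤ (D₁ + D₂ + 7 * A * Γ) * (L + 1) := by gcongr
    linarith
  have hP0 : Good u Γ (32 * A) (1 / J) P :=
    hGP (7 * A * Γ) P (by linarith) (by rw [sub_self, norm_zero]; positivity)
  -- lower bounds at the small scale
  have hs0 : (0 : ℝ) < 2 / J := by positivity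
  have hs1 : (2 : ℝ) / J ≤ 1 := by rw [div_le_one hJ0]; exact hJ2'
  have hlo1 : h - N₂ ≤ Sp (-u) (2 / J) P := by
    rw [Sp_neg, le_div_iff₀ hs0]; linarith
  have hlo2 : h - N₂ - 2 * Γ ≤ Sp u (2 / J) P := by
    obtain ⟨v', h', hF'⟩ := hP0.frame (2 / J) hs0 (by linarith)
    have h3 := abs_le.1 (hF'.Sp_bound hu hs0)
    have h4 := abs_le.1 (hF'.Sm_bound hu hs0)
    linarith [h3.1, h4.2]
  -- upper bounds at the large scale
  have hFP' : Frame u P (8 * A) v h (5 * Γ) := by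
    rw [show 16 * A / 2 = 8 * A by ring] at hFP
    refine hFP.mono (by positivity) ?_
    have h3 : ‖z₀‖ ^ 2 ≤ A ^ 2 := by gcongr
    have h4 : 3 * ‖z₀‖ ^ 2 / (8 * (16 * A) ^ 2) ≤ 1 := by
      rw [div_le_one (by positivity)]
      have := sq_nonneg A
      linarith
    linarith
  have hup1 := (abs_le.1 (hFP'.Sp_bound hu (by positivity))).2
  have hup2 := (abs_le.1 (hFP'.Sm_bound hu (by positivity))).2
  -- the scales
  obtain ⟨s, hs⟩ : ∃ s : ℕ → ℝ, ∀ k, s k = 2 ^ (r * k) * L₀ * θ₀ := ⟨_, fun _ => rfl⟩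
  have hspos : ∀ k, 0 < s k := fun k => by rw [hs]; positivity
  have hsmono : ∀ k k', k ≤ k' → s k ≤ s k' := by
    intro k k' hk
    rw [hs, hs]
    have : (2 : ℝ) ^ (r * k) ≤ 2 ^ (r * k') :=
      pow_le_pow_right₀ (by norm_num) (Nat.mul_le_mul_left r hk)
    gcongr
  have hsK : s K ≤ 8 * A := by rw [hs]; exact hθ2
  have hs00 : 2 / (J : ℝ) ≤ s 0 := by
    rw [hs, mul_zero, pow_zero, one_mul]
    have : (2 : ℝ) / J = 2 * (1 / J) := by ring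
    rw [this]
    exact mul_le_mul (by linarith) hθ1 (by positivity) hL₀0.le
  have hcp := hP0.pos.cvx
  have hcn := hP0.neg.cvx
  obtain ⟨k, hk, hkε⟩ := core_pigeon (fun k => Sp u (s k) P + Sp (-u) (s k) P) K hK1 (ε := ε) (by
    have h3 := hcp.Sp_mono (hspos K) hsK (by linarith)
    have h4 := hcn.Sp_mono (hspos K) hsK (by linarith)
    have h5 := hcp.Sp_mono hs0 hs00 ((hsmono 0 K (by omega)).trans (by linarith))
    have h6 := hcn.Sp_mono hs0 hs00 ((hsmono 0 K (by omega)).trans (by linarith))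
    linarith)
  have hk8 : s (k + 1) ≤ 8 * A := (hsmono _ _ hk).trans hsK
  have hm1 := hcp.Sp_mono (hspos k) (hsmono k (k + 1) (by omega)) (by linarith)
  have hm2 := hcn.Sp_mono (hspos k) (hsmono k (k + 1) (by omega)) (by linarith)
  -- the chain
  have hτ0 : 0 < 2 ^ (r * k) * θ₀ := by positivity
  have hsk : s k = L₀ * (2 ^ (r * k) * θ₀) := by rw [hs]; ring
  have hsk1 : s (k + 1) = 2 ^ r * L₀ * (2 ^ (r * k) * θ₀) := by rw [hs]; ring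
  have hτ1 : 2 ^ (r * k) * θ₀ ≤ 1 := by
    have h3 : s k ≤ 8 * A := (hsmono _ _ hk.le).trans hsK
    rw [hsk] at h3
    have h4 : 32 * A * (2 ^ (r * k) * θ₀) ≤ L₀ * (2 ^ (r * k) * θ₀) := by gcongr
    refine le_of_mul_le_mul_left ?_ (show 0 < 32 * A by positivity)
    linarith
  have hNk : (N : ℝ) / J ≤ θ₀ / (4 * (N : ℝ) ^ (r * k)) := by
    have h3 : (N : ℝ) ^ (r * k) ≤ (N : ℝ) ^ (r * K) :=
      pow_le_pow_right₀ hN1' (Nat.mul_le_mul_left r hk.le)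
    rw [le_div_iff₀ (by positivity), hθ₀, hi₀, div_mul_eq_mul_div]
    push_cast
    gcongr
  have hNJ : N₂ / J ≤ (N : ℝ) / J := by gcongr
  have h1J : 1 / (J : ℝ) ≤ (N : ℝ) / J := by gcongr
  obtain ⟨V, H, t, z, hFV, ht, hz, hE⟩ := chain hΓ hA hN1 hD₁ hup (u := u) (L := L) (S := 32 * A)
    (η := 1 / J) (θ₀ := θ₀) (P := P) (r * k) hu le_rfl hθ0 hτ1 (h1J.trans hNk)
    (fun w hw => hGP (D₁ + 7 * A * Γ) w (by linarith) (by rwa [mem_ball, dist_eq_norm] at hw))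
    (by rw [mul_sub, mul_one, mul_one_div]; linarith)
  obtain ⟨τ, hτ⟩ : ∃ τ : ℝ, τ = 2 ^ (r * k) * θ₀ := ⟨_, rfl⟩
  rw [← hτ] at hFV ht hz hE hτ0 hτ1 hsk hsk1
  have hP' : P + τ • (0 : E) = P := by simp
  have hfin := hrig (resc u P τ τ) L (32 * A / τ) (1 / J / τ) 0 V H (t / τ) (τ⁻¹ • z)
    (hu.rescale₁ P hτ0) (by rw [le_div_iff₀ hτ0, ← hsk1]; linarith)
    (fun w hw => Good.rescale₁ hu hτ0 hτ1 (hGP D₂ _ (by linarith) (by
      rw [mem_ball_zero_iff] at hw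
      rw [add_sub_cancel_left, norm_smul, Real.norm_eq_abs, abs_of_pos hτ0]
      exact (mul_le_of_le_one_left (norm_nonneg w) hτ1).trans_lt hw)))
    (Frame.rescale₁ hτ0 (by positivity) (by rwa [hP']))
    (by rw [abs_div, abs_of_pos hτ0, div_le_iff₀ hτ0]; exact ht)
    (by rw [norm_smul, norm_inv, Real.norm_eq_abs, abs_of_pos hτ0, inv_mul_le_iff₀ hτ0]; linarith)
    (by
      rw [Sp_resc₁ hu P hτ0 (by positivity), Sp_resc₁ hu P hτ0 hL₀0, hP', ← hsk, ← hsk1]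
      linarith)
    (by
      rw [← resc_neg, Sp_resc₁ hu.neg P hτ0 (by positivity), Sp_resc₁ hu.neg P hτ0 hL₀0, hP', ← hsk,
        ← hsk1]
      linarith)
  have hx : P + τ • ((0 : E) + (t / τ) • V + τ⁻¹ • z) = P + t • V + z := by
    rw [zero_add, smul_add, smul_smul, smul_smul, mul_div_cancel₀ _ hτ0.ne', mul_inv_cancel₀ hτ0.ne',
      one_smul, add_assoc]
  rw [Env_resc₁ hu P hτ0 zero_le_one, resc_apply, hx, one_mul, ← sub_div, div_le_iff₀ hτ0] at hfin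
  linarith

end Crest.Agent.R094
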