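import Mathlib

/-! Row 94: conditional discrete convexity propagates a lower bound. -/

set_option autoImplicit false

namespace Crest.Agent.R094

theorem DC_chord (F : ℕ → ℝ) {a m b : ℕ} (ha : a < m) (hb : m < b)
    (h : ∀ j, a < j → j < b → 2 * F j ≤ F (j + 1) + F (j - 1)) :
    ((b : ℝ) - m) * (F m - F a) ≤ ((m : ℝ) - a) * (F b - F m) := by
  set δ := F (m + 1) - F m with hδ
  have hR : ∀ k : ℕ, m + k + 1 ≤ b → δ ≤ F (m + k + 1) - F (m + k) ∧
      (k + 1) * δ ≤ F (m + k + 1) - F m := by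
    intro k
    induction k with
    | zero => intro _; simp [hδ]
    | succ k ih =>
      intro hk
      obtain ⟨h1, h2⟩ := ih (by omega)
      have h3 := h (m + k + 1) (by omega) (by omega)
      rw [Nat.add_sub_cancel] at h3
      rw [← add_assoc]
      push_cast
      constructor <;> linarith
  have hL : ∀ k j : ℕ, j + k = m → a ≤ j → F (j + 1) - F j ≤ δ ∧ F m - F j ≤ k * δ := by
    intro k
    induction k with
    | zero =>
      intro j hj _
      obtain rfl : j = m := hj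
      simp [hδ]
    | succ k ih =>
      intro j hj haj
      obtain ⟨h1, h2⟩ := ih (j + 1) (by omega) (by omega)
      have h3 := h (j + 1) (by omega) (by omega)
      rw [Nat.add_sub_cancel] at h3
      push_cast
      constructor <;> linarith
  obtain ⟨k, rfl⟩ : ∃ k, b = m + k + 1 := ⟨b - m - 1, by omega⟩
  obtain ⟨l, rfl⟩ : ∃ l, m = a + l := ⟨m - a, by omega⟩
  have h1 := (hR k le_rfl).2
  have h2 := (hL l a rfl le_rfl).2
  push_cast
  have e1 : (a : ℝ) + l + k + 1 - (a + l) = k + 1 := by ring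
  have e2 : (a : ℝ) + l - a = l := by ring
  rw [e1, e2]
  have h3 := mul_le_mul_of_nonneg_left h1 (Nat.cast_nonneg (α := ℝ) l)
  have h4 := mul_le_mul_of_nonneg_left h2 (by positivity : (0 : ℝ) ≤ k + 1)
  linarith

/-- Let `F = G + q`. If some index is bad (`G j < -N₁`), let `j₀ < m` be the largest bad index left of `m`
(or `lo` if there is none) and `j₁ > m` the smallest bad index right of `m` (or `hi`). `F` is discretely
convex at the indices strictly between `j₀` and `j₁`, so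
`(j₁ - j₀) F m ≤ (j₁ - m) F j₀ + (m - j₀) F j₁`. If both are bad, `F m < -N₁ + Q ≤ -N₀`. If only `j₀` is
bad, `j₁ = hi` and `F j₀ ≥ F m - κ (U + Q + N₀)`. Symmetrically for `j₁`. -/
theorem disc_convex (G q : ℕ → ℝ) (lo m hi : ℕ) (U Q N₀ N₁ κ : ℝ) (hlo : lo < m) (hhi : m < hi)
    (hU : ∀ j, lo ≤ j → j ≤ hi → G j ≤ U) (hm : -N₀ ≤ G m)
    (hq0 : ∀ j, lo ≤ j → j ≤ hi → 0 ≤ q j) (hqQ : ∀ j, lo ≤ j → j ≤ hi → q j ≤ Q)
    (hconv : ∀ j, lo < j → j < hi → -N₁ ≤ G j →
      2 * (G j + q j) ≤ (G (j + 1) + q (j + 1)) + (G (j - 1) + q (j - 1)))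
    (hκ1 : ((m : ℝ) - lo) ≤ κ * ((hi : ℝ) - m)) (hκ2 : ((hi : ℝ) - m) ≤ κ * ((m : ℝ) - lo))
    (hN : N₀ + Q + κ * (U + Q + N₀) ≤ N₁) :
    ∀ j, lo ≤ j → j ≤ hi → -N₁ ≤ G j := by
  classical
  have hlo' : (lo : ℝ) < m := by exact_mod_cast hlo
  have hhi' : (m : ℝ) < hi := by exact_mod_cast hhi
  have hκ : 0 < κ := by
    by_contra h
    nlinarith [not_lt.mp h]
  have hUm := hU m hlo.le hhi.le
  have hq0m := hq0 m hlo.le hhi.le
  have hqQm := hqQ m hlo.le hhi.le
  have hW : 0 ≤ U + Q + N₀ := by linarith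
  have hκW := mul_nonneg hκ.le hW
  obtain ⟨a, ha, hamax⟩ := Finset.exists_max_image
    (insert lo ((Finset.Ico lo m).filter fun j => G j < -N₁)) id (Finset.insert_nonempty _ _)
  obtain ⟨b, hb, hbmin⟩ := Finset.exists_min_image
    (insert hi ((Finset.Ioc m hi).filter fun j => G j < -N₁)) id (Finset.insert_nonempty _ _)
  simp only [Finset.mem_insert, Finset.mem_filter, Finset.mem_Ico, Finset.mem_Ioc, id] at ha hb hamax hbmin
  have ha1 : lo ≤ a ∧ a < m := by
    rcases ha with rfl | ha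
    · exact ⟨le_rfl, hlo⟩
    · exact ha.1
  have hb1 : m < b ∧ b ≤ hi := by
    rcases hb with rfl | hb
    · exact ⟨hhi, le_rfl⟩
    · exact hb.1
  have hleft : ∀ j, lo ≤ j → j < m → G j < -N₁ → j ≤ a := fun j h1 h2 h3 =>
    hamax j (Or.inr ⟨⟨h1, h2⟩, h3⟩)
  have hright : ∀ j, m < j → j ≤ hi → G j < -N₁ → b ≤ j := fun j h1 h2 h3 =>
    hbmin j (Or.inr ⟨⟨h1, h2⟩, h3⟩)
  have hgood : ∀ j, a < j → j < b → -N₁ ≤ G j := by
    intro j h1 h2
    by_contra h3
    rw [not_le] at h3
    rcases lt_trichotomy j m with h | h | h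
    · have := hleft j (by omega) h h3
      omega
    · subst h
      linarith
    · have := hright j h (by omega) h3
      omega
  have hc := DC_chord (fun j => G j + q j) ha1.2 hb1.1 fun j h1 h2 =>
    hconv j (by omega) (by omega) (hgood j h1 h2)
  have a1 : (lo : ℝ) ≤ a := by exact_mod_cast ha1.1
  have a2 : (a : ℝ) < m := by exact_mod_cast ha1.2
  have b1 : (m : ℝ) < b := by exact_mod_cast hb1.1
  have b2 : (b : ℝ) ≤ hi := by exact_mod_cast hb1.2
  have hqa := hqQ a ha1.1 (by omega)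
  have hqb := hqQ b (by omega) hb1.2
  have hUa := hU a ha1.1 (by omega)
  have hUb := hU b (by omega) hb1.2
  have hboth : ¬ (G a < -N₁ ∧ G b < -N₁) := by
    rintro ⟨h1, h2⟩
    have h3 : 0 < ((b : ℝ) - m) * (G m + q m - (G a + q a)) :=
      mul_pos (by linarith) (by linarith)
    have h4 : 0 < ((m : ℝ) - a) * (G m + q m - (G b + q b)) :=
      mul_pos (by linarith) (by linarith)
    linarith
  have hna : ¬ G a < -N₁ := by
    intro h1
    have hbe : b = hi := hb.resolve_right fun h => hboth ⟨h1, h.2⟩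
    subst hbe
    have h3 : ((m : ℝ) - a) * (G b + q b - (G m + q m)) ≤ ((m : ℝ) - a) * (U + Q + N₀) :=
      mul_le_mul_of_nonneg_left (by linarith) (by linarith)
    have h4 : ((m : ℝ) - a) * (U + Q + N₀) ≤ κ * ((b : ℝ) - m) * (U + Q + N₀) :=
      mul_le_mul_of_nonneg_right (by linarith) hW
    have h5 : ((b : ℝ) - m) * (κ * (U + Q + N₀)) < ((b : ℝ) - m) * (G m + q m - (G a + q a)) :=
      mul_lt_mul_of_pos_left (by linarith) (by linarith)
    linarith
  have hnb : ¬ G b < -N₁ := by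
    intro h1
    have hae : a = lo := ha.resolve_right fun h => hboth ⟨h.2, h1⟩
    subst hae
    have h3 : ((b : ℝ) - m) * (G a + q a - (G m + q m)) ≤ ((b : ℝ) - m) * (U + Q + N₀) :=
      mul_le_mul_of_nonneg_left (by linarith) (by linarith)
    have h4 : ((b : ℝ) - m) * (U + Q + N₀) ≤ κ * ((m : ℝ) - a) * (U + Q + N₀) :=
      mul_le_mul_of_nonneg_right (by linarith) hW
    have h5 : ((m : ℝ) - a) * (κ * (U + Q + N₀)) < ((m : ℝ) - a) * (G m + q m - (G b + q b)) :=
      mul_lt_mul_of_pos_left (by linarith) (by linarith)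
    linarith
  have hae : a = lo := ha.resolve_right fun h => hna h.2
  have hbe : b = hi := hb.resolve_right fun h => hnb h.2
  subst hae hbe
  intro j h1 h2
  rcases h1.eq_or_lt with rfl | h1
  · exact not_lt.mp hna
  rcases h2.eq_or_lt with rfl | h2
  · exact not_lt.mp hnb
  exact hgood j h1 h2

end Crest.Agent.R094
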