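import Mathlib

/-!
Row 94 (interior C^{1,α} estimate for infinity-harmonic functions): definitions.

`Tp u s x = sup_w u w - |w - x|² / (2 s)` and `Tm u s x = inf_w u w + |w - x|² / (2 s)` are the two
Hopf-Lax flows of `H(p) = |p|²/2`; `Env u θ = Tm (Tp u θ) θ` is the least `1/θ`-semiconcave majorant.
-/

set_option autoImplicit false

open scoped InnerProductSpace
open Set Metric

namespace Crest.Agent.R094

variable {E : Type*} [NormedAddCommGroup E] [InnerProductSpace ℝ E]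

/-- `u` is globally `L`-Lipschitz. -/
structure Lip (u : E → ℝ) (L : ℝ) : Prop where
  nonneg : 0 ≤ L
  le : ∀ x y, u x - u y ≤ L * ‖x - y‖

/-- Sup-flow `T^s u`. -/
noncomputable def Tp (u : E → ℝ) (s : ℝ) (x : E) : ℝ :=
  ⨆ a : E, (u (x + s • a) - s * ‖a‖ ^ 2 / 2)

/-- Inf-flow `T_s u`. -/
noncomputable def Tm (u : E → ℝ) (s : ℝ) (x : E) : ℝ := -Tp (-u) s x

/-- The envelope `T_θ T^θ u`. -/
noncomputable def Env (u : E → ℝ) (θ : ℝ) (x : E) : ℝ := Tm (Tp u θ) θ x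

/-- The mean slope `S⁺_s = (T^s u - u) / s`; `Sp (-u) s x = (u x - Tm u s x) / s` is `S⁻_s`. -/
noncomputable def Sp (u : E → ℝ) (s : ℝ) (x : E) : ℝ := (Tp u s x - u x) / s

/-- The three-point function. -/
noncomputable def W (u : E → ℝ) (δ θ : ℝ) (x : E) : ℝ := Env (Tp u δ) θ x - Tm u (2 * δ) x

/-- Rescaling `x ↦ u (y + r x) / k`; time is rescaled by `r² / k`. -/
noncomputable def resc (u : E → ℝ) (y : E) (r k : ℝ) : E → ℝ := fun x => u (y + r • x) / k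

/-- A moving frame at `y` and scale `s`, with velocity `v`, energy `h` and constant `Γ`. -/
def Frame (u : E → ℝ) (y : E) (s : ℝ) (v : E) (h Γ : ℝ) : Prop :=
  ∀ σ : ℝ, |σ| ≤ s → ∀ z : E,
    |u (y + σ • v + z) - u y - ⟪v, z⟫_ℝ - σ * (h + ‖v‖ ^ 2 / 2)| ≤ Γ * s + ‖z‖ ^ 2 / (16 * s)

/-- Convexity in time of the sup-flow at `x`, on `[0, S]`. -/
def Cvx (u : E → ℝ) (S : ℝ) (x : E) : Prop := ConvexOn ℝ (Icc 0 S) (fun s => Tp u s x)

/-- One-sided part of the normalised hypotheses at a point. -/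
structure Good1 (u : E → ℝ) (S η : ℝ) (x : E) : Prop where
  cvx : Cvx u S x
  env : ∀ θ : ℝ, 0 < θ → θ ≤ 3 → Env u θ x - u x ≤ θ + η

/-- The normalised hypotheses at a point. -/
structure Good (u : E → ℝ) (Γ S η : ℝ) (x : E) : Prop where
  pos : Good1 u S η x
  neg : Good1 (-u) S η x
  frame : ∀ s : ℝ, 0 < s → s ≤ S → ∃ (v : E) (h : ℝ), Frame u x s v h Γ

/-- Comparison with cones from above inside the unit ball. -/
def ConeUp (u : E → ℝ) : Prop :=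
  ∀ (x : E) (r₁ r₂ m₁ m₂ : ℝ), 0 ≤ r₁ → r₁ < r₂ → ‖x‖ + r₂ < 1 → m₁ ≤ m₂ →
    (∀ w, ‖w - x‖ ≤ r₁ → u w ≤ m₁) → (∀ w, ‖w - x‖ ≤ r₂ → u w ≤ m₂) →
    ∀ w, r₁ ≤ ‖w - x‖ → ‖w - x‖ ≤ r₂ → u w ≤ m₁ + (m₂ - m₁) * (‖w - x‖ - r₁) / (r₂ - r₁)

end Crest.Agent.R094
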