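import Crest.Agent.R094.Basic

/-! Row 94: basic API of `Env` and `Cvx`, slopes. -/

set_option autoImplicit false

open scoped InnerProductSpace
open Set Metric

namespace Crest.Agent.R094

variable {E : Type*} [NormedAddCommGroup E] [InnerProductSpace ℝ E]

variable {u : E → ℝ} {L θ S : ℝ}

theorem Lip.env (hu : Lip u L) (hθ : 0 ≤ θ) : Lip (Env u θ) L := by
  exact (hu.tp hθ).tm hθ

theorem Env_le (hu : Lip u L) (hθ : 0 < θ) (x P : E) :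
    Env u θ x ≤ Tp u θ P + ‖x - P‖ ^ 2 / (2 * θ) := by
  rw [← norm_neg, neg_sub]
  exact Tm_le_add (hu.tp hθ.le) hθ x P

theorem Env_le' (hu : Lip u L) (hθ : 0 ≤ θ) (x p : E) :
    Env u θ x ≤ Tp u θ (x - θ • p) + θ * ‖p‖ ^ 2 / 2 := by
  exact Tm_le (hu.tp hθ) hθ x p

theorem self_le_Env (hu : Lip u L) (hθ : 0 ≤ θ) (x : E) : u x ≤ Env u θ x := by
  refine le_Tm fun b => ?_
  have h := le_Tp hu hθ (x - θ • b) b
  rw [sub_add_cancel] at h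
  linarith

theorem Env_le_add (hu : Lip u L) (hθ : 0 ≤ θ) (x : E) :
    Env u θ x ≤ u x + L ^ 2 * θ / 2 := by
  exact (Tm_le_self (hu.tp hθ) hθ x).trans (Tp_le_add hu hθ x)

theorem exists_Env_eq [FiniteDimensional ℝ E] (hu : Lip u L) (hθ : 0 ≤ θ) (x : E) :
    ∃ p : E, ‖p‖ ≤ 2 * L ∧ Env u θ x = Tp u θ (x - θ • p) + θ * ‖p‖ ^ 2 / 2 := by
  exact exists_Tm_eq (hu.tp hθ) hθ x

/-- Upper slope: `u (x+ξ) ≤ Tp u θ P + ‖x + ξ - P‖²/(2θ)` with `P = x - θ p`. -/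
theorem upper_slope (hu : Lip u L) (hθ : 0 < θ) {x p : E}
    (h : Env u θ x = Tp u θ (x - θ • p) + θ * ‖p‖ ^ 2 / 2) (ξ : E) :
    u (x + ξ) ≤ Env u θ x + ⟪p, ξ⟫_ℝ + ‖ξ‖ ^ 2 / (2 * θ) := by
  have h1 := le_Tp_add hu hθ (x - θ • p) (x + ξ)
  have e : x + ξ - (x - θ • p) = θ • p + ξ := by abel
  rw [e, norm_add_sq_real, norm_smul, real_inner_smul_left, Real.norm_eq_abs, abs_of_pos hθ] at h1
  have e2 : ((θ * ‖p‖) ^ 2 + 2 * (θ * ⟪p, ξ⟫_ℝ) + ‖ξ‖ ^ 2) / (2 * θ) =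
      θ * ‖p‖ ^ 2 / 2 + ⟪p, ξ⟫_ℝ + ‖ξ‖ ^ 2 / (2 * θ) := by
    field_simp
  rw [e2] at h1
  linarith

/-- Take `ξ = d / (2 b)`. -/
theorem sq_le_of_inner_le {d : E} {a b : ℝ} (hb : 0 < b)
    (h : ∀ ξ : E, ⟪d, ξ⟫_ℝ ≤ a + b * ‖ξ‖ ^ 2) : ‖d‖ ^ 2 ≤ 4 * a * b := by
  have h1 := h ((1 / (2 * b)) • d)
  have hb' : 0 < 1 / (2 * b) := by positivity
  rw [real_inner_smul_right, real_inner_self_eq_norm_sq, norm_smul, Real.norm_eq_abs,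
    abs_of_pos hb'] at h1
  have e : b * (1 / (2 * b) * ‖d‖) ^ 2 = ‖d‖ ^ 2 / (4 * b) := by field_simp; ring
  have e2 : 1 / (2 * b) * ‖d‖ ^ 2 = 2 * (‖d‖ ^ 2 / (4 * b)) := by field_simp; ring
  rw [e, e2] at h1
  have h2 : ‖d‖ ^ 2 / (4 * b) ≤ a := by linarith
  rw [div_le_iff₀ (by positivity)] at h2
  linarith

/-- Two-sided slope from the envelope bounds for `u` and `-u`. With `p`, `p'` the upper slopes of
`u` and `-u`: `0 ≤ 2ω + ⟪p+p', ξ⟫ + ‖ξ‖²/θ`, so `‖p+p'‖² ≤ 8ω/θ`, and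
`|⟪p+p',ξ⟫| ≤ θ‖p+p'‖²/2 + ‖ξ‖²/(2θ)`. -/
theorem exists_slope [FiniteDimensional ℝ E] (hu : Lip u L) (hθ : 0 < θ) {x : E} {ω : ℝ}
    (h1 : Env u θ x - u x ≤ ω) (h2 : Env (-u) θ x + u x ≤ ω) :
    ∃ p : E, ‖p‖ ≤ 2 * L ∧ ∀ ξ : E, |u (x + ξ) - u x - ⟪p, ξ⟫_ℝ| ≤ 5 * ω + ‖ξ‖ ^ 2 / θ := by
  obtain ⟨p, hp, e1⟩ := exists_Env_eq hu hθ.le x
  obtain ⟨p', -, e2⟩ := exists_Env_eq hu.neg hθ.le x
  have u1 := upper_slope hu hθ e1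
  have u2 := upper_slope hu.neg hθ e2
  have hω : 0 ≤ ω := by linarith [self_le_Env hu hθ.le x]
  have half : ∀ ξ : E, ‖ξ‖ ^ 2 / θ = 2 * (‖ξ‖ ^ 2 / (2 * θ)) := fun ξ => by field_simp
  have hd : ‖-(p + p')‖ ^ 2 ≤ 4 * (2 * ω) * (1 / θ) := by
    refine sq_le_of_inner_le (by positivity) fun ξ => ?_
    have a1 := u1 ξ
    have a2 := u2 ξ
    have a3 := half ξ
    rw [inner_neg_left, inner_add_left, one_div_mul_eq_div]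
    simp only [Pi.neg_apply] at a2
    linarith
  rw [norm_neg] at hd
  refine ⟨p, hp, fun ξ => ?_⟩
  have a1 := u1 ξ
  have a2 := u2 ξ
  have a3 := half ξ
  simp only [Pi.neg_apply] at a2
  have hq : 0 ≤ ‖ξ‖ ^ 2 / (2 * θ) := by positivity
  have a4 : ⟪p + p', ξ⟫_ℝ ≤ 4 * ω + ‖ξ‖ ^ 2 / (2 * θ) := by
    have b1 := real_inner_le_norm (p + p') ξ
    have b2 : ‖p + p'‖ * ‖ξ‖ ≤ θ * ‖p + p'‖ ^ 2 / 2 + ‖ξ‖ ^ 2 / (2 * θ) := by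
      have : θ * ‖p + p'‖ ^ 2 / 2 + ‖ξ‖ ^ 2 / (2 * θ) - ‖p + p'‖ * ‖ξ‖ =
          (θ * ‖p + p'‖ - ‖ξ‖) ^ 2 / (2 * θ) := by field_simp; ring
      have h0 : 0 ≤ (θ * ‖p + p'‖ - ‖ξ‖) ^ 2 / (2 * θ) := by positivity
      linarith
    have b3 : θ * ‖p + p'‖ ^ 2 ≤ 8 * ω := by
      calc θ * ‖p + p'‖ ^ 2 ≤ θ * (4 * (2 * ω) * (1 / θ)) := by gcongr
        _ = 8 * ω := by field_simp; ring
    linarith
  rw [inner_add_left] at a4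
  rw [abs_le]
  constructor <;> linarith

theorem Cvx.mono {S' : ℝ} {x : E} (h : Cvx u S x) (hS : S' ≤ S) : Cvx u S' x := by
  exact ConvexOn.subset h (Icc_subset_Icc_right hS) (convex_Icc _ _)

/-- Chord slopes of a convex function increase with both endpoints. -/
theorem Cvx.slope_mono {x : E} (h : Cvx u S x) {s₁ s₂ s₃ s₄ : ℝ} (h1 : 0 ≤ s₁) (h12 : s₁ < s₂)
    (h34 : s₃ < s₄) (h13 : s₁ ≤ s₃) (h24 : s₂ ≤ s₄) (h4 : s₄ ≤ S) :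
    (Tp u s₂ x - Tp u s₁ x) / (s₂ - s₁) ≤ (Tp u s₄ x - Tp u s₃ x) / (s₄ - s₃) := by
  have m1 : s₁ ∈ Icc 0 S := ⟨h1, by linarith⟩
  have m2 : s₂ ∈ Icc 0 S := ⟨by linarith, by linarith⟩
  have m3 : s₃ ∈ Icc 0 S := ⟨by linarith, by linarith⟩
  have m4 : s₄ ∈ Icc 0 S := ⟨by linarith, h4⟩
  have h14 : s₁ < s₄ := by linarith
  have a1 := ConvexOn.secant_mono h m1 m2 m4 h12.ne' h14.ne' h24
  have a2 := ConvexOn.secant_mono h m4 m1 m3 h14.ne h34.ne h13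
  have flip : ∀ a b c d : ℝ, (a - b) / (c - d) = (b - a) / (d - c) := fun a b c d => by
    rw [← neg_sub b a, ← neg_sub d c, neg_div_neg_eq]
  rw [flip _ _ s₁ s₄, flip _ _ s₃ s₄] at a2
  exact a1.trans a2

theorem Cvx.Sp_mono {x : E} (h : Cvx u S x) {s s' : ℝ} (hs : 0 < s) (hss : s ≤ s') (hS : s' ≤ S) :
    Sp u s x ≤ Sp u s' x := by
  have := h.slope_mono (le_refl 0) hs (hs.trans_le hss) (le_refl 0) hss hS
  simpa [Sp, Tp_zero] using this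

theorem Cvx.mid {x : E} (h : Cvx u S x) {δ : ℝ} (hδ : 0 ≤ δ) (hS : 2 * δ ≤ S) :
    2 * Tp u δ x ≤ u x + Tp u (2 * δ) x := by
  have m0 : (0 : ℝ) ∈ Icc 0 S := ⟨le_refl _, by linarith⟩
  have m2 : 2 * δ ∈ Icc 0 S := ⟨by linarith, hS⟩
  have := h.2 m0 m2 (show (0 : ℝ) ≤ 1 / 2 by norm_num) (show (0 : ℝ) ≤ 1 / 2 by norm_num)
    (by norm_num)
  have e : (1 / 2 : ℝ) • (0 : ℝ) + (1 / 2 : ℝ) • (2 * δ) = δ := by simp
  rw [e] at this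
  simp only [smul_eq_mul, Tp_zero] at this
  linarith

theorem Tp_eq_Sp (u : E → ℝ) {s : ℝ} (hs : 0 < s) (x : E) : Tp u s x = u x + s * Sp u s x := by
  unfold Sp
  field_simp
  ring

theorem Tm_eq_Sp (u : E → ℝ) {s : ℝ} (hs : 0 < s) (x : E) :
    Tm u s x = u x - s * Sp (-u) s x := by
  rw [Sp_neg]
  field_simp
  ring

end Crest.Agent.R094
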