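import Crest.Agent.R094.Rep

/-! Row 94: moving a convex combination forward; the three-point inequality. -/

set_option autoImplicit false

open scoped InnerProductSpace
open Set Metric

namespace Crest.Agent.R094

variable {E : Type*} [NormedAddCommGroup E] [InnerProductSpace ℝ E]

variable {φ u : E → ℝ} {L θ δ : ℝ}

theorem forward_quad (hθ : 0 < θ) (hδ : 0 ≤ δ) (A B : E) :
    ‖A + δ • B‖ ^ 2 / (2 * (θ + δ)) ≤ ‖A‖ ^ 2 / (2 * θ) + δ * ‖B‖ ^ 2 / 2 := by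
  have h1 : ‖A + δ • B‖ ^ 2 = ‖A‖ ^ 2 + 2 * (δ * ⟪A, B⟫_ℝ) + δ ^ 2 * ‖B‖ ^ 2 := by
    rw [norm_add_sq_real, real_inner_smul_right, norm_smul, mul_pow, Real.norm_eq_abs, sq_abs]
  have h2 : ‖A - θ • B‖ ^ 2 = ‖A‖ ^ 2 - 2 * (θ * ⟪A, B⟫_ℝ) + θ ^ 2 * ‖B‖ ^ 2 := by
    rw [norm_sub_sq_real, real_inner_smul_right, norm_smul, mul_pow, Real.norm_eq_abs, sq_abs]
  have h3 : ‖A‖ ^ 2 / (2 * θ) + δ * ‖B‖ ^ 2 / 2 - ‖A + δ • B‖ ^ 2 / (2 * (θ + δ)) =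
      δ * ‖A - θ • B‖ ^ 2 / (2 * θ * (θ + δ)) := by
    rw [h1, h2]
    field_simp
    ring
  have h4 : 0 ≤ δ * ‖A - θ • B‖ ^ 2 / (2 * θ * (θ + δ)) := by positivity
  linarith

theorem forward_var {ι : Type*} [Fintype ι] (α : ι → ℝ) (a : ι → E) (hsum : ∑ i, α i = 1) :
    ∑ i, α i * ‖a i - ∑ j, α j • a j‖ ^ 2 = ∑ i, α i * ‖a i‖ ^ 2 - ‖∑ j, α j • a j‖ ^ 2 := by
  set b := ∑ j, α j • a j with hb
  have h1 : ∑ i, α i * ⟪a i, b⟫_ℝ = ‖b‖ ^ 2 := by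
    rw [← real_inner_self_eq_norm_sq]
    conv_rhs => rw [hb, sum_inner, ← hb]
    exact Finset.sum_congr rfl fun i _ => (real_inner_smul_left _ _ _).symm
  have h2 : ∀ i, α i * ‖a i - b‖ ^ 2 =
      α i * ‖a i‖ ^ 2 - 2 * (α i * ⟪a i, b⟫_ℝ) + α i * ‖b‖ ^ 2 := by
    intro i
    rw [norm_sub_sq_real]; ring
  simp only [h2]
  rw [Finset.sum_add_distrib, Finset.sum_sub_distrib, ← Finset.mul_sum, ← Finset.sum_mul, h1, hsum]
  ring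

theorem forward_norm_le {ι : Type*} [Fintype ι] {α : ι → ℝ} {a : ι → E} {c : ℝ}
    (hα : ∀ i, 0 ≤ α i) (hsum : ∑ i, α i = 1) (ha : ∀ i, ‖a i‖ ≤ c) : ‖∑ i, α i • a i‖ ≤ c := by
  calc ‖∑ i, α i • a i‖ ≤ ∑ i, α i * c := by
        refine norm_sum_le_of_le _ fun i _ => ?_
        rw [norm_smul, Real.norm_eq_abs, abs_of_nonneg (hα i)]
        exact mul_le_mul_of_nonneg_left (ha i) (hα i)
    _ = c := by rw [← Finset.sum_mul, hsum, one_mul]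

/-- Apply `sum_le_Env` at the points `y i + δ a i` (barycentre `x + δ ā`), use
`‖A + δ B‖²/(2(θ+δ)) ≤ ‖A‖²/(2θ) + δ ‖B‖²/2` with `A = y i - x`, `B = a i - ā`, and
`∑ α i ‖a i - ā‖² = ∑ α i ‖a i‖² - ‖ā‖²`. -/
theorem forward_core (hφ : Lip φ L) (hθ : 0 < θ) (hδ : 0 ≤ δ) {ι : Type*} [Fintype ι] (α : ι → ℝ)
    (y a : ι → E) {x : E} (hα : ∀ i, 0 ≤ α i) (hsum : ∑ i, α i = 1) (hbar : ∑ i, α i • y i = x) :
    ∑ i, α i * (φ (y i + δ • a i) - δ * ‖a i‖ ^ 2 / 2 - ‖y i - x‖ ^ 2 / (2 * θ))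
        + δ * ‖∑ i, α i • a i‖ ^ 2 / 2 ≤ Env φ (θ + δ) (x + δ • ∑ i, α i • a i) := by
  have hv := forward_var α a hsum
  set b := ∑ j, α j • a j with hb
  have h1 := sum_le_Env hφ (show 0 < θ + δ by linarith) α (fun i => y i + δ • a i)
    (x := x + δ • b) hα hsum (by
      simp only [smul_add, Finset.sum_add_distrib, hbar, hb, Finset.smul_sum, smul_comm δ])
  refine le_trans ?_ h1
  have h2 : ∀ i, α i * (φ (y i + δ • a i) - δ * ‖a i‖ ^ 2 / 2 - ‖y i - x‖ ^ 2 / (2 * θ)) +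
      δ / 2 * (α i * ‖a i‖ ^ 2) - δ / 2 * (α i * ‖a i - b‖ ^ 2) ≤
      α i * (φ (y i + δ • a i) - ‖y i + δ • a i - (x + δ • b)‖ ^ 2 / (2 * (θ + δ))) := by
    intro i
    have e : y i + δ • a i - (x + δ • b) = (y i - x) + δ • (a i - b) := by
      rw [smul_sub]; abel
    have h3 := mul_le_mul_of_nonneg_left (forward_quad hθ hδ (y i - x) (a i - b)) (hα i)
    rw [e]
    linarith
  have h3 := Finset.sum_le_sum fun i (_ : i ∈ Finset.univ) => h2 i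
  rw [Finset.sum_sub_distrib, Finset.sum_add_distrib, ← Finset.mul_sum, ← Finset.mul_sum, hv] at h3
  linarith

/-- `exists_rep` for `Tp φ δ`, optimal velocities `a i` at the `y i`, `forward_core`. -/
theorem env_forward [FiniteDimensional ℝ E] (hφ : Lip φ L) (hθ : 0 < θ) (hδ : 0 ≤ δ) (x : E) :
    ∃ a : E, ‖a‖ ≤ 2 * L ∧
      Env (Tp φ δ) θ x + δ * ‖a‖ ^ 2 / 2 ≤ Env φ (θ + δ) (x + δ • a) := by
  obtain ⟨p, n, α, y, hα, hsum, hbar, -, -, -, -, -, hE⟩ := exists_rep (hφ.tp hδ) hθ x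
  choose a ha ha' using fun i => exists_Tp_eq hφ hδ (y i)
  refine ⟨∑ i, α i • a i, forward_norm_le hα hsum ha, ?_⟩
  rw [hE]
  simp only [ha']
  exact forward_core hφ hθ hδ α y a hα hsum hbar

/-- `sum_le_Env` for `-u` with the two points `y ± ξ`. -/
theorem second_diff (hu : Lip u L) (hθ : 0 < θ) (y ξ : E) :
    -2 * Env (-u) θ y - ‖ξ‖ ^ 2 / θ ≤ u (y + ξ) + u (y - ξ) := by
  have h := sum_le_Env hu.neg hθ (ι := Fin 2) ![1 / 2, 1 / 2] ![y + ξ, y - ξ] (x := y)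
    (fun i => by fin_cases i <;> norm_num) (by norm_num [Fin.sum_univ_two]) (by
      simp only [Fin.sum_univ_two, Matrix.cons_val_zero, Matrix.cons_val_one]
      module)
  simp only [Fin.sum_univ_two, Matrix.cons_val_zero, Matrix.cons_val_one, add_sub_cancel_left,
    sub_sub_cancel_left, norm_neg, Pi.neg_apply] at h
  have e : ‖ξ‖ ^ 2 / θ = 2 * (‖ξ‖ ^ 2 / (2 * θ)) := by field_simp
  linarith

/-- `Env u θ x = Tm (Tm (Tp u θ) (θ-δ)) δ x` and `Tp (Tp u δ) (θ-δ) = Tp u θ`. -/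
theorem env_backward (hu : Lip u L) (hδ : 0 ≤ δ) (hθ : δ ≤ θ) (x b : E) :
    Env u θ x - δ * ‖b‖ ^ 2 / 2 ≤ Env (Tp u δ) (θ - δ) (x - δ • b) := by
  have hθ' : 0 ≤ θ - δ := sub_nonneg.2 hθ
  have e1 : Tp (Tp u δ) (θ - δ) = Tp u θ := by
    funext z
    rw [Tp_add hu hδ hθ', add_sub_cancel]
  have hT := hu.tp (hδ.trans hθ)
  have e2 := Tm_add hT hθ' hδ x
  rw [sub_add_cancel] at e2
  have h := Tm_le (hT.tm hθ') hδ x b
  unfold Env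
  rw [e1, ← e2]
  linarith

/-- The three-point inequality. Put `F(x,θ) = Env (Tp u δ) θ x = ∑ α i (Tp u δ (y i) - ‖y i - x‖²/(2θ))`
(`exists_rep`). With `a i` optimal for `Tp (Tp u δ) δ (y i) = Tp u (2δ) (y i)` and `a = ∑ α i • a i`,
`forward_core` (for `φ = Tp u δ`) gives `F(x+δa,θ+δ) ≥ ∑ α i (Tp u (2δ) (y i) - ‖y i - x‖²/(2θ)) + δ‖a‖²/2`;
`env_backward` and `sum_le_Env` give `F(x-δb,θ-δ) ≥ ∑ α i (u (y i) - ‖y i - x‖²/(2θ)) - δ‖b‖²/2`; add and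
use `Cvx.mid` at the `y i`. Let `b` be optimal for `Tm u (2δ) x`, `m = x - δ b`. Then
`Tm u δ m ≤ Tm u (2δ) x - δ‖b‖²/2`, `Cvx.mid` for `-u` at `m` gives
`-Tm u (2δ) m ≥ u m - 2 Tm u δ m`, and `Tm u (2δ) (x+δa) ≤ u m + δ‖a+b‖²/4` (`Tm_le_add`). Finally
`(‖a‖² - ‖b‖²)/2 + ‖b‖² - ‖a+b‖²/4 = ‖a-b‖²/4`. -/
theorem three [FiniteDimensional ℝ E] (hu : Lip u L) (hδ : 0 < δ) (hθ : δ < θ) (x : E)
    (hp : ∀ y, ‖y - x‖ ≤ 4 * L * θ → Cvx u (2 * δ) y)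
    (hm : ∀ y, ‖y - x‖ ≤ 4 * L * θ → Cvx (-u) (2 * δ) y) :
    ∃ a b : E, ‖a‖ ≤ 2 * L ∧ ‖b‖ ≤ 2 * L ∧
      Tm u (2 * δ) x = u (x - (2 * δ) • b) + 2 * δ * ‖b‖ ^ 2 / 2 ∧
      2 * W u δ θ x + δ * ‖a - b‖ ^ 2 / 4 ≤
        W u δ (θ + δ) (x + δ • a) + W u δ (θ - δ) (x - δ • b) := by
  have hθ0 : 0 < θ := hδ.trans hθ
  have hL := hu.nonneg
  have hT := hu.tp hδ.le
  obtain ⟨p, n, α, y, hα, hsum, hbar, -, -, -, -, hy, hE⟩ := exists_rep hT hθ0 x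
  choose a ha ha' using fun i => exists_Tp_eq hT hδ.le (y i)
  obtain ⟨b, hb, hb'⟩ := exists_Tm_eq hu (show 0 ≤ 2 * δ by linarith) x
  refine ⟨∑ i, α i • a i, b, forward_norm_le hα hsum ha, hb, hb', ?_⟩
  have f1 := forward_core hT hθ0 hδ.le α y a hα hsum hbar
  simp only [← ha'] at f1
  generalize ∑ i, α i • a i = c at f1 ⊢
  have f2 := env_backward hu hδ.le hθ.le x b
  have f3 := sum_le_Env hu hθ0 α y hα hsum hbar
  have f4 : 2 * ∑ i, α i * (Tp u δ (y i) - ‖y i - x‖ ^ 2 / (2 * θ)) ≤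
      ∑ i, α i * (Tp (Tp u δ) δ (y i) - ‖y i - x‖ ^ 2 / (2 * θ)) +
        ∑ i, α i * (u (y i) - ‖y i - x‖ ^ 2 / (2 * θ)) := by
    rw [Finset.mul_sum, ← Finset.sum_add_distrib]
    refine Finset.sum_le_sum fun i _ => ?_
    have h1 := (hp (y i) (hy i)).mid hδ.le le_rfl
    rw [Tp_add hu hδ.le hδ.le, ← two_mul]
    nlinarith [mul_le_mul_of_nonneg_left h1 (hα i)]
  have hmx : ‖x - δ • b - x‖ ≤ 4 * L * θ := by
    rw [sub_sub_cancel_left, norm_neg, norm_smul, Real.norm_eq_abs, abs_of_pos hδ]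
    nlinarith [mul_le_mul_of_nonneg_left hb hδ.le, mul_le_mul_of_nonneg_left hθ.le hL,
      mul_nonneg hL hθ0.le]
  have g1 := Tm_le hu hδ.le (x - δ • b) b
  have e1 : x - δ • b - δ • b = x - (2 * δ) • b := by module
  rw [e1] at g1
  have g2 := (hm _ hmx).mid hδ.le le_rfl
  rw [Tp_neg, Tp_neg, Pi.neg_apply] at g2
  have g3 := Tm_le_add hu (show 0 < 2 * δ by linarith) (x + δ • c) (x - δ • b)
  have e2 : ‖x - δ • b - (x + δ • c)‖ ^ 2 / (2 * (2 * δ)) = δ * ‖c + b‖ ^ 2 / 4 := by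
    have : x - δ • b - (x + δ • c) = -(δ • (c + b)) := by module
    rw [this, norm_neg, norm_smul, mul_pow, Real.norm_eq_abs, sq_abs]
    field_simp
    ring
  rw [e2] at g3
  have e3 : δ * ‖c + b‖ ^ 2 + δ * ‖c - b‖ ^ 2 = 2 * (δ * ‖c‖ ^ 2) + 2 * (δ * ‖b‖ ^ 2) := by
    rw [norm_add_sq_real, norm_sub_sq_real]; ring
  unfold W
  rw [hE]
  linarith

end Crest.Agent.R094
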