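import Crest.Agent.R094.Env

/-! Row 94: API of frames. -/

set_option autoImplicit false

open scoped InnerProductSpace
open Set Metric

namespace Crest.Agent.R094

variable {E : Type*} [NormedAddCommGroup E] [InnerProductSpace ℝ E]

variable {u : E → ℝ} {L s h h' Γ Γ' : ℝ} {y v v' : E}

theorem Frame.neg (hF : Frame u y s v h Γ) : Frame (-u) y s (-v) h Γ := by
  intro σ hσ z
  have := hF (-σ) (by rwa [abs_neg]) z
  rw [← abs_neg] at this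
  simp only [Pi.neg_apply, inner_neg_left, norm_neg, smul_neg, neg_smul] at this ⊢
  convert this using 2
  ring

theorem Frame.mono (hF : Frame u y s v h Γ) (hs : 0 < s) (hΓ : Γ ≤ Γ') : Frame u y s v h Γ' := by
  intro σ hσ z
  have := hF σ hσ z
  nlinarith [mul_le_mul_of_nonneg_right hΓ hs.le]

theorem Frame.nonneg (hF : Frame u y s v h Γ) (hs : 0 < s) : 0 ≤ Γ := by
  have := hF 0 (by simpa using hs.le) 0
  simp only [zero_smul, add_zero, sub_self, inner_zero_right, zero_mul, abs_zero, norm_zero,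
    ne_eq, OfNat.ofNat_ne_zero, not_false_eq_true, zero_pow, zero_div] at this
  exact nonneg_of_mul_nonneg_left this hs

theorem Frame.shrink {s' : ℝ} (hF : Frame u y s v h Γ) (hs' : 0 < s') (hss : s' ≤ s) :
    Frame u y s' v h (Γ * s / s') := by
  intro σ hσ z
  refine (hF σ (hσ.trans hss) z).trans ?_
  rw [div_mul_cancel₀ _ hs'.ne']
  gcongr

/-- Subtract the frame estimates at `(σ₀ + σ, z₀ + z)` and `(σ₀, z₀)`;
`‖z₀ + z‖² ≤ 2‖z₀‖² + 2‖z‖²`. -/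
theorem Frame.transfer (hF : Frame u y s v h Γ) (hs : 0 < s) {σ₀ : ℝ} (hσ : |σ₀| ≤ s / 2) (z₀ : E) :
    Frame u (y + σ₀ • v + z₀) (s / 2) v h (4 * Γ + 3 * ‖z₀‖ ^ 2 / (8 * s ^ 2)) := by
  intro σ hσ' z
  have h1 := hF (σ₀ + σ) ((abs_add_le _ _).trans (by linarith)) (z₀ + z)
  have h2 := hF σ₀ (by linarith) z₀
  have e : y + (σ₀ + σ) • v + (z₀ + z) = y + σ₀ • v + z₀ + σ • v + z := by
    rw [add_smul]; abel
  rw [e, inner_add_right] at h1
  have h3 : ‖z₀ + z‖ ^ 2 ≤ 2 * ‖z₀‖ ^ 2 + 2 * ‖z‖ ^ 2 := by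
    have a := norm_add_le z₀ z
    nlinarith [pow_le_pow_left₀ (norm_nonneg _) a 2, sq_nonneg (‖z₀‖ - ‖z‖)]
  have h4 : ‖z₀ + z‖ ^ 2 / (16 * s) ≤ (2 * ‖z₀‖ ^ 2 + 2 * ‖z‖ ^ 2) / (16 * s) := by gcongr
  have h5 : (4 * Γ + 3 * ‖z₀‖ ^ 2 / (8 * s ^ 2)) * (s / 2) + ‖z‖ ^ 2 / (16 * (s / 2)) =
      Γ * s + (2 * ‖z₀‖ ^ 2 + 2 * ‖z‖ ^ 2) / (16 * s) + (Γ * s + ‖z₀‖ ^ 2 / (16 * s)) := by
    field_simp
    ring
  rw [h5]
  rw [abs_le] at h1 h2 ⊢
  constructor <;> linarith [h1.1, h1.2, h2.1, h2.2]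

/-- Use `σ = 0`, `z = 4 s (v - v')`. -/
theorem Frame.uniq_v (hF : Frame u y s v h Γ) (hF' : Frame u y s v' h' Γ') (hs : 0 < s) :
    ‖v - v'‖ ^ 2 ≤ (Γ + Γ') / 2 := by
  have h1 := hF 0 (by simpa using hs.le) ((4 * s) • (v - v'))
  have h2 := hF' 0 (by simpa using hs.le) ((4 * s) • (v - v'))
  have e : ‖(4 * s) • (v - v')‖ ^ 2 / (16 * s) = s * ‖v - v'‖ ^ 2 := by
    rw [norm_smul, mul_pow, Real.norm_eq_abs, sq_abs]
    field_simp
    ring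
  have e2 : ⟪v, (4 * s) • (v - v')⟫_ℝ - ⟪v', (4 * s) • (v - v')⟫_ℝ = 4 * s * ‖v - v'‖ ^ 2 := by
    rw [← inner_sub_left, real_inner_smul_right, real_inner_self_eq_norm_sq]
  simp only [zero_smul, add_zero, zero_mul, sub_zero] at h1 h2
  rw [e, abs_le] at h1 h2
  refine le_of_mul_le_mul_left ?_ hs
  linarith [h1.1, h2.2]

/-- Use the point `y + s v = y + s v' + s (v - v')`. -/
theorem Frame.uniq_h (hF : Frame u y s v h Γ) (hF' : Frame u y s v' h' Γ') (hs : 0 < s) :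
    |h - h'| ≤ 2 * (Γ + Γ') := by
  have h0 := hF.uniq_v hF' hs
  have h1 := hF s (abs_of_pos hs).le 0
  have h2 := hF' s (abs_of_pos hs).le (s • (v - v'))
  have e0 : y + s • v' + s • (v - v') = y + s • v := by rw [smul_sub]; abel
  have e : ‖s • (v - v')‖ ^ 2 / (16 * s) = s * ‖v - v'‖ ^ 2 / 16 := by
    rw [norm_smul, mul_pow, Real.norm_eq_abs, sq_abs]
    field_simp
  have e2 : ⟪v', v - v'⟫_ℝ = ‖v‖ ^ 2 / 2 - ‖v'‖ ^ 2 / 2 - ‖v - v'‖ ^ 2 / 2 := by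
    rw [norm_sub_sq_real, inner_sub_right, real_inner_self_eq_norm_sq, real_inner_comm]
    ring
  rw [e0, e, real_inner_smul_right, e2] at h2
  simp only [add_zero, inner_zero_right, sub_zero, norm_zero, ne_eq, OfNat.ofNat_ne_zero,
    not_false_eq_true, zero_pow, zero_div] at h1
  have h3 := mul_le_mul_of_nonneg_left h0 hs.le
  have h4 := mul_nonneg hs.le (sq_nonneg ‖v - v'‖)
  rw [abs_le] at h1 h2 ⊢
  constructor
  · refine le_of_mul_le_mul_left ?_ hs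
    nlinarith [h1.1, h1.2, h2.1, h2.2]
  · refine le_of_mul_le_mul_left ?_ hs
    nlinarith [h1.1, h1.2, h2.1, h2.2]

/-- Use `y + ρ a = y + ρ v + ρ (a - v)` and `⟪v, a - v⟫ + ‖v‖²/2 - ‖a‖²/2 = -‖a - v‖²/2`. -/
theorem Frame.val_le (hF : Frame u y s v h Γ) {ρ : ℝ} (hρ : 0 < ρ) (hρs : ρ ≤ s) (a : E) :
    u (y + ρ • a) - ρ * ‖a‖ ^ 2 / 2 ≤ u y + ρ * h + Γ * s - 7 / 16 * ρ * ‖a - v‖ ^ 2 := by
  have hs : 0 < s := hρ.trans_le hρs
  have h1 := hF ρ ((abs_of_pos hρ).le.trans hρs) (ρ • (a - v))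
  have e0 : y + ρ • v + ρ • (a - v) = y + ρ • a := by rw [smul_sub]; abel
  have e : ‖ρ • (a - v)‖ ^ 2 / (16 * s) ≤ ρ * ‖a - v‖ ^ 2 / 16 := by
    rw [norm_smul, mul_pow, Real.norm_eq_abs, sq_abs, div_le_div_iff₀ (by positivity) (by norm_num)]
    nlinarith [mul_le_mul_of_nonneg_left hρs (mul_nonneg hρ.le (sq_nonneg ‖a - v‖))]
  have e2 : ⟪v, a - v⟫_ℝ = ‖a‖ ^ 2 / 2 - ‖v‖ ^ 2 / 2 - ‖a - v‖ ^ 2 / 2 := by
    rw [norm_sub_sq_real, inner_sub_right, real_inner_self_eq_norm_sq, real_inner_comm]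
    ring
  rw [e0, real_inner_smul_right, e2] at h1
  nlinarith [(abs_le.1 h1).2]

theorem Frame.Tp_bound (hu : Lip u L) (hF : Frame u y s v h Γ) {ρ : ℝ} (hρ : 0 < ρ) (hρs : ρ ≤ s) :
    |Tp u ρ y - u y - ρ * h| ≤ Γ * s := by
  have h1 : Tp u ρ y ≤ u y + ρ * h + Γ * s := Tp_le fun a => by
    nlinarith [hF.val_le hρ hρs a, mul_nonneg hρ.le (sq_nonneg ‖a - v‖)]
  have h2 := le_Tp hu hρ.le y v
  have h3 := hF ρ ((abs_of_pos hρ).le.trans hρs) 0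
  simp only [add_zero, inner_zero_right, sub_zero, norm_zero, ne_eq, OfNat.ofNat_ne_zero,
    not_false_eq_true, zero_pow, zero_div] at h3
  rw [abs_le] at h3 ⊢
  constructor <;> nlinarith [h3.1]

theorem Frame.Tm_bound (hu : Lip u L) (hF : Frame u y s v h Γ) {ρ : ℝ} (hρ : 0 < ρ) (hρs : ρ ≤ s) :
    |u y - Tm u ρ y - ρ * h| ≤ Γ * s := by
  have := hF.neg.Tp_bound hu.neg hρ hρs
  rw [Tp_neg, Pi.neg_apply] at this
  convert this using 2
  ring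

theorem Frame.Sp_bound (hu : Lip u L) (hF : Frame u y s v h Γ) (hs : 0 < s) :
    |Sp u s y - h| ≤ Γ := by
  have := hF.Tp_bound hu hs le_rfl
  have e : Sp u s y - h = (Tp u s y - u y - s * h) / s := by
    unfold Sp
    field_simp
  rw [e, abs_div, abs_of_pos hs, div_le_iff₀ hs]
  exact this

theorem Frame.Sm_bound (hu : Lip u L) (hF : Frame u y s v h Γ) (hs : 0 < s) :
    |Sp (-u) s y - h| ≤ Γ := by
  exact hF.neg.Sp_bound hu.neg hs

theorem Frame.argmax (hu : Lip u L) (hF : Frame u y s v h Γ) {ρ : ℝ} (hρ : 0 < ρ) (hρs : ρ ≤ s)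
    {a : E} (ha : Tp u ρ y = u (y + ρ • a) - ρ * ‖a‖ ^ 2 / 2) : ‖a - v‖ ^ 2 ≤ 5 * Γ * s / ρ := by
  have h1 := hF.val_le hρ hρs a
  have h2 := (abs_le.1 (hF.Tp_bound hu hρ hρs)).1
  have h3 := mul_nonneg (hF.nonneg (hρ.trans_le hρs)) (hρ.trans_le hρs).le
  rw [le_div_iff₀ hρ]
  nlinarith

theorem Frame.argmin (hu : Lip u L) (hF : Frame u y s v h Γ) {ρ : ℝ} (hρ : 0 < ρ) (hρs : ρ ≤ s)
    {b : E} (hb : Tm u ρ y = u (y - ρ • b) + ρ * ‖b‖ ^ 2 / 2) : ‖b - v‖ ^ 2 ≤ 5 * Γ * s / ρ := by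
  have := hF.neg.argmax hu.neg hρ hρs (Tp_neg_eq_of_Tm_eq hb)
  rwa [neg_sub_neg, norm_sub_rev] at this

/-- Use `σ = 0`, `z = s v / ‖v‖`. -/
theorem Frame.norm_le (hu : Lip u L) (hF : Frame u y s v h Γ) (hs : 0 < s) :
    ‖v‖ ≤ L + Γ + 1 := by
  have hΓ := hF.nonneg hs
  have hL := hu.nonneg
  by_cases hv : v = 0
  · rw [hv, norm_zero]; linarith
  have hn : 0 < ‖v‖ := norm_pos_iff.2 hv
  have h1 := hF 0 (by simpa using hs.le) ((s / ‖v‖) • v)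
  have e : ‖(s / ‖v‖) • v‖ = s := by
    rw [norm_smul, Real.norm_eq_abs, abs_of_pos (div_pos hs hn), div_mul_cancel₀ _ hn.ne']
  have e2 : ⟪v, (s / ‖v‖) • v⟫_ℝ = s * ‖v‖ := by
    rw [real_inner_smul_right, real_inner_self_eq_norm_sq]
    field_simp
  have h2 := hu.le (y + (s / ‖v‖) • v) y
  rw [add_sub_cancel_left, e] at h2
  simp only [zero_smul, add_zero, zero_mul, sub_zero] at h1
  rw [e, e2, show s ^ 2 / (16 * s) = s / 16 by field_simp] at h1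
  refine le_of_mul_le_mul_left ?_ hs
  nlinarith [(abs_le.1 h1).1]

/-- An upper slope is close to the frame velocity (`sq_le_of_inner_le` with `d = v - p`). -/
theorem Frame.slope_near (hF : Frame u y s v h Γ) (hs : 0 < s) {θ c : ℝ} (hθ : 0 < θ) {p : E}
    (hp : ∀ ξ : E, u (y + ξ) ≤ u y + c + ⟪p, ξ⟫_ℝ + ‖ξ‖ ^ 2 / (2 * θ)) :
    ‖p - v‖ ^ 2 ≤ 4 * (c + Γ * s) * (1 / (2 * θ) + 1 / (16 * s)) := by
  set A := 1 / (2 * θ) + 1 / (16 * s) with hA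
  have hA0 : 0 < A := by positivity
  have key : ∀ ξ : E, ⟪v - p, ξ⟫_ℝ ≤ (c + Γ * s) + A * ‖ξ‖ ^ 2 := by
    intro ξ
    have h1 := hF 0 (by simpa using hs.le) ξ
    simp only [zero_smul, add_zero, zero_mul, sub_zero] at h1
    have h2 := hp ξ
    have e : A * ‖ξ‖ ^ 2 = ‖ξ‖ ^ 2 / (2 * θ) + ‖ξ‖ ^ 2 / (16 * s) := by rw [hA]; ring
    rw [inner_sub_left, e]
    linarith [(abs_le.1 h1).1]
  have h1 := key ((1 / (2 * A)) • (v - p))
  rw [real_inner_smul_right, real_inner_self_eq_norm_sq, norm_smul, mul_pow, Real.norm_eq_abs,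
    sq_abs] at h1
  rw [norm_sub_rev]
  have e : 1 / (2 * A) * ‖v - p‖ ^ 2 - A * ((1 / (2 * A)) ^ 2 * ‖v - p‖ ^ 2) =
      ‖v - p‖ ^ 2 / (4 * A) := by
    field_simp
    ring
  have h2 : ‖v - p‖ ^ 2 / (4 * A) ≤ c + Γ * s := by linarith
  rw [div_le_iff₀ (by positivity)] at h2
  linarith

/-- Dyadic chain: consecutive velocities differ by at most `√(3Γ/2) ≤ 2Γ`
(`shrink` to half the scale, then `uniq_v`); induction on `k`. -/
theorem Frame.chain {S : ℝ} (hΓ : 1 ≤ Γ) (hs : 0 < s)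
    (hall : ∀ s' : ℝ, 0 < s' → s' ≤ S → ∃ (w : E) (g : ℝ), Frame u y s' w g Γ)
    (hF : Frame u y s v h Γ) (k : ℕ) (hk : 2 ^ k * s ≤ S) (hF' : Frame u y (2 ^ k * s) v' h' Γ) :
    ‖v' - v‖ ≤ 2 * (k + 1) * Γ := by
  induction k generalizing v' h' with
  | zero =>
    rw [pow_zero, one_mul] at hF'
    have := hF'.uniq_v hF hs
    refine abs_le_of_sq_le_sq' ?_ (by positivity) |>.2
    push_cast
    nlinarith
  | succ k ih =>
    have hp : 0 < 2 ^ k * s := by positivity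
    have hle : 2 ^ k * s ≤ 2 ^ (k + 1) * s := by rw [pow_succ]; linarith
    obtain ⟨w, g, hw⟩ := hall _ hp (hle.trans hk)
    have h1 := ih (hle.trans hk) hw
    have h2 := (hF'.shrink hp hle).uniq_v hw hp
    have e : Γ * (2 ^ (k + 1) * s) / (2 ^ k * s) = 2 * Γ := by
      rw [pow_succ]
      field_simp
    rw [e] at h2
    have h3 : ‖v' - w‖ ≤ 2 * Γ := (abs_le_of_sq_le_sq' (by nlinarith) (by positivity)).2
    have h4 := norm_sub_le_norm_sub_add_norm_sub v' w v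
    push_cast
    linarith

/-- The trivial frame. -/
theorem Lip.frame_zero (hu : Lip u L) (y : E) (hs : 0 < s) : Frame u y s 0 0 (4 * L ^ 2) := by
  intro σ _ z
  have h1 := hu.abs_le (y + z) y
  rw [add_sub_cancel_left] at h1
  simp only [smul_zero, add_zero, inner_zero_left, sub_zero, norm_zero, ne_eq,
    OfNat.ofNat_ne_zero, not_false_eq_true, zero_pow, zero_div, mul_zero]
  refine h1.trans ?_
  have : L * ‖z‖ - 4 * L ^ 2 * s ≤ ‖z‖ ^ 2 / (16 * s) := by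
    rw [le_div_iff₀ (by positivity)]
    nlinarith [sq_nonneg (‖z‖ - 8 * L * s)]
  linarith

theorem Good.negate {S η : ℝ} {x : E} (h : Good u Γ S η x) : Good (-u) Γ S η x := by
  refine ⟨h.neg, by rw [neg_neg]; exact h.pos, fun s hs hS => ?_⟩
  obtain ⟨v, g, hv⟩ := h.frame s hs hS
  exact ⟨-v, g, hv.neg⟩

theorem Good.mono {S η S' η' : ℝ} {x : E} (h : Good u Γ S η x) (hS : S' ≤ S) (hη : η ≤ η') :
    Good u Γ S' η' x := by
  have key : ∀ w : E → ℝ, Good1 w S η x → Good1 w S' η' x := fun w hw =>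
    ⟨hw.cvx.subset (Icc_subset_Icc_right hS) (convex_Icc _ _),
      fun θ h1 h2 => (hw.env θ h1 h2).trans (by linarith)⟩
  exact ⟨key _ h.pos, key _ h.neg, fun s hs hs' => h.frame s hs (hs'.trans hS)⟩

end Crest.Agent.R094
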