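import Crest.Agent.R094.Basic

/-! Row 94: from pointwise expansions to a Hölder gradient. -/

set_option autoImplicit false

open scoped InnerProductSpace
open Set Metric

namespace Crest.Agent.R094

variable {E : Type*} [NormedAddCommGroup E] [InnerProductSpace ℝ E]

/-- `HasGradientAt` from the little-o bound; `‖g x‖ ≤ L` by testing `ξ = ρ g x/‖g x‖`, `ρ → 0` (or from the
Lipschitz bound of the derivative). For `ρ = ‖x - y‖ ≤ ρ₀/2` and `‖ξ‖ = ρ` compare the expansions at `x` in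
direction `ξ` and at `y` in directions `x - y + ξ`, `x - y`: `‖g x - g y‖ ρ ≤ C₁ (2 + 2^(1+α)) ρ^(1+α)`.
For `ρ ≥ ρ₀/2` use `‖g x - g y‖ ≤ 2L`. -/
theorem holder [CompleteSpace E] (α C₁ ρ₀ L : ℝ) (hα : 0 < α) (hC₁ : 0 ≤ C₁) (hρ₀ : 0 < ρ₀) :
    ∃ C : ℝ, 0 ≤ C ∧ ∀ (u : E → ℝ) (Ω : Set E) (g : E → E), Lip u L →
      (∀ x ∈ Ω, ∀ ξ : E, ‖ξ‖ ≤ ρ₀ → |u (x + ξ) - u x - ⟪g x, ξ⟫_ℝ| ≤ C₁ * ‖ξ‖ ^ (1 + α)) →
      (∀ x ∈ Ω, HasGradientAt u (g x) x ∧ ‖g x‖ ≤ L) ∧
        ∀ x ∈ Ω, ∀ y ∈ Ω, ‖g x - g y‖ ≤ C * ‖x - y‖ ^ α := by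
  have hρ2 : 0 < (ρ₀ / 2) ^ α := Real.rpow_pos_of_pos (by linarith) α
  refine ⟨C₁ * (2 + 2 ^ (1 + α)) + 2 * |L| / (ρ₀ / 2) ^ α, by positivity,
    fun u Ω g hu h => ?_⟩
  have hpow : ∀ r : ℝ, 0 ≤ r → r ^ (1 + α) = r * r ^ α := fun r hr => by
    rw [Real.rpow_add' hr (by linarith), Real.rpow_one]
  have h1 : ∀ x ∈ Ω, HasGradientAt u (g x) x ∧ ‖g x‖ ≤ L := fun x hx => by
    have hg : HasGradientAt u (g x) x := by
      rw [hasGradientAt_iff_isLittleO_nhds_zero, Asymptotics.isLittleO_iff]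
      intro c hc
      have k1 : Filter.Tendsto (fun ξ : E => C₁ * ‖ξ‖ ^ α) (nhds 0) (nhds 0) := by
        have : Continuous fun ξ : E => C₁ * ‖ξ‖ ^ α :=
          continuous_const.mul (continuous_norm.rpow_const fun _ => Or.inr hα.le)
        simpa [Real.zero_rpow hα.ne'] using this.tendsto 0
      filter_upwards [k1.eventually (eventually_le_nhds hc), closedBall_mem_nhds (0 : E) hρ₀]
        with ξ k2 k3
      refine (h x hx ξ (mem_closedBall_zero_iff.1 k3)).trans ?_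
      rw [hpow _ (norm_nonneg _), mul_left_comm, mul_comm]
      exact mul_le_mul_of_nonneg_right k2 (norm_nonneg _)
    refine ⟨hg, ?_⟩
    have := hg.hasFDerivAt.le_of_lip' hu.nonneg (Filter.Eventually.of_forall fun y => hu.abs_le y x)
    rwa [LinearIsometryEquiv.norm_map] at this
  refine ⟨h1, fun x hx y hy => ?_⟩
  have hp : 0 ≤ ‖x - y‖ ^ α := by positivity
  rcases le_total ‖x - y‖ (ρ₀ / 2) with hρ | hρ
  · refine le_trans ?_ (mul_le_mul_of_nonneg_right (le_add_of_nonneg_right (by positivity)) hp)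
    rcases eq_or_ne x y with rfl | hxy
    · simp only [sub_self, norm_zero]
      positivity
    rcases eq_or_ne (g x - g y) 0 with h0 | h0
    · rw [h0, norm_zero]
      positivity
    have hρ0 : 0 < ‖x - y‖ := norm_pos_iff.2 (sub_ne_zero.2 hxy)
    have hg0 : 0 < ‖g x - g y‖ := norm_pos_iff.2 h0
    set ξ := (‖x - y‖ / ‖g x - g y‖) • (g x - g y) with hξ
    have e1 : ‖ξ‖ = ‖x - y‖ := by
      rw [hξ, norm_smul, Real.norm_of_nonneg (by positivity), div_mul_cancel₀ _ hg0.ne']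
    have e2 : ⟪g x, ξ⟫_ℝ - ⟪g y, ξ⟫_ℝ = ‖x - y‖ * ‖g x - g y‖ := by
      rw [← inner_sub_left, hξ, inner_smul_right, real_inner_self_eq_norm_sq]
      field_simp
    have e3 : ‖x - y + ξ‖ ≤ 2 * ‖x - y‖ := (norm_add_le _ _).trans (by linarith)
    have k1 := abs_le.1 (h x hx ξ (by linarith))
    have k2 := abs_le.1 (h y hy (x - y + ξ) (by linarith))
    have k3 := abs_le.1 (h y hy (x - y) (by linarith))
    rw [← add_assoc, add_sub_cancel, inner_add_right] at k2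
    rw [add_sub_cancel] at k3
    rw [e1] at k1
    have k4 : C₁ * ‖x - y + ξ‖ ^ (1 + α) ≤ C₁ * (2 ^ (1 + α) * ‖x - y‖ ^ (1 + α)) := by
      rw [← Real.mul_rpow (by norm_num) hρ0.le]
      exact mul_le_mul_of_nonneg_left
        (Real.rpow_le_rpow (norm_nonneg _) e3 (by linarith)) hC₁
    rw [hpow _ hρ0.le] at k1 k3 k4
    refine le_of_mul_le_mul_left ?_ hρ0
    nlinarith [k1.1, k2.2, k3.1]
  · refine le_trans ?_ (mul_le_mul_of_nonneg_right (le_add_of_nonneg_left (by positivity)) hp)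
    rw [div_mul_eq_mul_div, le_div_iff₀ hρ2]
    refine mul_le_mul ((norm_sub_le _ _).trans ?_) (Real.rpow_le_rpow (by linarith) hρ hα.le)
      hρ2.le (by positivity)
    linarith [(h1 x hx).2, (h1 y hy).2, le_abs_self L]

end Crest.Agent.R094
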