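import Crest.Agent.R094.Env

/-! Row 94: pointwise `C^{1,α}` expansion from slopes at all scales. -/

set_option autoImplicit false

open scoped InnerProductSpace
open Set Metric

namespace Crest.Agent.R094

variable {E : Type*} [NormedAddCommGroup E] [InnerProductSpace ℝ E]

/-- slopes at two consecutive dyadic scales are close -/
theorem HolderPt_step {β C₀ θ : ℝ} (hβ : 0 < β) (hC₀ : 0 ≤ C₀) (hθ : 0 < θ) {f : E → ℝ}
    {p p' : E} (hp : ∀ ξ : E, |f ξ - ⟪p, ξ⟫_ℝ| ≤ C₀ * θ ^ (1 + β) + ‖ξ‖ ^ 2 / θ)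
    (hp' : ∀ ξ : E, |f ξ - ⟪p', ξ⟫_ℝ| ≤ C₀ * (θ / 2) ^ (1 + β) + ‖ξ‖ ^ 2 / (θ / 2)) :
    ‖p - p'‖ ≤ √(24 * C₀) * θ ^ (β / 2) := by
  have h1 : (θ / 2) ^ (1 + β) ≤ θ ^ (1 + β) :=
    Real.rpow_le_rpow (by positivity) (by linarith) (by positivity)
  have hd : ‖p - p'‖ ^ 2 ≤ 4 * (2 * C₀ * θ ^ (1 + β)) * (3 / θ) := by
    refine sq_le_of_inner_le (by positivity) fun ξ => ?_
    have a1 := (abs_le.1 (hp ξ)).1
    have a2 := (abs_le.1 (hp' ξ)).2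
    have a3 : C₀ * (θ / 2) ^ (1 + β) ≤ C₀ * θ ^ (1 + β) := mul_le_mul_of_nonneg_left h1 hC₀
    have a4 : ‖ξ‖ ^ 2 / θ + ‖ξ‖ ^ 2 / (θ / 2) = 3 / θ * ‖ξ‖ ^ 2 := by field_simp; ring
    rw [inner_sub_left]
    linarith
  have e1 : θ ^ (1 + β) = θ * (θ ^ (β / 2)) ^ 2 := by
    rw [Real.rpow_add hθ, Real.rpow_one, ← Real.rpow_natCast, ← Real.rpow_mul hθ.le]
    congr 2
    push_cast
    ring
  have e2 : 4 * (2 * C₀ * θ ^ (1 + β)) * (3 / θ) = (√(24 * C₀) * θ ^ (β / 2)) ^ 2 := by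
    rw [mul_pow, Real.sq_sqrt (by positivity), e1]
    field_simp
    ring
  rw [e2] at hd
  exact (pow_le_pow_iff_left₀ (norm_nonneg _) (by positivity) two_ne_zero).1 hd

/-- Choose slopes `p θ`. For `θ/2 ≤ θ' ≤ θ`: `‖p θ - p θ'‖² ≤ 24 C₀ θ^β` (`sq_le_of_inner_le`). So
`p (θ₀/2^n)` is Cauchy with ratio `2^(-β/2)` (`cauchySeq_of_le_geometric`,
`dist_le_of_le_geometric_of_tendsto`); its limit `g` has `‖g - p θ‖ ≤ C θ^(β/2)` for all `θ ≤ θ₀`.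
For `ξ ≠ 0` take `θ = ‖ξ‖^(2/(2+β))`; `ρ₀ = θ₀^((2+β)/2)`. -/
theorem holder_pt [CompleteSpace E] (β C₀ θ₀ : ℝ) (hβ : 0 < β) (hC₀ : 0 ≤ C₀) (hθ₀ : 0 < θ₀) :
    ∃ C₁ ρ₀ : ℝ, 0 ≤ C₁ ∧ 0 < ρ₀ ∧ ∀ (u : E → ℝ) (x : E),
      (∀ θ, 0 < θ → θ ≤ θ₀ → ∃ p : E, ∀ ξ : E,
        |u (x + ξ) - u x - ⟪p, ξ⟫_ℝ| ≤ C₀ * θ ^ (1 + β) + ‖ξ‖ ^ 2 / θ) →
      ∃ g : E, ∀ ξ : E, ‖ξ‖ ≤ ρ₀ →
        |u (x + ξ) - u x - ⟪g, ξ⟫_ℝ| ≤ C₁ * ‖ξ‖ ^ (1 + β / (2 + β)) := by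
  set r : ℝ := (1 / 2 : ℝ) ^ (β / 2) with hr
  have hr0 : 0 < r := by positivity
  have hr1 : r < 1 := Real.rpow_lt_one (by norm_num) (by norm_num) (by positivity)
  set K : ℝ := √(24 * C₀) / (1 - r) with hK
  have hK0 : 0 ≤ K := div_nonneg (Real.sqrt_nonneg _) (by linarith)
  have hb2 : 0 < 2 + β := by linarith
  refine ⟨C₀ * 2 ^ (1 + β) + 1 + K * 2 ^ (β / 2), θ₀ ^ ((2 + β) / 2), by positivity,
    by positivity, fun u x h => ?_⟩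
  have hpos : ∀ n : ℕ, 0 < θ₀ * (1 / 2 : ℝ) ^ n := fun n => by positivity
  have hle : ∀ n : ℕ, θ₀ * (1 / 2 : ℝ) ^ n ≤ θ₀ := fun n =>
    mul_le_of_le_one_right hθ₀.le (pow_le_one₀ (by norm_num) (by norm_num))
  choose p hp using fun n : ℕ => h (θ₀ * (1 / 2 : ℝ) ^ n) (hpos n) (hle n)
  have hpow : ∀ n : ℕ, (θ₀ * (1 / 2 : ℝ) ^ n) ^ (β / 2) = θ₀ ^ (β / 2) * r ^ n := by
    intro n
    rw [Real.mul_rpow hθ₀.le (by positivity), hr, ← Real.rpow_natCast,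
      ← Real.rpow_mul (by norm_num), ← Real.rpow_natCast, ← Real.rpow_mul (by norm_num),
      mul_comm (n : ℝ)]
  have hstep : ∀ n : ℕ, dist (p n) (p (n + 1)) ≤ √(24 * C₀) * θ₀ ^ (β / 2) * r ^ n := by
    intro n
    rw [dist_eq_norm, mul_assoc, ← hpow]
    refine HolderPt_step (f := fun ξ => u (x + ξ) - u x) hβ hC₀ (hpos n) (hp n) ?_
    have e : θ₀ * (1 / 2 : ℝ) ^ n / 2 = θ₀ * (1 / 2 : ℝ) ^ (n + 1) := by ring
    rw [e]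
    exact hp (n + 1)
  obtain ⟨g, hg⟩ := cauchySeq_tendsto_of_complete (cauchySeq_of_le_geometric r _ hr1 hstep)
  have hdist : ∀ n : ℕ, ‖p n - g‖ ≤ K * (θ₀ * (1 / 2 : ℝ) ^ n) ^ (β / 2) := by
    intro n
    have := dist_le_of_le_geometric_of_tendsto r _ hr1 hstep hg n
    rw [dist_eq_norm] at this
    refine this.trans (le_of_eq ?_)
    rw [hpow, hK]
    ring
  refine ⟨g, fun ξ hξ => ?_⟩
  rcases eq_or_ne ξ 0 with rfl | hne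
  · simp only [add_zero, sub_self, inner_zero_right, abs_zero]
    positivity
  have hρ : 0 < ‖ξ‖ := norm_pos_iff.2 hne
  set θ : ℝ := ‖ξ‖ ^ (2 / (2 + β)) with hθ
  have hθ0 : 0 < θ := by positivity
  have hθ1 : θ ≤ θ₀ := by
    calc θ ≤ (θ₀ ^ ((2 + β) / 2)) ^ (2 / (2 + β)) :=
          Real.rpow_le_rpow hρ.le hξ (by positivity)
      _ = θ₀ := by
          rw [← Real.rpow_mul hθ₀.le]
          have : (2 + β) / 2 * (2 / (2 + β)) = 1 := by field_simp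
          rw [this, Real.rpow_one]
  obtain ⟨n, hn1, hn2⟩ := exists_nat_pow_near_of_lt_one (x := θ / θ₀) (y := (1 / 2 : ℝ))
    (by positivity) ((div_le_one hθ₀).2 hθ1) (by norm_num) (by norm_num)
  set τ : ℝ := θ₀ * (1 / 2 : ℝ) ^ n with hτ
  have hτ0 : 0 < τ := hpos n
  have h1 : θ ≤ τ := by
    rw [div_le_iff₀ hθ₀] at hn2
    rw [hτ]; linarith
  have h2 : τ ≤ 2 * θ := by
    rw [lt_div_iff₀ hθ₀, pow_succ] at hn1
    rw [hτ]; linarith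
  set R : ℝ := ‖ξ‖ ^ (1 + β / (2 + β)) with hR
  have q1 : θ ^ (1 + β) = R := by
    rw [hθ, hR, ← Real.rpow_mul hρ.le]
    congr 1
    field_simp
    ring
  have q2 : ‖ξ‖ ^ 2 / θ = R := by
    rw [hθ, hR, ← Real.rpow_natCast, ← Real.rpow_sub hρ]
    congr 1
    push_cast
    field_simp
    ring
  have q3 : θ ^ (β / 2) * ‖ξ‖ = R := by
    rw [hθ, hR, ← Real.rpow_mul hρ.le, Real.rpow_add hρ, Real.rpow_one, mul_comm]
    congr 2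
    field_simp
  have b1 : C₀ * τ ^ (1 + β) ≤ C₀ * 2 ^ (1 + β) * R := by
    rw [mul_assoc, ← q1, ← Real.mul_rpow (by norm_num) hθ0.le]
    exact mul_le_mul_of_nonneg_left (Real.rpow_le_rpow hτ0.le h2 (by positivity)) hC₀
  have b2 : ‖ξ‖ ^ 2 / τ ≤ R := by
    rw [← q2]
    exact div_le_div_of_nonneg_left (by positivity) hθ0 h1
  have b3 : |⟪p n - g, ξ⟫_ℝ| ≤ K * 2 ^ (β / 2) * R := by
    refine (abs_real_inner_le_norm _ _).trans ?_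
    rw [← q3, mul_assoc, ← mul_assoc (2 ^ (β / 2)), ← Real.mul_rpow (by norm_num) hθ0.le,
      ← mul_assoc]
    refine mul_le_mul_of_nonneg_right ((hdist n).trans ?_) hρ.le
    exact mul_le_mul_of_nonneg_left (Real.rpow_le_rpow hτ0.le h2 (by positivity)) hK0
  have b4 := hp n ξ
  have e : u (x + ξ) - u x - ⟪g, ξ⟫_ℝ = (u (x + ξ) - u x - ⟪p n, ξ⟫_ℝ) + ⟪p n - g, ξ⟫_ℝ := by
    rw [inner_sub_left]; ring
  rw [e]
  refine (abs_add_le _ _).trans ?_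
  have : (C₀ * 2 ^ (1 + β) + 1 + K * 2 ^ (β / 2)) * R
      = C₀ * 2 ^ (1 + β) * R + R + K * 2 ^ (β / 2) * R := by ring
  rw [this]
  linarith

end Crest.Agent.R094
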