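import Crest.Agent.R094.Defs

/-! Row 94: the convex hull of a compact set in finite dimension is compact. -/

set_option autoImplicit false

open scoped InnerProductSpace
open Set Metric

namespace Crest.Agent.R094

variable {E : Type*} [NormedAddCommGroup E] [InnerProductSpace ℝ E]

/-- Carathéodory (`convexHull_eq_union` / `eq_pos_convex_span_of_mem_convexHull`,
`AffineIndependent.card_le_finrank_succ`): the hull is the image of the compact set
`stdSimplex ℝ (Fin (n+1)) ×ˢ (Set.pi univ fun _ => K)`, `n = finrank`, under `(α, y) ↦ ∑ α i • y i`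
(pad short combinations with zero weights). -/
theorem isCompact_convexHull_of_isCompact [FiniteDimensional ℝ E] {K : Set E} (hK : IsCompact K) :
    IsCompact (convexHull ℝ K) := by
  classical
  rcases K.eq_empty_or_nonempty with rfl | ⟨x₀, hx₀⟩
  · simp
  set n := Module.finrank ℝ E + 1 with hn
  have hc : IsCompact (stdSimplex ℝ (Fin n) ×ˢ (Set.pi univ fun _ : Fin n => K)) :=
    (isCompact_stdSimplex ℝ (Fin n)).prod (isCompact_univ_pi fun _ => hK)
  have hcont : Continuous (fun z : (Fin n → ℝ) × (Fin n → E) => ∑ i, z.1 i • z.2 i) := by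
    fun_prop
  convert hc.image hcont using 1
  ext x
  constructor
  · intro hx
    obtain ⟨ι, _, z, w, hz, hai, hw0, hw1, rfl⟩ := eq_pos_convex_span_of_mem_convexHull hx
    have hcard : Fintype.card ι ≤ Fintype.card (Fin n) := by
      rw [Fintype.card_fin]
      exact hai.card_le_finrank_succ.trans (Nat.succ_le_succ (Submodule.finrank_le _))
    obtain ⟨e⟩ := Function.Embedding.nonempty_of_card_le hcard
    have key : ∀ {M : Type _} [AddCommMonoid M] (F : Fin n → M) (G : ι → M),
        (∀ i, F (e i) = G i) → (∀ j, (¬ ∃ i, e i = j) → F j = 0) → ∑ j, F j = ∑ i, G i := by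
      intro M _ F G h1 h2
      rw [← Finset.sum_subset (Finset.subset_univ (Finset.univ.map e))
        (fun j _ hj => h2 j (by simpa using hj)), Finset.sum_map]
      exact Finset.sum_congr rfl fun i _ => h1 i
    have key' : ∀ (F : Fin n → E) (G : ι → E),
        (∀ i, F (e i) = G i) → (∀ j, (¬ ∃ i, e i = j) → F j = 0) → ∑ j, F j = ∑ i, G i := by
      intro F G h1 h2
      rw [← Finset.sum_subset (Finset.subset_univ (Finset.univ.map e))
        (fun j _ hj => h2 j (by simpa using hj)), Finset.sum_map]
      exact Finset.sum_congr rfl fun i _ => h1 i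
    refine ⟨(Function.extend e w 0, Function.extend e z (fun _ => x₀)), ⟨⟨fun j => ?_, ?_⟩,
      fun j _ => ?_⟩, ?_⟩
    · by_cases hj : ∃ i, e i = j
      · obtain ⟨i, rfl⟩ := hj
        simp only [e.injective.extend_apply]
        exact (hw0 i).le
      · simp only [Function.extend_apply' _ _ _ hj, Pi.zero_apply, le_refl]
    · rw [← hw1]
      exact key _ _ (fun i => e.injective.extend_apply _ _ i)
        (fun j hj => by simp only [Function.extend_apply' _ _ _ hj, Pi.zero_apply])
    · by_cases hj : ∃ i, e i = j
      · obtain ⟨i, rfl⟩ := hj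
        simp only [e.injective.extend_apply]
        exact hz ⟨i, rfl⟩
      · simp only [Function.extend_apply' _ _ _ hj]
        exact hx₀
    · exact key' _ _ (fun i => by simp only [e.injective.extend_apply])
        (fun j hj => by simp only [Function.extend_apply' _ _ _ hj, Pi.zero_apply, zero_smul])
  · rintro ⟨⟨α, y⟩, ⟨⟨h0, h1⟩, hy⟩, rfl⟩
    exact (convex_convexHull ℝ K).sum_mem (fun i _ => h0 i) h1
      (fun i _ => subset_convexHull ℝ K (hy i (mem_univ i)))

end Crest.Agent.R094
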