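import Crest.Agent.R094.Frame
import Crest.Agent.R094.Forward

/-! Row 94: a near-extremal point at `θ = 1` is not deep. -/

set_option autoImplicit false

open scoped InnerProductSpace
open Set Metric

namespace Crest.Agent.R094

variable {E : Type*} [NormedAddCommGroup E] [InnerProductSpace ℝ E]

variable [FiniteDimensional ℝ E]

omit [FiniteDimensional ℝ E] in
/-- a frame at scale `δ` compares the two flows -/
theorem ND_cmp {u : E → ℝ} {L Γ S η δ : ℝ} {w : E} (hu : Lip u L) (hδ : 0 < δ) (hS : δ ≤ S)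
    (hG : Good u Γ S η w) :
    u w - Tm u δ w - 2 * Γ * δ ≤ Tp u δ w - u w ∧ Tp u δ w - u w - 2 * Γ * δ ≤ u w - Tm u δ w := by
  obtain ⟨v, g, hF⟩ := hG.frame δ hδ hS
  have h1 := abs_le.1 (hF.Tp_bound hu hδ le_rfl)
  have h2 := abs_le.1 (hF.Tm_bound hu hδ le_rfl)
  constructor <;> linarith [h1.1, h1.2, h2.1, h2.2]

omit [FiniteDimensional ℝ E] in
/-- the energy at the touching point -/
theorem ND_touch {u : E → ℝ} {L Γ₁ A h : ℝ} {y v p : E} (hu : Lip u L) (hΓ₁ : 1 ≤ Γ₁) (hA : 1 ≤ A)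
    (hF : Frame u y (16 * A) v h Γ₁) (hE : Env u 1 y = Tp u 1 (y - (1 : ℝ) • p) + 1 * ‖p‖ ^ 2 / 2)
    (hc : Env u 1 y - u y ≤ 3 / 2) :
    h - 40 * A * Γ₁ ≤ Tp u 1 (y - (1 : ℝ) • p) - u (y - (1 : ℝ) • p) := by
  have hA0 : 0 < 16 * A := by linarith
  have h1 : ‖p - v‖ ^ 2 ≤ 4 * (3 / 2 + Γ₁ * (16 * A)) * (1 / (2 * 1) + 1 / (16 * (16 * A))) :=
    hF.slope_near hA0 one_pos fun ξ => by
      have := upper_slope hu one_pos hE ξ
      linarith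
  have hx : 1 ≤ A * Γ₁ := one_le_mul_of_one_le_of_one_le hA hΓ₁
  have h2 : 1 / (16 * (16 * A)) ≤ 1 / 256 := one_div_le_one_div_of_le (by norm_num) (by linarith)
  have h3 : ‖p - v‖ ^ 2 ≤ 36 * A * Γ₁ := by
    refine h1.trans ((mul_le_mul_of_nonneg_left (add_le_add_right h2 _) (by positivity)).trans ?_)
    nlinarith
  have h4 := hF.transfer hA0 (σ₀ := -1) (by rw [abs_neg, abs_one]; linarith) (v - p)
  have e : y + (-1 : ℝ) • v + (v - p) = y - (1 : ℝ) • p := by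
    rw [neg_smul, one_smul, one_smul]
    abel
  rw [e, norm_sub_rev] at h4
  have h5 := (abs_le.1 (h4.Tp_bound hu one_pos (by linarith))).1
  have h6 : 3 * ‖p - v‖ ^ 2 / (8 * (16 * A) ^ 2) ≤ Γ₁ := by
    rw [div_le_iff₀ (by positivity)]
    have : A * Γ₁ ≤ A * (A * Γ₁) := le_mul_of_one_le_left (by linarith) hA
    nlinarith
  have h7 : (4 * Γ₁ + 3 * ‖p - v‖ ^ 2 / (8 * (16 * A) ^ 2)) * (16 * A / 2) ≤
      (4 * Γ₁ + Γ₁) * (16 * A / 2) := by gcongr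
  nlinarith

/-- Take `exists_rep` for `u` at `(y, 1)`: `p`, `P = y - p`, `α i`, `y i`, `p i = y i - P`.
`Frame.slope_near` (with `upper_slope`, `c = 3/2`) gives `‖p - v‖² ≤ 36 A Γ₁`, so the frame transferred to
`P = y + (-1) v + (v - p)` has scale `8A` and constant `≤ 5Γ₁`, and `Tp u 1 P - u P ≥ h - 40 A Γ₁`.
`Tm u δ (y i) ≤ u (y i - δ p i) + δ‖p i‖²/2 ≤ Tp u (1-δ) P + ‖p i‖²/2`, so
`u (y i) - Tm u δ (y i) ≥ Tp u 1 P - Tp u (1-δ) P ≥ δ (Tp u 1 P - u P)` (convexity at `P`). A frame at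
`y i` of scale `δ` gives `Tp u δ (y i) - u (y i) ≥ u (y i) - Tm u δ (y i) - 2Γδ ≥ δ (h - C)`,
`C = 40AΓ₁ + 2Γ`. Hence `Env (Tp u δ) 1 y ≥ Env u 1 y + δ (h - C)` (`sum_le_Env`). By `env_forward`,
`Tp u δ y ≥ u (y + δ a) - δ‖a‖²/2 ≥ Env u (1+δ) (y+δa) - (1+δ+η) - δ‖a‖²/2 ≥ u y + δ (h - C - 3)`.
A frame at `y` of scale `δ` and `Cvx.Sp_mono` for `-u` give `u y - Tm u (2δ) y ≥ 2δ (h - C - 3 - 2Γ)`. -/
theorem not_deep {u : E → ℝ} {L Γ Γ₁ S η A δ h : ℝ} {y v : E} (hu : Lip u L) (hΓ : 1 ≤ Γ)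
    (hΓ₁ : 1 ≤ Γ₁) (hA : 1 ≤ A) (hδ : 0 < δ) (hδ1 : δ ≤ 1 / 2) (hηδ : η ≤ δ) (hS : 1 ≤ S)
    (hG : ∀ w, ‖w - y‖ ≤ 4 * L → Good u Γ S η w) (hF : Frame u y (16 * A) v h Γ₁)
    (hext : 1 - δ ≤ Env u 1 y - u y) :
    1 + 3 * h * δ - (120 * A * Γ₁ + 20 * Γ) * δ ≤ W u δ 1 y := by
  have hL := hu.nonneg
  have hδS : δ ≤ S := by linarith
  obtain ⟨p, n, α, Y, hα, hsum, hbar, hp, hE, hT, -, hY, hEs⟩ := exists_rep hu one_pos y
  have hGy : Good u Γ S η y := hG y (by rw [sub_self, norm_zero]; linarith)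
  have h1 := ND_touch hu hΓ₁ hA hF hE (by linarith [hGy.pos.env 1 one_pos (by norm_num)])
  have hGP : Good u Γ S η (y - (1 : ℝ) • p) :=
    hG _ (by rw [one_smul, sub_sub_cancel_left, norm_neg]; linarith)
  generalize y - (1 : ℝ) • p = P at *
  have h2 : δ * (Tp u 1 P - u P) ≤ Tp u 1 P - Tp u (1 - δ) P := by
    have := hGP.pos.cvx.slope_mono (s₁ := 0) (s₂ := 1) (s₃ := 1 - δ) (s₄ := 1) le_rfl one_pos
      (by linarith) (by linarith) le_rfl hS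
    rwa [Tp_zero, sub_zero, div_one, sub_sub_cancel, le_div_iff₀' hδ] at this
  have h3 : ∀ i, u (Y i) + δ * (h - 40 * A * Γ₁ - 2 * Γ) ≤ Tp u δ (Y i) := by
    intro i
    have a1 := Tm_le hu hδ.le (Y i) (Y i - P)
    have a2 := le_Tp hu (s := 1 - δ) (by linarith) P (Y i - P)
    have e : P + (1 - δ) • (Y i - P) = Y i - δ • (Y i - P) := by
      rw [sub_smul, one_smul]
      abel
    rw [e] at a2
    have a3 := hT i
    have a4 := (ND_cmp hu hδ hδS (hG (Y i) (by linarith [hY i]))).1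
    have a5 := mul_le_mul_of_nonneg_left h1 hδ.le
    linarith
  have h4 : Env u 1 y + δ * (h - 40 * A * Γ₁ - 2 * Γ) ≤ Env (Tp u δ) 1 y := by
    refine le_trans ?_ (sum_le_Env (hu.tp hδ.le) one_pos α Y hα hsum hbar)
    have e : δ * (h - 40 * A * Γ₁ - 2 * Γ) = ∑ i, α i * (δ * (h - 40 * A * Γ₁ - 2 * Γ)) := by
      rw [← Finset.sum_mul, hsum, one_mul]
    rw [hEs, e, ← Finset.sum_add_distrib]
    refine Finset.sum_le_sum fun i _ => ?_
    rw [← mul_add]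
    exact mul_le_mul_of_nonneg_left (by linarith [h3 i]) (hα i)
  obtain ⟨a, ha, h5⟩ := env_forward hu one_pos hδ.le y
  have hGa : Good u Γ S η (y + δ • a) := hG _ (by
    rw [add_sub_cancel_left, norm_smul, Real.norm_of_nonneg hδ.le]
    nlinarith [norm_nonneg a])
  have h6 := hGa.pos.env (1 + δ) (by linarith) (by linarith)
  have h7 := le_Tp hu hδ.le y a
  have h8 := (ND_cmp hu hδ hδS hGy).2
  have h9 := mul_le_mul_of_nonneg_left
    (hGy.neg.cvx.Sp_mono hδ (show δ ≤ 2 * δ by linarith) (by linarith)) hδ.le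
  have h10 := Tm_eq_Sp u hδ y
  have h11 := Tm_eq_Sp u (show 0 < 2 * δ by linarith) y
  have h12 := mul_le_mul_of_nonneg_left hΓ hδ.le
  unfold W
  nlinarith

end Crest.Agent.R094
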