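import Crest.Agent.R094.RedLocal

/-! Row 94: point-picking. -/

set_option autoImplicit false

open scoped InnerProductSpace
open Set Metric

namespace Crest.Agent.R094

variable {E : Type*} [NormedAddCommGroup E] [InnerProductSpace ℝ E]

variable [FiniteDimensional ℝ E]

/-- Take `β, η₁, N₀` from `red_local`. Fix `θs > 0`, `d x = 9/16 - ‖x‖`, and let `Φ` be the supremum of
`(Env (±u) θ x ∓ u x) · d x / (θ (max θ θs)^β)` over `‖x‖ < 9/16`, `θ ∈ (0,1/128]` and both signs (bounded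
above by `Env_le_add`). If `Φ > N₀`, pick a triple with value `≥ (1-η₁) Φ`; on `ball x₀ (η₁ d x₀)` one has
`d w ≥ (1-η₁) d x₀`, so `red_local` applies to `u` or to `-u` with `N = Φ`: contradiction. So `Φ ≤ N₀`;
take `θs = θ`, `d x ≥ 1/16`, `N = 16 N₀`. -/
theorem red :
    ∃ β N : ℝ, 0 < β ∧ β ≤ 1 / 2 ∧ 0 ≤ N ∧
      ∀ u : E → ℝ, Lip u 8 →
        (∀ x : E, ‖x‖ ≤ 5 / 8 → Cvx u (1 / 128) x ∧ Cvx (-u) (1 / 128) x) →
        ∀ x : E, ‖x‖ ≤ 1 / 2 → ∀ θ : ℝ, 0 < θ → θ ≤ 1 / 128 →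
          Env u θ x - u x ≤ N * θ ^ (1 + β) ∧ Env (-u) θ x + u x ≤ N * θ ^ (1 + β) := by
  obtain ⟨β, η₁, N₀, hβ, hβ2, hη, hη4, hN, H⟩ := red_local (E := E)
  refine ⟨β, 16 * N₀, hβ, hβ2, by positivity, fun u hu hc x hx θs hθs hθs' => ?_⟩
  set A : Set ℝ := {y | ∃ v : E → ℝ, (v = u ∨ v = -u) ∧ ∃ (z : E) (θ : ℝ), ‖z‖ < 9 / 16 ∧ 0 < θ ∧
    θ ≤ 1 / 128 ∧ y = (Env v θ z - v z) * (9 / 16 - ‖z‖) / (θ * (max θ θs) ^ β)} with hA
  have hpos : ∀ θ : ℝ, 0 < (max θ θs) ^ β := fun θ =>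
    Real.rpow_pos_of_pos (lt_of_lt_of_le hθs (le_max_right _ _)) _
  have hlip : ∀ v : E → ℝ, (v = u ∨ v = -u) → Lip v 8 := by
    rintro v (rfl | rfl)
    · exact hu
    · exact hu.neg
  have hneg : ∀ v : E → ℝ, (v = u ∨ v = -u) → (-v = u ∨ -v = -u) := by
    rintro v (rfl | rfl)
    · exact Or.inr rfl
    · exact Or.inl (neg_neg _)
  have hbdd : BddAbove A := by
    refine ⟨32 / θs ^ β, ?_⟩
    rintro y ⟨v, hv, z, θ, hz, hθ, -, rfl⟩
    have h1 := Env_le_add (hlip v hv) hθ.le z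
    have h2 : θs ^ β ≤ (max θ θs) ^ β := Real.rpow_le_rpow hθs.le (le_max_right _ _) hβ.le
    have h3 : 0 < θs ^ β := Real.rpow_pos_of_pos hθs _
    have h4 : (Env v θ z - v z) * (9 / 16 - ‖z‖) ≤ 32 * θ := by
      have := norm_nonneg z
      nlinarith
    rw [div_le_div_iff₀ (mul_pos hθ (hpos θ)) h3]
    nlinarith [mul_le_mul_of_nonneg_right h4 h3.le, mul_le_mul_of_nonneg_left h2 hθ.le]
  have hle : ∀ v : E → ℝ, (v = u ∨ v = -u) → ∀ (z : E) (θ : ℝ), ‖z‖ < 9 / 16 → 0 < θ →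
      θ ≤ 1 / 128 → (Env v θ z - v z) * (9 / 16 - ‖z‖) ≤ sSup A * θ * (max θ θs) ^ β := by
    intro v hv z θ hz hθ hθ'
    have h1 : (Env v θ z - v z) * (9 / 16 - ‖z‖) / (θ * (max θ θs) ^ β) ≤ sSup A :=
      le_csSup hbdd ⟨v, hv, z, θ, hz, hθ, hθ', rfl⟩
    rw [div_le_iff₀ (mul_pos hθ (hpos θ))] at h1
    linarith
  have hΦ : sSup A ≤ N₀ := by
    by_contra hlt
    push Not at hlt
    have hne : A.Nonempty := ⟨_, u, Or.inl rfl, 0, θs, by simp, hθs, hθs', rfl⟩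
    obtain ⟨y, ⟨v, hv, z, θ, hz, hθ, hθ', rfl⟩, hy⟩ :=
      exists_lt_of_lt_csSup hne (show (1 - η₁) * sSup A < sSup A by nlinarith)
    have hd : 0 < 9 / 16 - ‖z‖ := by linarith
    have hw : ∀ w ∈ ball z (η₁ * (9 / 16 - ‖z‖)),
        (1 - η₁) * (9 / 16 - ‖z‖) < 9 / 16 - ‖w‖ := by
      intro w hw
      rw [mem_ball, dist_eq_norm] at hw
      have := norm_sub_norm_le w z
      linarith
    have hd' : 0 < (1 - η₁) * (9 / 16 - ‖z‖) := mul_pos (by linarith) hd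
    have key : ∀ v : E → ℝ, (v = u ∨ v = -u) → ∀ w ∈ ball z (η₁ * (9 / 16 - ‖z‖)), ∀ θ : ℝ,
        0 < θ → θ ≤ 1 / 128 → Env v θ w - v w ≤
          sSup A * θ * (max θ θs) ^ β / ((1 - η₁) * (9 / 16 - ‖z‖)) := by
      intro v hv w hwb θ hθ hθ'
      have h1 := hw w hwb
      have h2 := hle v hv w θ (by linarith) hθ hθ'
      have h3 := self_le_Env (hlip v hv) hθ.le w
      rw [le_div_iff₀ hd']
      nlinarith
    have h := H v z (sSup A) (9 / 16 - ‖z‖) θs θ (hlip v hv) hlt.le hd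
      (by linarith [norm_nonneg z]) hθs hθ hθ' (fun w hwb => ?_) (fun w hwb θ hθ hθ' =>
        ⟨key v hv w hwb θ hθ hθ', by
          have := key (-v) (hneg v hv) w hwb θ hθ hθ'
          rwa [Pi.neg_apply, sub_neg_eq_add] at this⟩)
    · rw [lt_div_iff₀ hd] at h
      rw [lt_div_iff₀ (mul_pos hθ (hpos θ))] at hy
      linarith
    · have h1 := hc w (by linarith [hw w hwb])
      rcases hv with rfl | rfl
      · exact h1
      · rw [neg_neg]
        exact h1.symm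
  have fin : ∀ v : E → ℝ, (v = u ∨ v = -u) → Env v θs x - v x ≤ 16 * N₀ * θs ^ (1 + β) := by
    intro v hv
    have h2 := hle v hv x θs (by linarith) hθs hθs'
    have h3 := self_le_Env (hlip v hv) hθs.le x
    have h4 := hpos θs
    rw [max_self] at h2 h4
    rw [Real.rpow_add hθs, Real.rpow_one]
    have h5 : sSup A * θs * θs ^ β ≤ N₀ * θs * θs ^ β := by gcongr
    nlinarith
  refine ⟨fin u (Or.inl rfl), ?_⟩
  have := fin (-u) (Or.inr rfl)
  rwa [Pi.neg_apply, sub_neg_eq_add] at this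

end Crest.Agent.R094
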