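import Crest.Agent.R094.ZLemma
import Crest.Agent.R094.Core

/-! Row 94: the point-picked configuration is impossible when the normalised supremum is large. -/

set_option autoImplicit false

open scoped InnerProductSpace
open Set Metric

namespace Crest.Agent.R094

variable {E : Type*} [NormedAddCommGroup E] [InnerProductSpace ℝ E]

variable [FiniteDimensional ℝ E]

theorem redLocal_beta {a b : ℝ} (ha : 1 ≤ a) (hb : 1 < b) :
    ∃ β₀ : ℝ, 0 < β₀ ∧ ∀ β, β ≤ β₀ → a ^ β ≤ b := by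
  have h1 := Real.log_nonneg ha
  have h2 := Real.log_pos hb
  refine ⟨Real.log b / (Real.log a + 1), by positivity, fun β hβ => ?_⟩
  rw [Real.rpow_def_of_pos (by linarith), ← Real.le_log_iff_exp_le (by linarith)]
  refine (mul_le_mul_of_nonneg_left hβ h1).trans ?_
  rw [← mul_div_assoc, div_le_iff₀ (by positivity)]
  nlinarith

theorem redLocal_sq {m β : ℝ} (hm : 1 ≤ m) (hβ : β ≤ 1 / 2) : (m ^ 2) ^ β ≤ m := by
  calc (m ^ 2) ^ β ≤ (m ^ 2) ^ (1 / 2 : ℝ) :=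
        Real.rpow_le_rpow_of_exponent_le (one_le_pow₀ hm) hβ
    _ = m := by rw [← Real.sqrt_eq_rpow, Real.sqrt_sq (by linarith)]

theorem redLocal_scale {c θs β κ m θ : ℝ} (hc : 0 ≤ c) (hθs : 0 < θs) (hβ : 0 ≤ β) (hκ : 1 ≤ κ)
    (hm : κ ^ β ≤ m) (hθ : 0 < θ) :
    min (8 ^ 2) (c * (max (κ * θ) θs) ^ β) ≤ m * min (8 ^ 2) (c * (max θ θs) ^ β) := by
  have h1 : 1 ≤ m := (Real.one_le_rpow hκ hβ).trans hm
  have h2 : 0 < max θ θs := lt_max_of_lt_left hθ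
  have h3 : max (κ * θ) θs ≤ κ * max θ θs :=
    max_le (mul_le_mul_of_nonneg_left (le_max_left _ _) (by linarith))
      ((le_max_right θ θs).trans (le_mul_of_one_le_left h2.le hκ))
  have h4 : (max (κ * θ) θs) ^ β ≤ m * (max θ θs) ^ β := by
    refine (Real.rpow_le_rpow (le_max_of_le_right hθs.le) h3 hβ).trans ?_
    rw [Real.mul_rpow (by linarith) h2.le]
    exact mul_le_mul_of_nonneg_right hm (Real.rpow_nonneg h2.le _)
  rw [mul_min_of_nonneg _ _ (by linarith)]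
  refine min_le_min (by linarith) ?_
  rw [mul_left_comm]
  exact mul_le_mul_of_nonneg_left h4 hc

theorem redLocal_main {η S D : ℝ} (hη : 0 < η) (hS : 1 ≤ S) (hD : 0 ≤ D)
    (hcore : ∀ (u : E → ℝ) (L : ℝ), Lip u L →
      (∀ w ∈ ball (0 : E) (D * (L + 1)), Good u (2 * 10 ^ 18) S η w) → Env u 1 0 - u 0 < 1 - η)
    {u : E → ℝ} {x₀ : E} {lam : ℝ → ℝ} {θ₀ θb ρ : ℝ} (hu : Lip u 8) (hθ₀ : 0 < θ₀) (hθb : θ₀ ≤ θb)
    (hl0 : ∀ θ, 0 < θ → 0 < lam θ) (hlL : ∀ θ, 0 < θ → lam θ ≤ 8 ^ 2)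
    (hmono : ∀ θ θ', 0 < θ → θ ≤ θ' → lam θ ≤ lam θ')
    (hl4 : ∀ θ, 0 < θ → lam (10 ^ 4 * θ) ≤ 100 * lam θ)
    (hl10 : ∀ θ, 0 < θ → lam (10 ^ 10 * θ) ≤ 10 ^ 5 * lam θ)
    (hl3 : lam (3 * θ₀) ≤ (1 + η / 3) * lam θ₀) (hlS : lam (S * θ₀) ≤ 2 * lam θ₀)
    (hltop : ∀ θ, θb ≤ θ → lam θ = 8 ^ 2) (htop : (10 ^ 4 + S) * θb ≤ 1 / 128)
    (hρ : 16 * D * θb + 2 * 10 ^ 9 * 8 * ((10 ^ 4 + S) * θb) ≤ ρ)
    (hc : ∀ w ∈ ball x₀ ρ, Cvx u (1 / 128) w ∧ Cvx (-u) (1 / 128) w)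
    (he : ∀ w ∈ ball x₀ ρ, ∀ θ, 0 < θ →
      Env u θ w - u w ≤ lam θ * θ ∧ Env (-u) θ w + u w ≤ lam θ * θ) :
    Env u θ₀ x₀ - u x₀ < (1 - η) * (lam θ₀ * θ₀) := by
  have hθb0 : 0 < θb := hθ₀.trans_le hθb
  have hl := hl0 θ₀ hθ₀
  obtain ⟨q, hq, hq2⟩ : ∃ q : ℝ, 0 < q ∧ q ^ 2 = lam θ₀ :=
    ⟨√(lam θ₀), Real.sqrt_pos.2 hl, Real.sq_sqrt hl.le⟩
  have hq8 : q ≤ 8 := by
    have := hlL θ₀ hθ₀
    nlinarith
  have hr : 0 < θ₀ * q := by positivity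
  have hk : 0 < q ^ 2 * θ₀ := by positivity
  have e1 : ∀ s : ℝ, s * (θ₀ * q) ^ 2 / (q ^ 2 * θ₀) = s * θ₀ := fun s => by field_simp
  have hSθ : S * θ₀ ≤ (10 ^ 4 + S) * θb := by nlinarith
  have hsub : ∀ w ∈ ball x₀ (16 * D * θb),
      ball w (2 * 10 ^ 9 * 8 * ((10 ^ 4 + S) * θb)) ⊆ ball x₀ ρ := by
    intro w hw z hz
    rw [mem_ball] at hw hz ⊢
    linarith [dist_triangle z w x₀]
  have hfr : ∀ w ∈ ball x₀ (16 * D * θb), ∀ s, 0 < s → s ≤ (10 ^ 4 + S) * θb →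
      ∃ (v : E) (h : ℝ), Frame u w s v h (10 ^ 18 * lam s) := fun w hw =>
    zlemma hu (by positivity) hl0 hlL hl4 hl10
      (fun θ hθ => hltop θ (le_trans (by rw [le_div_iff₀ (by norm_num)]; nlinarith) hθ))
      (fun z hz => ⟨(hc z (hsub w hw hz)).1.mono htop, (hc z (hsub w hw hz)).2.mono htop⟩)
      fun z hz => he z (hsub w hw hz)
  have hgood1 : ∀ (f : E → ℝ) (x : E), Lip f 8 → Cvx f (1 / 128) (x₀ + (θ₀ * q) • x) →
      (∀ θ, 0 < θ → Env f θ (x₀ + (θ₀ * q) • x) - f (x₀ + (θ₀ * q) • x) ≤ lam θ * θ) →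
      Good1 (resc f x₀ (θ₀ * q) (q ^ 2 * θ₀)) S η x := by
    intro f x hf h1 h2
    refine ⟨(h1.rescale hf hr hk).mono ?_, fun θ hθ hθ3 => ?_⟩
    · have : 1 / 128 * (q ^ 2 * θ₀) / (θ₀ * q) ^ 2 = 1 / 128 / θ₀ := by field_simp
      rw [this, le_div_iff₀ hθ₀]
      linarith
    · rw [Env_resc hf x₀ hr hk hθ.le, resc_apply, e1, ← sub_div, div_le_iff₀ hk, hq2]
      have h3 := h2 (θ * θ₀) (by positivity)
      have h4 := (hmono (θ * θ₀) (3 * θ₀) (by positivity) (by nlinarith)).trans hl3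
      have h5 := mul_le_mul_of_nonneg_right h4 (show 0 ≤ θ * θ₀ by positivity)
      have h6 : 0 ≤ (3 - θ) * η * (lam θ₀ * θ₀) :=
        mul_nonneg (mul_nonneg (by linarith) hη.le) (by positivity)
      nlinarith
  have key := hcore _ _ (hu.rescale x₀ hr hk) fun x hx => by
    have hw : x₀ + (θ₀ * q) • x ∈ ball x₀ (16 * D * θb) := by
      rw [mem_ball_zero_iff] at hx
      rw [mem_ball, dist_eq_norm, add_sub_cancel_left, norm_smul, Real.norm_of_nonneg hr.le]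
      have h1 := mul_lt_mul_of_pos_left hx hr
      have h2 : θ₀ * q * (D * (8 * (θ₀ * q) / (q ^ 2 * θ₀) + 1)) = D * (θ₀ * (8 + q)) := by
        field_simp
      have h3 : D * (θ₀ * (8 + q)) ≤ D * (θb * 16) :=
        mul_le_mul_of_nonneg_left (mul_le_mul hθb (by linarith) (by positivity) hθb0.le) hD
      linarith
    have hw' : x₀ + (θ₀ * q) • x ∈ ball x₀ ρ := hsub _ hw (mem_ball_self (by positivity))
    refine ⟨hgood1 u x hu (hc _ hw').1 fun θ hθ => (he _ hw' θ hθ).1, ?_, fun s hs hsS => ?_⟩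
    · rw [← resc_neg]
      exact hgood1 (-u) x hu.neg (hc _ hw').2 fun θ hθ => by
        simpa using (he _ hw' θ hθ).2
    · have hs1 : s * θ₀ ≤ S * θ₀ := mul_le_mul_of_nonneg_right hsS hθ₀.le
      obtain ⟨v, h, hF⟩ := hfr _ hw (s * θ₀) (by positivity) (hs1.trans hSθ)
      rw [← e1 s] at hF
      refine ⟨_, _, (hF.rescale hr hk hs).mono hs ?_⟩
      rw [e1]
      have h4 := (hmono (s * θ₀) (S * θ₀) (by positivity) hs1).trans hlS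
      have e2 : 10 ^ 18 * lam (s * θ₀) * (θ₀ * q) ^ 2 / (q ^ 2 * θ₀) ^ 2 =
          10 ^ 18 * lam (s * θ₀) / q ^ 2 := by field_simp
      rw [e2, hq2, div_le_iff₀ hl]
      linarith
  rw [Env_resc hu x₀ hr hk zero_le_one, resc_apply, e1, ← sub_div, div_lt_iff₀ hk, hq2, smul_zero,
    add_zero, one_mul] at key
  exact key

/-- Take `η, S, D` from `core (2·10¹⁸)`; `η₁ = η/4`; `β ∈ (0, 1/2]` with `3^β ≤ 1 + η/3` and `S^β ≤ 2`;
`L = 8`; `N₀` with `N₀ η₁ ≥ 2L³(D + 2·10⁹(10⁴+S)) + 1` and `N₀ ≥ 128 L² (10⁴+S)`. Suppose the conclusion fails.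
Put `ϖ θ = (max θ θs)^β`, `c = N/((1-η₁) d)`, `lam θ = min (L²) (c ϖ θ)`, `θb = L² d/N`,
`top = (10⁴+S) θb ≤ 1/128`. From `Env_le_add`: `ϖ θ₀ ≤ θb`, `θ₀ ≤ θ₀^β ≤ θb`, `lam θ₀ = c ϖ θ₀ =: l₀`;
`lam θ = L²` for `θ ≥ θb` (as `θb^β ≥ θb`); `lam (κ θ) ≤ κ^β lam θ` for `κ ≥ 1`, `lam` monotone;
`Env (±u) θ ∓ u ≤ lam θ · θ` on the ball for all `θ > 0`. `zlemma` at every point `w` within `2 D L θb` of
`x₀` gives frames with constant `10¹⁸ lam s`. Rescale with `r = θ₀ √l₀`, `k = l₀ θ₀` (`r²/k = θ₀`,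
`r²/k² = 1/l₀`, Lipschitz constant `L/√l₀ ≥ 1`): the rescaled function is `Good` with `Γ = 2·10¹⁸` on the
ball of radius `D (L/√l₀ + 1)` (`θ max(1,θ)^β ≤ θ + η` for `θ ≤ 3`) and
`Env 1 0 - u 0 ≥ (1-η₁)² ≥ 1 - η`, contradicting `core`. -/
theorem red_local :
    ∃ β η₁ N₀ : ℝ, 0 < β ∧ β ≤ 1 / 2 ∧ 0 < η₁ ∧ η₁ ≤ 1 / 4 ∧ 0 < N₀ ∧
      ∀ (u : E → ℝ) (x₀ : E) (N d θs θ₀ : ℝ), Lip u 8 → N₀ ≤ N → 0 < d → d ≤ 1 → 0 < θs →
        0 < θ₀ → θ₀ ≤ 1 / 128 →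
        (∀ w ∈ ball x₀ (η₁ * d), Cvx u (1 / 128) w ∧ Cvx (-u) (1 / 128) w) →
        (∀ w ∈ ball x₀ (η₁ * d), ∀ θ, 0 < θ → θ ≤ 1 / 128 →
          Env u θ w - u w ≤ N * θ * (max θ θs) ^ β / ((1 - η₁) * d) ∧
          Env (-u) θ w + u w ≤ N * θ * (max θ θs) ^ β / ((1 - η₁) * d)) →
        Env u θ₀ x₀ - u x₀ < (1 - η₁) * N * θ₀ * (max θ₀ θs) ^ β / d := by
  obtain ⟨η, S, D, hη, hη1, hS, hD, hcore⟩ := core (E := E) (2 * 10 ^ 18) (by norm_num)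
  obtain ⟨β₁, hβ₁, h3⟩ := redLocal_beta (a := 3) (b := 1 + η / 3) (by norm_num) (by linarith)
  obtain ⟨β₂, hβ₂, h2⟩ := redLocal_beta (b := 2) hS (by norm_num)
  obtain ⟨β, hβ, hβh, hβ3, hβS⟩ : ∃ β : ℝ, 0 < β ∧ β ≤ 1 / 2 ∧ (3 : ℝ) ^ β ≤ 1 + η / 3 ∧ S ^ β ≤ 2 :=
    ⟨min (1 / 2) (min β₁ β₂), by positivity, min_le_left _ _,
      h3 _ ((min_le_right _ _).trans (min_le_left _ _)),
      h2 _ ((min_le_right _ _).trans (min_le_right _ _))⟩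
  refine ⟨β, η / 4, 4096 * (D + 10 ^ 9 * (10 ^ 4 + S)) / η, hβ, hβh, by positivity, by linarith,
    by positivity, fun u x₀ N d θs θ₀ hu hN hd hd1 hθs hθ₀ hθ₁ hc he => ?_⟩
  clear h2 h3
  rw [div_le_iff₀ hη] at hN
  have hN0 : 0 < N := by
    have : 0 < N * η := lt_of_lt_of_le (by positivity) hN
    exact (mul_pos_iff_of_pos_right hη).1 this
  have hN1 : 4096 * (D + 10 ^ 9 * (10 ^ 4 + S)) ≤ N := hN.trans (mul_le_of_le_one_right hN0.le hη1)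
  obtain ⟨a, ha⟩ : ∃ a, a = 1 - η / 4 := ⟨_, rfl⟩
  have h34 : 3 / 4 ≤ a := by linarith
  have ha1 : a ≤ 1 := by linarith
  have ha0 : 0 < a := by linarith
  have h6 : 1 - η ≤ a ^ 2 := by rw [ha]; nlinarith [sq_nonneg η]
  have h916 : 9 / 16 ≤ a ^ 2 := by nlinarith
  rw [← ha] at he ⊢
  have hϖ : ∀ θ : ℝ, 0 < (max θ θs) ^ β := fun θ =>
    Real.rpow_pos_of_pos (lt_max_of_lt_right hθs) _
  have hself : ∀ θ : ℝ, 0 < θ → θ ≤ 1 → θ ≤ (max θ θs) ^ β := fun θ h0 h1 => by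
    calc θ = θ ^ (1 : ℝ) := (Real.rpow_one θ).symm
      _ ≤ θ ^ β := Real.rpow_le_rpow_of_exponent_ge h0 h1 (by linarith)
      _ ≤ _ := Real.rpow_le_rpow h0.le (le_max_left _ _) hβ.le
  have hmono : ∀ θ θ' : ℝ, θ ≤ θ' → (max θ θs) ^ β ≤ (max θ' θs) ^ β := fun θ θ' h =>
    Real.rpow_le_rpow (le_max_of_le_right hθs.le) (max_le_max_right _ h) hβ.le
  obtain ⟨c, hcdef⟩ : ∃ c, c = N / (a * d) := ⟨_, rfl⟩
  have hc0 : 0 < c := by rw [hcdef]; positivity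
  obtain ⟨θb, hθbdef⟩ : ∃ θb, θb = 64 * d / N := ⟨_, rfl⟩
  have hθb0 : 0 < θb := by rw [hθbdef]; positivity
  have hθbN : N * θb = 64 * d := by rw [hθbdef]; field_simp
  have hcθ : 8 ^ 2 ≤ c * θb := by
    have h1 : c * θb * a = 64 := by rw [hcdef, hθbdef]; field_simp
    have h2 := mul_le_of_le_one_right (mul_pos hc0 hθb0).le ha1
    linarith
  have htop : (10 ^ 4 + S) * θb ≤ 1 / 128 := by
    have h1 : 8192 * (10 ^ 4 + S) * θb ≤ N * θb :=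
      mul_le_mul_of_nonneg_right (by linarith) hθb0.le
    linarith
  have hθb1 : θb ≤ 1 / 128 := (le_mul_of_one_le_left hθb0.le (by linarith)).trans htop
  have hltop : ∀ θ, θb ≤ θ → min (8 ^ 2) (c * (max θ θs) ^ β) = 8 ^ 2 := fun θ hθ =>
    min_eq_left (hcθ.trans (mul_le_mul_of_nonneg_left
      ((hself θb hθb0 (by linarith)).trans (hmono _ _ hθ)) hc0.le))
  by_contra hcon
  rw [not_lt] at hcon
  have e1 : a * N * θ₀ * (max θ₀ θs) ^ β / d = a ^ 2 * (c * (max θ₀ θs) ^ β * θ₀) := by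
    rw [hcdef]
    field_simp
  rw [e1] at hcon
  have hl₀ : 0 < c * (max θ₀ θs) ^ β := mul_pos hc0 (hϖ θ₀)
  have h32 : a ^ 2 * (c * (max θ₀ θs) ^ β) ≤ 32 := by
    have h1 := Env_le_add hu hθ₀.le x₀
    have h2 : a ^ 2 * (c * (max θ₀ θs) ^ β) * θ₀ ≤ 32 * θ₀ := by linarith
    exact le_of_mul_le_mul_right h2 hθ₀
  have h64 : c * (max θ₀ θs) ^ β ≤ 8 ^ 2 := by
    have := mul_le_mul_of_nonneg_right h916 hl₀.le
    linarith
  have hθb : θ₀ ≤ θb :=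
    (hself θ₀ hθ₀ (by linarith)).trans (le_of_mul_le_mul_left (h64.trans hcθ) hc0)
  have p4 : ((10 : ℝ) ^ 4) ^ β ≤ 100 := by
    rw [show (10 : ℝ) ^ 4 = 100 ^ 2 by norm_num]
    exact redLocal_sq (by norm_num) hβh
  have p10 : ((10 : ℝ) ^ 10) ^ β ≤ 10 ^ 5 := by
    rw [show (10 : ℝ) ^ 10 = (10 ^ 5) ^ 2 by norm_num]
    exact redLocal_sq (by norm_num) hβh
  have hρ : 16 * D * θb + 2 * 10 ^ 9 * 8 * ((10 ^ 4 + S) * θb) ≤ η / 4 * d := by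
    have h1 := mul_le_mul_of_nonneg_right hN hθb0.le
    have h2 : N * η * θb = 64 * d * η := by rw [← hθbN]; ring
    linarith
  have he' : ∀ w ∈ ball x₀ (η / 4 * d), ∀ θ, 0 < θ →
      Env u θ w - u w ≤ min (8 ^ 2) (c * (max θ θs) ^ β) * θ ∧
        Env (-u) θ w + u w ≤ min (8 ^ 2) (c * (max θ θs) ^ β) * θ := fun w hw θ hθ => by
    have h1 := Env_le_add hu hθ.le w
    have h2 := Env_le_add hu.neg hθ.le w
    rw [Pi.neg_apply] at h2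
    rcases le_total θ (1 / 128) with h | h
    · have h4 := he w hw θ hθ h
      have e2 : N * θ * (max θ θs) ^ β / (a * d) = c * (max θ θs) ^ β * θ := by
        rw [hcdef]; ring
      rw [e2] at h4
      rw [min_mul_of_nonneg _ _ hθ.le, le_min_iff, le_min_iff]
      exact ⟨⟨by linarith, h4.1⟩, by linarith, h4.2⟩
    · rw [hltop θ (hθb1.trans h)]
      exact ⟨by linarith, by linarith⟩
  have key := redLocal_main hη hS hD hcore (x₀ := x₀)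
    (lam := fun θ => min (8 ^ 2) (c * (max θ θs) ^ β)) hu hθ₀ hθb
    (fun θ _ => lt_min (by norm_num) (mul_pos hc0 (hϖ θ))) (fun θ _ => min_le_left _ _)
    (fun θ θ' _ h => min_le_min_left _ (mul_le_mul_of_nonneg_left (hmono θ θ' h) hc0.le))
    (fun θ hθ => redLocal_scale hc0.le hθs hβ.le (by norm_num) p4 hθ)
    (fun θ hθ => redLocal_scale hc0.le hθs hβ.le (by norm_num) p10 hθ)
    (redLocal_scale hc0.le hθs hβ.le (by norm_num) hβ3 hθ₀)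
    (redLocal_scale hc0.le hθs hβ.le hS hβS hθ₀) hltop htop hρ hc he'
  simp only [min_eq_right h64] at key
  have h7 := mul_le_mul_of_nonneg_right h6 (mul_pos hl₀ hθ₀).le
  linarith

end Crest.Agent.R094
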