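import Crest.Agent.R094.Env
import Crest.Agent.R094.Hull

/-! Row 94: representation of the envelope by a convex combination of touching points. -/

set_option autoImplicit false

open scoped InnerProductSpace
open Set Metric

namespace Crest.Agent.R094

variable {E : Type*} [NormedAddCommGroup E] [InnerProductSpace ℝ E]

variable {φ : E → ℝ} {L θ δ : ℝ}

lemma rep_var {ι : Type*} [Fintype ι] (α : ι → ℝ) (y : ι → E) {x : E} (hsum : ∑ i, α i = 1)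
    (hbar : ∑ i, α i • y i = x) (P : E) :
    ∑ i, α i * ‖y i - P‖ ^ 2 = ∑ i, α i * ‖y i - x‖ ^ 2 + ‖x - P‖ ^ 2 := by
  have h1 : ∀ i, α i * ‖y i - P‖ ^ 2 = α i * ‖y i - x‖ ^ 2 + 2 * ⟪α i • y i, x - P⟫_ℝ +
      α i * (‖x - P‖ ^ 2 - 2 * ⟪x, x - P⟫_ℝ) := fun i => by
    rw [← sub_add_sub_cancel (y i) x P, norm_add_sq_real, inner_sub_left, real_inner_smul_left]
    ring
  rw [Finset.sum_congr rfl fun i _ => h1 i, Finset.sum_add_distrib, Finset.sum_add_distrib,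
    ← Finset.mul_sum, ← Finset.sum_mul, ← sum_inner, hsum, hbar]
  ring

lemma rep_split {ι : Type*} [Fintype ι] (α a b : ι → ℝ) (θ : ℝ) :
    ∑ i, α i * (a i - b i / (2 * θ)) = ∑ i, α i * a i - (∑ i, α i * b i) / (2 * θ) := by
  rw [Finset.sum_div, ← Finset.sum_sub_distrib]
  exact Finset.sum_congr rfl fun i _ => by ring

lemma rep_norm (hθ : 0 < θ) (x p : E) :
    ‖x - (x - θ • p)‖ ^ 2 / (2 * θ) = θ * ‖p‖ ^ 2 / 2 := by
  rw [sub_sub_cancel, norm_smul, Real.norm_eq_abs, abs_of_pos hθ]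
  field_simp

lemma rep_bound (hφ : Lip φ L) (hθ : 0 < θ) {P w : E}
    (h : Tp φ θ P = φ w - ‖w - P‖ ^ 2 / (2 * θ)) : ‖w - P‖ ≤ 2 * L * θ := by
  have h1 : ‖θ⁻¹ • (w - P)‖ = ‖w - P‖ / θ := by
    rw [norm_smul, Real.norm_eq_abs, abs_of_pos (inv_pos.2 hθ)]
    field_simp
  have h2 := norm_le_of_Tp_eq (x := P) (a := θ⁻¹ • (w - P)) hφ hθ (by
    rw [h, h1, smul_inv_smul₀ hθ.ne', add_sub_cancel]
    field_simp)
  rwa [h1, div_le_iff₀ hθ] at h2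

lemma rep_max [FiniteDimensional ℝ E] (hφ : Lip φ L) (hθ : 0 < θ) (P : E) :
    ∃ w, Tp φ θ P = φ w - ‖w - P‖ ^ 2 / (2 * θ) := by
  obtain ⟨a, -, ha⟩ := exists_Tp_eq hφ hθ.le P
  refine ⟨P + θ • a, ?_⟩
  rw [ha, add_sub_cancel_left, norm_smul, Real.norm_eq_abs, abs_of_pos hθ]
  field_simp

lemma rep_dir [FiniteDimensional ℝ E] (hφ : Lip φ L) (hθ : 0 < θ) {x P : E}
    (h : Env φ θ x = Tp φ θ P + ‖x - P‖ ^ 2 / (2 * θ)) (e : E) :
    ∃ w, Tp φ θ P = φ w - ‖w - P‖ ^ 2 / (2 * θ) ∧ ⟪e, x⟫_ℝ ≤ ⟪e, w⟫_ℝ := by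
  set S : Set (ℝ × E) := (Icc 0 1 ×ˢ closedBall P (2 * L * θ + ‖e‖)) ∩
    {q | Tp φ θ (P + q.1 • e) = φ q.2 - ‖q.2 - (P + q.1 • e)‖ ^ 2 / (2 * θ) ∧
      ⟪e, x⟫_ℝ ≤ ⟪e, q.2⟫_ℝ} with hS
  have c1 := hφ.continuous
  have c2 := (hφ.tp hθ.le).continuous
  have hc : IsCompact S := (isCompact_Icc.prod (isCompact_closedBall _ _)).inter_right
    (IsClosed.and (isClosed_eq (by fun_prop) (by fun_prop))
      (isClosed_le (by fun_prop) (by fun_prop)))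
  have hsub : Ioc (0 : ℝ) 1 ⊆ Prod.fst '' S := fun τ hτ => by
    obtain ⟨w, hw⟩ := rep_max hφ hθ (P + τ • e)
    refine ⟨(τ, w), ⟨⟨⟨hτ.1.le, hτ.2⟩, ?_⟩, hw, ?_⟩, rfl⟩
    · have h1 := rep_bound hφ hθ hw
      have h2 : ‖τ • e‖ ≤ ‖e‖ := by
        rw [norm_smul, Real.norm_eq_abs, abs_of_pos hτ.1]
        exact mul_le_of_le_one_left (norm_nonneg _) hτ.2
      have h3 := norm_add_le (w - (P + τ • e)) (τ • e)
      rw [mem_closedBall, dist_eq_norm, show w - P = w - (P + τ • e) + τ • e by abel]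
      linarith
    · have h1 := Env_le hφ hθ x (P + τ • e)
      have h2 := le_Tp_add hφ hθ P w
      have h3 : ∀ z : E, ‖z - (P + τ • e)‖ ^ 2 =
          ‖z - P‖ ^ 2 - 2 * τ * (⟪e, z⟫_ℝ - ⟪e, P⟫_ℝ) + ‖τ • e‖ ^ 2 := fun z => by
        rw [← sub_sub, norm_sub_sq_real, real_inner_smul_right, real_inner_comm, inner_sub_right]
        ring
      rw [h, hw, h3, h3] at h1
      have h4 : 0 ≤ (2 * τ * (⟪e, w⟫_ℝ - ⟪e, x⟫_ℝ)) / (2 * θ) := by
        simp only [add_div, sub_div, mul_sub] at h1 ⊢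
        linarith
      have h5 := (div_nonneg_iff.1 h4).resolve_right fun k => by linarith [k.2]
      have h6 := (mul_nonneg_iff_of_pos_left (by linarith [hτ.1])).1 h5.1
      show ⟪e, x⟫_ℝ ≤ ⟪e, w⟫_ℝ
      linarith
  have h0 : (0 : ℝ) ∈ Prod.fst '' S := by
    have := closure_minimal hsub (hc.image continuous_fst).isClosed
    rw [closure_Ioc zero_ne_one] at this
    exact this ⟨le_rfl, zero_le_one⟩
  obtain ⟨⟨τ, w⟩, ⟨-, h1, h2⟩, rfl⟩ := h0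
  exact ⟨w, by simpa using h1, h2⟩

/-- For every `P`: `φ (y i) ≤ Tp φ θ P + ‖y i - P‖²/(2θ)` and
`∑ α i ‖y i - P‖² = ∑ α i ‖y i - x‖² + ‖x - P‖²`; then use `le_Tm`. -/
theorem sum_le_Env (hφ : Lip φ L) (hθ : 0 < θ) {ι : Type*} [Fintype ι] (α : ι → ℝ) (y : ι → E)
    {x : E} (hα : ∀ i, 0 ≤ α i) (hsum : ∑ i, α i = 1) (hbar : ∑ i, α i • y i = x) :
    ∑ i, α i * (φ (y i) - ‖y i - x‖ ^ 2 / (2 * θ)) ≤ Env φ θ x := by
  refine le_Tm fun b => ?_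
  have h1 : ∑ i, α i * (φ (y i) - ‖y i - (x - θ • b)‖ ^ 2 / (2 * θ)) ≤
      ∑ i, α i * Tp φ θ (x - θ • b) := Finset.sum_le_sum fun i _ =>
    mul_le_mul_of_nonneg_left (by linarith [le_Tp_add hφ hθ (x - θ • b) (y i)]) (hα i)
  rw [← Finset.sum_mul, hsum, one_mul, rep_split, rep_var α y hsum hbar, add_div,
    rep_norm hθ] at h1
  rw [rep_split]
  linarith

/-- Representation. Let `P = x - θ p` minimise `Q ↦ Tp φ θ Q + ‖x - Q‖²/(2θ)` (`exists_Env_eq`) and let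
`Y` be the compact set of maximisers of `w ↦ φ w - ‖w - P‖²/(2θ)`. Claim `x ∈ convexHull ℝ Y`. Otherwise
separate (`geometric_hahn_banach_closed_point`, the hull is compact): `⟪e, w⟫ < c < ⟪e, x⟫` on `Y`.
For `τ > 0` let `w_τ` be a maximiser at `P + τ e`; comparing the values at `P + τ e` and `P` gives
`⟪e, w_τ⟫ ≥ ⟪e, x⟫`. A subsequence of `w_{1/n}` converges to a point of `Y`: contradiction.
The last identity follows from `∑ α i ‖y i - P‖² = ∑ α i ‖y i - x‖² + ‖x - P‖²`. -/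
theorem exists_rep [FiniteDimensional ℝ E] (hφ : Lip φ L) (hθ : 0 < θ) (x : E) :
    ∃ (p : E) (n : ℕ) (α : Fin n → ℝ) (y : Fin n → E),
      (∀ i, 0 ≤ α i) ∧ ∑ i, α i = 1 ∧ ∑ i, α i • y i = x ∧ ‖p‖ ≤ 2 * L ∧
      Env φ θ x = Tp φ θ (x - θ • p) + θ * ‖p‖ ^ 2 / 2 ∧
      (∀ i, Tp φ θ (x - θ • p) = φ (y i) - ‖y i - (x - θ • p)‖ ^ 2 / (2 * θ)) ∧
      (∀ i, ‖y i - (x - θ • p)‖ ≤ 2 * L * θ) ∧ (∀ i, ‖y i - x‖ ≤ 4 * L * θ) ∧
      Env φ θ x = ∑ i, α i * (φ (y i) - ‖y i - x‖ ^ 2 / (2 * θ)) := by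
  obtain ⟨p, hp, hE⟩ := exists_Env_eq hφ hθ.le x
  set Y : Set E := {w | Tp φ θ (x - θ • p) = φ w - ‖w - (x - θ • p)‖ ^ 2 / (2 * θ)} with hY
  have c1 := hφ.continuous
  have hc : IsCompact Y := (isCompact_closedBall (x - θ • p) (2 * L * θ)).of_isClosed_subset
    (isClosed_eq (by fun_prop) (by fun_prop))
    fun w hw => by rw [mem_closedBall, dist_eq_norm]; exact rep_bound hφ hθ hw
  have hx : x ∈ convexHull ℝ Y := by
    by_contra hx
    obtain ⟨f, c, h1, h2⟩ := geometric_hahn_banach_closed_point (convex_convexHull ℝ Y)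
      (isCompact_convexHull_of_isCompact hc).isClosed hx
    have : CompleteSpace E := FiniteDimensional.complete ℝ E
    obtain ⟨w, h3, h4⟩ := rep_dir hφ hθ (by rw [hE, rep_norm hθ])
      ((InnerProductSpace.toDual ℝ E).symm f)
    rw [InnerProductSpace.toDual_symm_apply, InnerProductSpace.toDual_symm_apply] at h4
    linarith [h1 w (subset_convexHull ℝ Y h3)]
  obtain ⟨ι, _, α, y, h1, h2, h3, h4⟩ := mem_convexHull_iff_exists_fintype.1 hx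
  set σ := (Fintype.equivFin ι).symm
  have k2 : ∑ i, α (σ i) = 1 := by rw [σ.sum_comp α, h2]
  have k4 : ∑ i, α (σ i) • y (σ i) = x := by rw [σ.sum_comp fun i => α i • y i, h4]
  refine ⟨p, _, fun i => α (σ i), fun i => y (σ i), fun i => h1 _, k2, k4, hp, hE,
    fun i => h3 _, fun i => rep_bound hφ hθ (h3 _), fun i => ?_, ?_⟩
  · have k5 := rep_bound hφ hθ (h3 (σ i))
    have k6 := norm_sub_le (y (σ i) - (x - θ • p)) (θ • p)
    rw [show y (σ i) - (x - θ • p) - θ • p = y (σ i) - x by abel, norm_smul, Real.norm_eq_abs,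
      abs_of_pos hθ] at k6
    nlinarith
  · have k5 : ∑ i, α (σ i) * (φ (y (σ i)) - ‖y (σ i) - (x - θ • p)‖ ^ 2 / (2 * θ)) =
        ∑ i, α (σ i) * Tp φ θ (x - θ • p) :=
      Finset.sum_congr rfl fun i _ => by rw [← h3 (σ i)]
    rw [← Finset.sum_mul, k2, one_mul, rep_split, rep_var _ _ k2 k4, add_div, rep_norm hθ] at k5
    rw [rep_split]
    linarith

end Crest.Agent.R094
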