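import Crest.Agent.R094.Frame

/-! Row 94: an almost affine lower bound near `P` from a far maximiser. -/

set_option autoImplicit false

open scoped InnerProductSpace
open Set Metric

namespace Crest.Agent.R094

variable {E : Type*} [NormedAddCommGroup E] [InnerProductSpace ℝ E]

/-- Let `Y = P + T a`, `w₀ = Y - R b = P - (R-T) b + T (a - b)`. From `Tm_le_add` at `P`:
`u w₀ ≥ Tm u (R-T) P - ‖w₀ - P‖²/(2(R-T))`, and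
`R‖b‖²/2 - ‖w₀-P‖²/(2(R-T)) = T‖a‖²/2 - T‖a-b‖²/2 - T²‖a-b‖²/(2(R-T))`. So
`u Y - Tm u R Y ≤ T Hp + (R-T) Hm + T c₂ ≤ R Hm + T (c₁+c₂)`, i.e. `Sp (-u) R Y ≤ Hm + (T/R)(c₁+c₂)`.
For `w = P + σ a + ζ`: `u w ≥ Tm u (T-σ) Y - ‖w - Y‖²/(2(T-σ))` (`Tm_le_add`),
`u Y - Tm u (T-σ) Y ≤ (T-σ) Sp (-u) R Y` (`Cvx.Sp_mono`, `T/2 ≤ T-σ ≤ 3T/2 ≤ R`),
`‖w - Y‖²/(2(T-σ)) = (T-σ)‖a‖²/2 - ⟪a,ζ⟫ + ‖ζ‖²/(2(T-σ))` and `u Y = Tp u T P + T‖a‖²/2`. -/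
theorem rigid_half {u : E → ℝ} {L T R Hp Hm ε c₁ c₂ : ℝ} {P a b : E} (hu : Lip u L) (hT : 0 < T)
    (hR : 2 * T ≤ R) (hc₁ : 0 ≤ c₁) (hc₂ : 0 ≤ c₂)
    (ha : Tp u T P = u (P + T • a) - T * ‖a‖ ^ 2 / 2)
    (hlo : T * (Hp - ε) ≤ Tp u T P - u P) (hhi : Tp u T P - u P ≤ T * Hp)
    (hm : u P - Tm u (R - T) P ≤ (R - T) * Hm)
    (hc : Cvx (-u) R (P + T • a))
    (hb : Tm u R (P + T • a) = u (P + T • a - R • b) + R * ‖b‖ ^ 2 / 2)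
    (h1 : Hp - Hm ≤ c₁) (h2 : ‖a - b‖ ^ 2 ≤ c₂) {σ : ℝ} (hσ : |σ| ≤ T / 2) (ζ : E) :
    T * (Hp - Hm) + σ * (Hm + ‖a‖ ^ 2 / 2) + ⟪a, ζ⟫_ℝ - ‖ζ‖ ^ 2 / T
        - (T * ε + 2 * T ^ 2 * (c₁ + c₂) / R) ≤ u (P + σ • a + ζ) - u P := by
  obtain ⟨hσ1, hσ2⟩ := abs_le.1 hσ
  have hR0 : 0 < R := by linarith
  have hRT : 0 < R - T := by linarith
  have hτ : 0 < T - σ := by linarith
  have k1 := Tm_le_add hu hRT P (P + T • a - R • b)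
  have e1 : ‖P + T • a - R • b - P‖ ^ 2 =
      T ^ 2 * ‖a‖ ^ 2 - 2 * (T * R * ⟪a, b⟫_ℝ) + R ^ 2 * ‖b‖ ^ 2 := by
    rw [show P + T • a - R • b - P = T • a - R • b by abel, norm_sub_sq_real, norm_smul, norm_smul,
      real_inner_smul_left, real_inner_smul_right, mul_pow, mul_pow, Real.norm_eq_abs,
      Real.norm_eq_abs, sq_abs, sq_abs]
    ring
  have k2 : ‖P + T • a - R • b - P‖ ^ 2 / (2 * (R - T)) ≤
      T * c₂ + R * ‖b‖ ^ 2 / 2 - T * ‖a‖ ^ 2 / 2 := by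
    rw [norm_sub_sq_real] at h2
    rw [e1, div_le_iff₀ (by linarith)]
    nlinarith [mul_le_mul_of_nonneg_left h2 (mul_pos hT hR0).le,
      mul_nonneg (mul_nonneg hT.le hc₂) (sub_nonneg.2 hR)]
  have k3 : Sp (-u) R (P + T • a) ≤ Hm + T * (c₁ + c₂) / R := by
    rw [Sp_neg, div_le_iff₀ hR0, add_mul, div_mul_cancel₀ _ hR0.ne']
    nlinarith [mul_le_mul_of_nonneg_left h1 hT.le]
  have k4 := mul_le_mul_of_nonneg_left ((hc.Sp_mono hτ (by linarith) le_rfl).trans k3) hτ.le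
  have k5 := Tm_eq_Sp u hτ (P + T • a)
  have k6 := Tm_le_add hu hτ (P + T • a) (P + σ • a + ζ)
  have e2 : ‖P + σ • a + ζ - (P + T • a)‖ ^ 2 / (2 * (T - σ)) =
      (T - σ) * ‖a‖ ^ 2 / 2 - ⟪a, ζ⟫_ℝ + ‖ζ‖ ^ 2 / (2 * (T - σ)) := by
    rw [show P + σ • a + ζ - (P + T • a) = ζ - (T - σ) • a by rw [sub_smul]; abel,
      norm_sub_sq_real, norm_smul, real_inner_smul_right, mul_pow, Real.norm_eq_abs, sq_abs,
      real_inner_comm]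
    field_simp
    ring
  have k7 : ‖ζ‖ ^ 2 / (2 * (T - σ)) ≤ ‖ζ‖ ^ 2 / T :=
    div_le_div_of_nonneg_left (sq_nonneg _) hT (by linarith)
  have k8 : (T - σ) * (T * (c₁ + c₂) / R) ≤ 2 * T ^ 2 * (c₁ + c₂) / R := by
    have : 2 * T ^ 2 * (c₁ + c₂) / R = 2 * T * (T * (c₁ + c₂) / R) := by ring
    rw [this]
    exact mul_le_mul_of_nonneg_right (by linarith) (by positivity)
  rw [e2] at k6
  nlinarith

end Crest.Agent.R094
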