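import Crest.Agent.R094.Frame

/-! Row 94: rescaling. -/

set_option autoImplicit false

open scoped InnerProductSpace
open Set Metric

namespace Crest.Agent.R094

variable {E : Type*} [NormedAddCommGroup E] [InnerProductSpace ℝ E]

variable {u : E → ℝ} {L r k s : ℝ} {y : E}

theorem resc_apply (u : E → ℝ) (y : E) (r k : ℝ) (x : E) : resc u y r k x = u (y + r • x) / k := rfl

theorem resc_neg (u : E → ℝ) (y : E) (r k : ℝ) : resc (-u) y r k = -resc u y r k := by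
  funext x
  simp only [resc, Pi.neg_apply, neg_div]

theorem Lip.rescale (hu : Lip u L) (y : E) (hr : 0 < r) (hk : 0 < k) :
    Lip (resc u y r k) (L * r / k) := by
  refine ⟨div_nonneg (mul_nonneg hu.nonneg hr.le) hk.le, fun x w => ?_⟩
  have h1 := hu.le (y + r • x) (y + r • w)
  rw [add_sub_add_left_eq_sub, ← smul_sub, norm_smul, Real.norm_of_nonneg hr.le] at h1
  rw [resc_apply, resc_apply, ← sub_div, div_mul_eq_mul_div, mul_assoc]
  exact div_le_div_of_nonneg_right h1 hk.le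

theorem scale_Tp (u : E → ℝ) (y : E) (hr : 0 < r) (hk : 0 < k) (s : ℝ) (x : E) :
    Tp (resc u y r k) s x = Tp u (s * r ^ 2 / k) (y + r • x) / k := by
  unfold Tp
  rw [div_eq_mul_inv _ k, Real.iSup_mul_of_nonneg (inv_nonneg.2 hk.le)]
  refine Function.Surjective.iSup_congr (fun a => (k / r) • a)
    (fun b => ⟨(r / k) • b, by
      simp only [smul_smul]
      rw [div_mul_div_cancel₀ hr.ne', div_self hk.ne', one_smul]⟩) fun a => ?_
  have e1 : y + r • (x + s • a) = y + r • x + (s * r ^ 2 / k) • (k / r) • a := by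
    rw [smul_add, smul_smul, smul_smul, ← add_assoc]
    congr 2
    field_simp
  rw [resc_apply, e1, norm_smul, mul_pow, Real.norm_eq_abs, sq_abs]
  field_simp

theorem scale_Tm (u : E → ℝ) (y : E) (hr : 0 < r) (hk : 0 < k) (s : ℝ) (x : E) :
    Tm (resc u y r k) s x = Tm u (s * r ^ 2 / k) (y + r • x) / k := by
  rw [Tm_eq, Tm_eq, ← resc_neg, scale_Tp _ y hr hk, neg_div]

theorem scale_Env (u : E → ℝ) (y : E) (hr : 0 < r) (hk : 0 < k) (s : ℝ) (x : E) :
    Env (resc u y r k) s x = Env u (s * r ^ 2 / k) (y + r • x) / k := by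
  have e : Tp (resc u y r k) s = resc (Tp u (s * r ^ 2 / k)) y r k :=
    funext fun w => scale_Tp u y hr hk s w
  rw [Env, Env, e, scale_Tm _ y hr hk]

/-- Substitute `a' = (k / r) a`. -/
theorem Tp_resc (hu : Lip u L) (y : E) (hr : 0 < r) (hk : 0 < k) (hs : 0 ≤ s) (x : E) :
    Tp (resc u y r k) s x = Tp u (s * r ^ 2 / k) (y + r • x) / k := by
  have _ := hu
  have _ := hs
  exact scale_Tp u y hr hk s x

theorem Tm_resc (hu : Lip u L) (y : E) (hr : 0 < r) (hk : 0 < k) (hs : 0 ≤ s) (x : E) :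
    Tm (resc u y r k) s x = Tm u (s * r ^ 2 / k) (y + r • x) / k := by
  have _ := hu
  have _ := hs
  exact scale_Tm u y hr hk s x

theorem Env_resc (hu : Lip u L) (y : E) (hr : 0 < r) (hk : 0 < k) (hs : 0 ≤ s) (x : E) :
    Env (resc u y r k) s x = Env u (s * r ^ 2 / k) (y + r • x) / k := by
  have _ := hu
  have _ := hs
  exact scale_Env u y hr hk s x

theorem Cvx.rescale {S : ℝ} (hu : Lip u L) (hr : 0 < r) (hk : 0 < k) {x : E}
    (h : Cvx u S (y + r • x)) : Cvx (resc u y r k) (S * k / r ^ 2) x := by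
  have _ := hu
  have hc : 0 < r ^ 2 / k := by positivity
  have hm : ∀ a ∈ Icc 0 (S * k / r ^ 2), a * r ^ 2 / k ∈ Icc 0 S := fun a ha =>
    ⟨by have := ha.1; positivity, by
      rw [div_le_iff₀ hk, ← le_div_iff₀ (by positivity)]; exact ha.2⟩
  refine ⟨convex_Icc _ _, fun a ha b hb p q hp hq hpq => ?_⟩
  have h1 := h.2 (hm a ha) (hm b hb) hp hq hpq
  simp only [smul_eq_mul, scale_Tp u y hr hk] at h1 ⊢
  have e : (p * a + q * b) * r ^ 2 / k = p * (a * r ^ 2 / k) + q * (b * r ^ 2 / k) := by ring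
  rw [e]
  exact (div_le_div_of_nonneg_right h1 hk.le).trans (le_of_eq (by ring))

theorem Frame.rescale {v x : E} {h Γ : ℝ} (hr : 0 < r) (hk : 0 < k) (hs : 0 < s)
    (hF : Frame u (y + r • x) (s * r ^ 2 / k) v h Γ) :
    Frame (resc u y r k) x s ((r / k) • v) (h * r ^ 2 / k ^ 2) (Γ * r ^ 2 / k ^ 2) := by
  intro σ hσ z
  have h1 := hF (σ * r ^ 2 / k) (by
    rw [abs_div, abs_mul, abs_of_pos hk, abs_of_pos (pow_pos hr 2)]
    gcongr) (r • z)
  have e1 : y + r • (x + σ • (r / k) • v + z) = y + r • x + (σ * r ^ 2 / k) • v + r • z := by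
    rw [smul_add, smul_add, smul_smul, smul_smul, ← add_assoc, ← add_assoc]
    congr 3
    ring
  rw [resc_apply, resc_apply, e1, real_inner_smul_left, norm_smul, mul_pow, Real.norm_eq_abs,
    sq_abs]
  rw [real_inner_smul_right, norm_smul, mul_pow, Real.norm_eq_abs, sq_abs] at h1
  have h2 := div_le_div_of_nonneg_right h1 hk.le
  rw [← abs_of_pos hk, ← abs_div, abs_of_pos hk] at h2
  refine le_trans (le_of_eq ?_) (h2.trans (le_of_eq ?_))
  · congr 1
    field_simp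
  · field_simp

theorem Frame.of_rescale {v x : E} {h Γ : ℝ} (hr : 0 < r) (hk : 0 < k) (hs : 0 < s)
    (hF : Frame (resc u y r k) x s v h Γ) :
    Frame u (y + r • x) (s * r ^ 2 / k) ((k / r) • v) (h * k ^ 2 / r ^ 2) (Γ * k ^ 2 / r ^ 2) := by
  intro σ hσ z
  have h1 := hF (σ * k / r ^ 2) (by
    rw [abs_div, abs_mul, abs_of_pos hk, abs_of_pos (pow_pos hr 2), div_le_iff₀ (pow_pos hr 2),
      ← le_div_iff₀ hk]
    exact hσ) (r⁻¹ • z)
  have e1 : y + r • (x + (σ * k / r ^ 2) • v + r⁻¹ • z) = y + r • x + σ • (k / r) • v + z := by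
    rw [smul_add, smul_add, smul_smul, smul_smul, smul_smul, mul_inv_cancel₀ hr.ne', one_smul,
      ← add_assoc, ← add_assoc]
    congr 3
    field_simp
  rw [resc_apply, resc_apply, e1, real_inner_smul_right, norm_smul, mul_pow, Real.norm_eq_abs,
    sq_abs] at h1
  rw [real_inner_smul_left, norm_smul, mul_pow, Real.norm_eq_abs, sq_abs]
  have h2 := mul_le_mul_of_nonneg_right h1 hk.le
  rw [← abs_of_pos hk, ← abs_mul, abs_of_pos hk] at h2
  refine le_trans (le_of_eq ?_) (h2.trans (le_of_eq ?_))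
  · congr 1
    field_simp
  · field_simp

/-! The Lipschitz scaling `r = k = τ`. -/

theorem scale_time {τ : ℝ} (hτ : 0 < τ) (s : ℝ) : s * τ ^ 2 / τ = s * τ := by
  field_simp

theorem Lip.rescale₁ {τ : ℝ} (hu : Lip u L) (y : E) (hτ : 0 < τ) : Lip (resc u y τ τ) L := by
  have h := hu.rescale y hτ hτ
  rwa [mul_div_cancel_right₀ _ hτ.ne'] at h

theorem Tp_resc₁ {τ : ℝ} (hu : Lip u L) (y : E) (hτ : 0 < τ) (hs : 0 ≤ s) (x : E) :
    Tp (resc u y τ τ) s x = Tp u (s * τ) (y + τ • x) / τ := by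
  rw [Tp_resc hu y hτ hτ hs, scale_time hτ]

theorem Tm_resc₁ {τ : ℝ} (hu : Lip u L) (y : E) (hτ : 0 < τ) (hs : 0 ≤ s) (x : E) :
    Tm (resc u y τ τ) s x = Tm u (s * τ) (y + τ • x) / τ := by
  rw [Tm_resc hu y hτ hτ hs, scale_time hτ]

theorem Env_resc₁ {τ : ℝ} (hu : Lip u L) (y : E) (hτ : 0 < τ) (hs : 0 ≤ s) (x : E) :
    Env (resc u y τ τ) s x = Env u (s * τ) (y + τ • x) / τ := by
  rw [Env_resc hu y hτ hτ hs, scale_time hτ]

theorem Sp_resc₁ {τ : ℝ} (hu : Lip u L) (y : E) (hτ : 0 < τ) (hs : 0 < s) (x : E) :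
    Sp (resc u y τ τ) s x = Sp u (s * τ) (y + τ • x) := by
  rw [Sp, Sp, Tp_resc₁ hu y hτ hs.le, resc_apply, ← sub_div, div_div, mul_comm τ]

theorem Frame.rescale₁ {τ : ℝ} {v x : E} {h Γ : ℝ} (hτ : 0 < τ) (hs : 0 < s)
    (hF : Frame u (y + τ • x) (s * τ) v h Γ) : Frame (resc u y τ τ) x s v h Γ := by
  rw [← scale_time hτ] at hF
  have h1 := hF.rescale hτ hτ hs
  rwa [div_self hτ.ne', one_smul, mul_div_cancel_right₀ _ (pow_pos hτ 2).ne',
    mul_div_cancel_right₀ _ (pow_pos hτ 2).ne'] at h1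

theorem scale_good1 {τ S η : ℝ} {x : E} (hu : Lip u L) (hτ : 0 < τ) (hτ1 : τ ≤ 1)
    (h : Good1 u S η (y + τ • x)) : Good1 (resc u y τ τ) (S / τ) (η / τ) x := by
  refine ⟨?_, fun θ hθ hθ3 => ?_⟩
  · have h1 := h.cvx.rescale hu hτ hτ
    have e : S * τ / τ ^ 2 = S / τ := by field_simp
    rwa [e] at h1
  · have h1 := h.env (θ * τ) (mul_pos hθ hτ) ((mul_le_of_le_one_right hθ.le hτ1).trans hθ3)
    rw [Env_resc₁ hu y hτ hθ.le, resc_apply, ← sub_div, div_le_iff₀ hτ, add_mul,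
      div_mul_cancel₀ _ hτ.ne']
    exact h1

theorem Good.rescale₁ {τ Γ S η : ℝ} {x : E} (hu : Lip u L) (hτ : 0 < τ) (hτ1 : τ ≤ 1)
    (h : Good u Γ S η (y + τ • x)) : Good (resc u y τ τ) Γ (S / τ) (η / τ) x := by
  refine ⟨scale_good1 hu hτ hτ1 h.pos, ?_, fun s hs hS => ?_⟩
  · rw [← resc_neg]
    exact scale_good1 hu.neg hτ hτ1 h.neg
  · obtain ⟨v, g, hF⟩ := h.frame (s * τ) (mul_pos hs hτ) ((le_div_iff₀ hτ).1 hS)
    exact ⟨v, g, hF.rescale₁ hτ hs⟩

end Crest.Agent.R094
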