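import Crest.Agent.R094.Frame
import Crest.Agent.R094.Rep
import Crest.Agent.R094.Forward

/-! Row 94: at a near-extremal point the small-scale velocity is close to the frame velocity. -/

set_option autoImplicit false

open scoped InnerProductSpace
open Set Metric

namespace Crest.Agent.R094

variable {E : Type*} [NormedAddCommGroup E] [InnerProductSpace ℝ E]

variable [FiniteDimensional ℝ E]

omit [FiniteDimensional ℝ E] in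
theorem speed_three (a b c : E) : ‖a + b + c‖ ^ 2 ≤ 3 * (‖a‖ ^ 2 + ‖b‖ ^ 2 + ‖c‖ ^ 2) := by
  have h1 : ‖a + b + c‖ ≤ ‖a‖ + ‖b‖ + ‖c‖ := norm_add₃_le
  have h2 : ‖a + b + c‖ ^ 2 ≤ (‖a‖ + ‖b‖ + ‖c‖) ^ 2 := pow_le_pow_left₀ (norm_nonneg _) h1 2
  nlinarith [sq_nonneg (‖a‖ - ‖b‖), sq_nonneg (‖a‖ - ‖c‖), sq_nonneg (‖b‖ - ‖c‖)]

omit [FiniteDimensional ℝ E] in
/-- Lower bound at a touching point. -/
theorem speed_point {u : E → ℝ} {L δ θ : ℝ} {y P : E} (hu : Lip u L) (hδ : 0 < δ) (hδθ : δ ≤ θ)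
    (hy : Tp u θ P = u y - ‖y - P‖ ^ 2 / (2 * θ)) (hE : Env (-u) δ y + u y ≤ 2 * δ) (ξ : E) :
    u y + ⟪y - P, ξ⟫_ℝ / θ - 4 * δ - 3 / 2 * (‖ξ‖ ^ 2 / δ) ≤ u (y + ξ) := by
  have hθ : 0 < θ := lt_of_lt_of_le hδ hδθ
  have h1 := le_Tp_add hu hθ P (y - ξ)
  have h2 := second_diff hu hδ y ξ
  have h3 : ‖y - ξ - P‖ ^ 2 = ‖y - P‖ ^ 2 - 2 * ⟪y - P, ξ⟫_ℝ + ‖ξ‖ ^ 2 := by
    rw [show y - ξ - P = (y - P) - ξ by abel, norm_sub_sq_real]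
  have h4 : ‖y - ξ - P‖ ^ 2 / (2 * θ)
      = ‖y - P‖ ^ 2 / (2 * θ) - ⟪y - P, ξ⟫_ℝ / θ + ‖ξ‖ ^ 2 / (2 * θ) := by
    rw [h3]; field_simp
  have h5 : ‖ξ‖ ^ 2 / (2 * θ) ≤ 1 / 2 * (‖ξ‖ ^ 2 / δ) := by
    have : ‖ξ‖ ^ 2 / θ ≤ ‖ξ‖ ^ 2 / δ := div_le_div_of_nonneg_left (sq_nonneg _) hδ hδθ
    have e : ‖ξ‖ ^ 2 / (2 * θ) = 1 / 2 * (‖ξ‖ ^ 2 / θ) := by field_simp
    rw [e]; linarith
  rw [h4, hy] at h1
  linarith

/-- Take `exists_rep` for `u` at `(x, θ)`: `p`, `P = x - θ p`, `α i`, `y i`, and `p i = (y i - P)/θ`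
(so `∑ α i p i = p`). From `le_Tp_add` at `P`: `u (y i - ξ) ≤ u (y i) - ⟪p i, ξ⟫ + ‖ξ‖²/(2θ)`; from
`second_diff` at scale `δ` and `Env (-u) δ (y i) + u (y i) ≤ δ + η ≤ 2δ`:
`u (y i + ξ) ≥ u (y i) + ⟪p i, ξ⟫ - 4δ - (3/2)‖ξ‖²/δ`. `sum_le_Env` at the points `y i + ξ` gives
`Env u θ (x+ξ) ≥ Env u θ x + ⟪p,ξ⟫ - 4δ - (3/2)‖ξ‖²/δ`, hence (with `Env u θ (x+ξ) - u (x+ξ) ≤ θ + η`)
`u (x+ξ) ≥ u x + ⟪p,ξ⟫ - (N+5)δ - (3/2)‖ξ‖²/δ`. Compare with a frame `(w, g)` at `x` of scale `2δ`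
at `ξ = (δ/4)(p - w)` (`‖w‖ ≤ L+Γ+1`): `‖p - w‖² ≤ 6.5 (N + 5 + 2Γ)`. Also `‖b - w‖² ≤ 5Γ`
(`Frame.argmin`) and `‖p - v‖² ≤ 22 A Γx (1 + 1/θ)` (`Frame.slope_near`, `upper_slope`, `c = 3`). -/
theorem speed {u : E → ℝ} {L Γ S η A Γx N δ θ h : ℝ} {x v b : E} (hu : Lip u L) (hΓ : 1 ≤ Γ)
    (hA : 1 ≤ A) (hΓx : 1 ≤ Γx) (hN : 0 ≤ N) (hδ : 0 < δ) (hδ1 : δ ≤ 1) (hηδ : η ≤ δ)
    (hδθ : δ ≤ θ) (hθ2 : θ ≤ 2) (hS : 2 * δ ≤ S)
    (hG : ∀ w, ‖w - x‖ ≤ 8 * L + Γ + 1 → Good u Γ S η w)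
    (hext : θ - N * δ ≤ Env u θ x - u x) (hF : Frame u x (8 * A) v h Γx)
    (hb : Tm u (2 * δ) x = u (x - (2 * δ) • b) + 2 * δ * ‖b‖ ^ 2 / 2) :
    ‖b - v‖ ^ 2 ≤ 24 * N + 200 * Γ + 66 * A * Γx * (1 + 1 / θ) := by
  have hθ : 0 < θ := lt_of_lt_of_le hδ hδθ
  have hL := hu.nonneg
  obtain ⟨p, n, α, y, hα, hsum, hbar, hp, hEnv, hTp, -, hyx, hrep⟩ := exists_rep hu hθ x
  have hx : Good u Γ S η x := hG x (by rw [sub_self, norm_zero]; linarith)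
  -- lower bound for the envelope near `x`
  have hlow : ∀ ξ : E, Env u θ x + ⟪p, ξ⟫_ℝ - 4 * δ - 3 / 2 * (‖ξ‖ ^ 2 / δ) ≤ Env u θ (x + ξ) := by
    intro ξ
    have hb' : ∑ i, α i • (y i + ξ) = x + ξ := by
      simp only [smul_add, Finset.sum_add_distrib, ← Finset.sum_smul, hsum, hbar, one_smul]
    have h1 := sum_le_Env hu hθ α (fun i => y i + ξ) hα hsum hb'
    have h2 : ∀ i, α i * (u (y i) - ‖y i - x‖ ^ 2 / (2 * θ))
        + α i * (⟪y i - (x - θ • p), ξ⟫_ℝ / θ) - α i * (4 * δ + 3 / 2 * (‖ξ‖ ^ 2 / δ))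
        ≤ α i * (u (y i + ξ) - ‖y i + ξ - (x + ξ)‖ ^ 2 / (2 * θ)) := by
      intro i
      have hyi : Good u Γ S η (y i) := hG (y i) (by nlinarith [hyx i])
      have hE : Env (-u) δ (y i) + u (y i) ≤ 2 * δ := by
        have := hyi.neg.env δ hδ (by linarith)
        simp only [Pi.neg_apply] at this
        linarith
      have h3 := speed_point hu hδ hδθ (hTp i) hE ξ
      rw [show y i + ξ - (x + ξ) = y i - x by abel, ← mul_add, ← mul_sub]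
      exact mul_le_mul_of_nonneg_left (by linarith) (hα i)
    have h3 : ∑ i, α i * (⟪y i - (x - θ • p), ξ⟫_ℝ / θ) = ⟪p, ξ⟫_ℝ := by
      have e1 : ∑ i, α i • (y i - (x - θ • p)) = θ • p := by
        simp only [smul_sub, Finset.sum_sub_distrib, ← Finset.sum_smul, hsum, hbar, one_smul]
        abel
      have e2 : ∑ i, α i * ⟪y i - (x - θ • p), ξ⟫_ℝ = θ * ⟪p, ξ⟫_ℝ := by
        have e3 := congrArg (fun z => ⟪z, ξ⟫_ℝ) e1
        simp only [sum_inner, real_inner_smul_left] at e3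
        exact e3
      simp only [← mul_div_assoc]
      rw [← Finset.sum_div, e2]
      field_simp
    have h4 := Finset.sum_le_sum (fun i (_ : i ∈ Finset.univ) => h2 i)
    rw [Finset.sum_sub_distrib, Finset.sum_add_distrib, h3, ← Finset.sum_mul, hsum, ← hrep] at h4
    linarith
  obtain ⟨w, g, hw⟩ := hx.frame (2 * δ) (by linarith) hS
  have hwn : ‖w‖ ≤ L + Γ + 1 := hw.norm_le hu (by linarith)
  -- `p` is close to `w`
  have hpw : ‖p - w‖ ^ 2 ≤ 13 / 2 * (N + 5 + 2 * Γ) := by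
    set ξ : E := (δ / 4) • (p - w) with hξ
    have hn : ‖ξ‖ = δ / 4 * ‖p - w‖ := by
      rw [hξ, norm_smul, Real.norm_of_nonneg (by linarith)]
    have hpw' : ‖p - w‖ ≤ 3 * L + Γ + 1 := by
      have := norm_sub_le p w
      linarith
    have hgood : Good u Γ S η (x + ξ) := by
      refine hG _ ?_
      rw [add_sub_cancel_left, hn]
      nlinarith [norm_nonneg (p - w)]
    have h1 := hgood.pos.env θ hθ (by linarith)
    have h2 := hlow ξ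
    have h3 := hw 0 (by rw [abs_zero]; linarith) ξ
    rw [zero_smul, add_zero, zero_mul, sub_zero] at h3
    have h4 := (abs_le.1 h3).2
    have h5 : ⟪p, ξ⟫_ℝ - ⟪w, ξ⟫_ℝ = δ / 4 * ‖p - w‖ ^ 2 := by
      rw [← inner_sub_left, hξ, real_inner_smul_right, real_inner_self_eq_norm_sq]
    have h6 : ‖ξ‖ ^ 2 / δ = δ / 16 * ‖p - w‖ ^ 2 := by
      rw [hn]; field_simp; ring
    have h7 : ‖ξ‖ ^ 2 / (16 * (2 * δ)) = δ / 512 * ‖p - w‖ ^ 2 := by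
      rw [hn]; field_simp; ring
    rw [h6] at h2
    rw [h7] at h4
    have h8 : δ * (79 / 512 * ‖p - w‖ ^ 2) ≤ δ * (N + 5 + 2 * Γ) := by nlinarith
    have h9 := le_of_mul_le_mul_left h8 hδ
    nlinarith
  have hbw : ‖b - w‖ ^ 2 ≤ 5 * Γ := by
    have := hw.argmin hu (by linarith : 0 < 2 * δ) le_rfl hb
    have e : 5 * Γ * (2 * δ) / (2 * δ) = 5 * Γ := by field_simp
    rwa [e] at this
  have hpv : ‖p - v‖ ^ 2 ≤ 22 * A * Γx * (1 + 1 / θ) := by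
    have h1 := hx.pos.env θ hθ (by linarith)
    have h2 := hF.slope_near (by linarith : 0 < 8 * A) hθ (c := 3) (p := p) (fun ξ => by
      have := upper_slope hu hθ hEnv ξ
      linarith)
    have hAΓ : 1 ≤ A * Γx := by nlinarith
    have h3 : 1 / (16 * (8 * A)) ≤ 1 / 2 :=
      one_div_le_one_div_of_le (by norm_num) (by linarith)
    have h4 : 1 / (2 * θ) = 1 / 2 * (1 / θ) := by field_simp
    have h5 : 0 < 1 / θ := by positivity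
    have h6 : 4 * (3 + Γx * (8 * A)) ≤ 44 * (A * Γx) := by nlinarith
    have h7 : 1 / (2 * θ) + 1 / (16 * (8 * A)) ≤ 1 / 2 * (1 + 1 / θ) := by
      rw [h4]; linarith
    have h8 : 0 ≤ 1 / (2 * θ) + 1 / (16 * (8 * A)) := by positivity
    calc ‖p - v‖ ^ 2 ≤ 4 * (3 + Γx * (8 * A)) * (1 / (2 * θ) + 1 / (16 * (8 * A))) := h2
      _ ≤ 44 * (A * Γx) * (1 / 2 * (1 + 1 / θ)) :=
        mul_le_mul h6 h7 h8 (by linarith)
      _ = 22 * A * Γx * (1 + 1 / θ) := by ring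
  have h1 := speed_three (b - w) (w - p) (p - v)
  rw [show b - w + (w - p) + (p - v) = b - v by abel, norm_sub_rev w p] at h1
  nlinarith

end Crest.Agent.R094
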