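import Crest.Agent.R094.StepAux
import Crest.Agent.R094.ND
import Crest.Agent.R094.DC

/-! Row 94: propagation of near-extremality in `θ`. -/

set_option autoImplicit false

open scoped InnerProductSpace
open Set Metric

namespace Crest.Agent.R094

variable {E : Type*} [NormedAddCommGroup E] [InnerProductSpace ℝ E]

variable [FiniteDimensional ℝ E]

theorem step_q {θ δ E₀ : ℝ} (hE : 0 ≤ E₀) (hδ : 0 < δ) (hδθ : δ ≤ θ) (hθ : θ ≤ 4) :
    2 * (E₀ * (θ ^ 2 / 2 + 8 * (2 - √θ))) + δ ^ 2 * E₀ * (1 + 1 / θ) ≤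
      E₀ * ((θ + δ) ^ 2 / 2 + 8 * (2 - √(θ + δ))) + E₀ * ((θ - δ) ^ 2 / 2 + 8 * (2 - √(θ - δ))) := by
  have h := mul_le_mul_of_nonneg_left (step_sqrt hδ hδθ hθ) hE
  have e : δ ^ 2 * E₀ * (1 + 1 / θ) = δ ^ 2 * E₀ + E₀ * (δ ^ 2 / θ) := by ring
  rw [e]
  nlinarith

theorem step (Γ : ℝ) (hΓ : 1 ≤ Γ) :
    ∃ A N₂ D : ℝ, 1 ≤ A ∧ 1 ≤ N₂ ∧ 0 ≤ D ∧
      ∀ (u : E → ℝ) (L S η : ℝ) (J : ℕ) (y v : E) (h : ℝ), Lip u L → 16 * A ≤ S → 2 ≤ J →
        η ≤ 1 / J → (∀ w ∈ ball y (D * (L + 1)), Good u Γ S η w) →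
        Frame u y (16 * A) v h (5 * Γ) → 1 - 1 / (J : ℝ) ≤ Env u 1 y - u y →
        ∀ i : ℕ, 1 ≤ i → i ≤ 2 * J → ∃ (t : ℝ) (z : E), |t| ≤ A ∧ ‖z‖ ≤ A ∧
          (i : ℝ) / J - N₂ / J ≤ Env u (i / J) (y + t • v + z) - u (y + t • v + z) ∧
          2 / (J : ℝ) * (h - N₂) ≤ u (y + t • v + z) - Tm u (2 / J) (y + t • v + z) := by
  obtain ⟨A, hAdef⟩ : ∃ A : ℝ, A = 10 ^ 10 * Γ := ⟨_, rfl⟩
  obtain ⟨N₁, hN₁⟩ : ∃ N₁ : ℝ, N₁ = 625 * 10 ^ 12 * Γ ^ 2 := ⟨_, rfl⟩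
  have hΓ2 : Γ ≤ Γ ^ 2 := by nlinarith
  have hA : 1000 ≤ A := by rw [hAdef]; linarith
  have hN₁0 : 2 + 840 * Γ ≤ N₁ := by rw [hN₁]; linarith
  have hA2 : A ^ 2 = 16 * 10 ^ 4 * N₁ := by rw [hAdef, hN₁]; ring
  refine ⟨A, N₁ + 2 + 840 * Γ, 6 * Γ * (A + 1) + A + Γ + 12, by linarith, by linarith,
    by positivity, ?_⟩
  intro u L S η J y v h hu hS hJ hη hG hF hext
  have hL := hu.nonneg
  have hJ2 : (2 : ℝ) ≤ J := by exact_mod_cast hJ
  have hJ0 : (0 : ℝ) < J := by linarith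
  obtain ⟨δ, hδdef⟩ : ∃ δ : ℝ, δ = 1 / J := ⟨_, rfl⟩
  have hδ : 0 < δ := by rw [hδdef]; positivity
  have hδJ : J * δ = 1 := by rw [hδdef]; field_simp
  have hδ2 : δ ≤ 1 / 2 := by nlinarith
  rw [← hδdef] at hη hext
  have hv : ‖v‖ ≤ L + 5 * Γ + 1 := hF.norm_le hu (by linarith)
  have hv0 := norm_nonneg v
  -- the domain
  obtain ⟨Z, hZ⟩ : ∃ Z : ℝ, Z = A + 2 * L + ‖v‖ := ⟨_, rfl⟩
  have hGx : ∀ (t : ℝ) (z : E), |t| ≤ A → ‖z‖ ≤ Z →
      ∀ w, ‖w - (y + t • v + z)‖ ≤ 8 * L + Γ + 1 → Good u Γ S η w := by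
    intro t z ht hz w hw
    apply hG
    rw [mem_ball, dist_eq_norm]
    have e : w - y = (w - (y + t • v + z)) + t • v + z := by abel
    have h1 : ‖w - y‖ ≤ ‖w - (y + t • v + z)‖ + ‖t • v‖ + ‖z‖ := by
      rw [e]; exact norm_add₃_le
    have h2 : ‖t • v‖ ≤ A * ‖v‖ := by
      rw [norm_smul, Real.norm_eq_abs]; exact mul_le_mul_of_nonneg_right ht hv0
    have h3 : ‖v‖ ≤ 6 * Γ * (L + 1) := by nlinarith
    have h4 : (A + 1) * ‖v‖ ≤ (A + 1) * (6 * Γ * (L + 1)) :=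
      mul_le_mul_of_nonneg_left h3 (by linarith)
    have h5 : 0 ≤ (A + Γ) * L := by positivity
    nlinarith
  let Val : ℕ → Set ℝ := fun j =>
    {r | ∃ (t : ℝ) (z : E), |t| ≤ A ∧ ‖z‖ ≤ Z ∧ r = gfun u y v h δ (j * δ) t z}
  have hθle : ∀ j : ℕ, j ≤ 2 * J → (j : ℝ) * δ ≤ 2 := by
    intro j hj
    have : (j : ℝ) ≤ 2 * J := by exact_mod_cast hj
    nlinarith
  have hθpos : ∀ j : ℕ, 1 ≤ j → 0 < (j : ℝ) * δ := by
    intro j hj
    have : (1 : ℝ) ≤ j := by exact_mod_cast hj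
    positivity
  have hup : ∀ j : ℕ, 1 ≤ j → j ≤ 2 * J → ∀ (t : ℝ) (z : E), |t| ≤ A → ‖z‖ ≤ Z → _ :=
    fun j h1 h2 t z ht hz => gfun_upper hu hΓ hA hS hF ht hδ (by linarith) hη (hθpos j h1)
      (hθle j h2) (hGx t z ht hz)
  have hne : ∀ j, (Val j).Nonempty := fun j =>
    ⟨_, 0, 0, by simp; linarith, by simp; rw [hZ]; positivity, rfl⟩
  have hub : ∀ j : ℕ, 1 ≤ j → j ≤ 2 * J → ∀ r ∈ Val j, r ≤ 1 + 840 * Γ := by
    rintro j h1 h2 r ⟨t, z, ht, hz, rfl⟩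
    have := (hup j h1 h2 t z ht hz).1
    have h0 : 0 ≤ (‖z‖ ^ 2 + t ^ 2) / (2 * 10 ^ 4) := by positivity
    linarith
  have hbdd : ∀ j : ℕ, 1 ≤ j → j ≤ 2 * J → BddAbove (Val j) := fun j h1 h2 => ⟨_, hub j h1 h2⟩
  let G : ℕ → ℝ := fun j => sSup (Val j)
  -- near-optimal points are well inside the domain
  have hsmall : ∀ j : ℕ, 1 ≤ j → j ≤ 2 * J → ∀ (t : ℝ) (z : E), |t| ≤ A → ‖z‖ ≤ Z →
      -(N₁ + 1) ≤ gfun u y v h δ (j * δ) t z → |t| ≤ A / 2 ∧ ‖z‖ ≤ A / 2 := by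
    intro j h1 h2 t z ht hz hg
    have := (hup j h1 h2 t z ht hz).1
    have h3 : ‖z‖ ^ 2 + t ^ 2 ≤ (A / 2) ^ 2 := by
      have : (A / 2) ^ 2 = 4 * 10 ^ 4 * N₁ := by rw [div_pow, hA2]; ring
      linarith
    constructor
    · exact abs_le_of_sq_le_sq (by nlinarith [norm_nonneg z]) (by linarith)
    · exact (abs_le_of_sq_le_sq' (by nlinarith [sq_nonneg t]) (by linarith)).2
  obtain ⟨E₀, hE₀⟩ : ∃ E₀ : ℝ,
      E₀ = (88 * (N₁ + 1 + 1 + 840 * Γ) + 600 * Γ + 4950 * A * Γ + 2) / 10 ^ 4 := ⟨_, rfl⟩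
  have hE₀0 : 0 ≤ E₀ := by
    rw [hE₀]
    have : 0 ≤ N₁ := by linarith
    have : 0 ≤ A := by linarith
    positivity
  let q : ℕ → ℝ := fun j => E₀ * ((j * δ) ^ 2 / 2 + 8 * (2 - √(j * δ)))
  have hsq : ∀ j : ℕ, j ≤ 2 * J → √((j : ℝ) * δ) ≤ 2 := by
    intro j hj
    rw [Real.sqrt_le_left (by norm_num)]
    linarith [hθle j hj]
  have main := disc_convex G q 1 J (2 * J) (1 + 840 * Γ) (18 * E₀) (120 * A * (5 * Γ) + 20 * Γ) N₁ 2
    (by omega) (by omega) (fun j h1 h2 => csSup_le (hne j) (hub j h1 h2)) ?_ ?_ ?_ ?_ ?_ ?_ ?_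
  · intro i h1 h2
    have hlt : -(N₁ + 1) < G i := by linarith [main i h1 h2]
    obtain ⟨r, ⟨t, z, ht, hz, rfl⟩, hr⟩ := exists_lt_of_lt_csSup (hne i) hlt
    obtain ⟨hs1, hs2⟩ := hsmall i h1 h2 t z ht hz hr.le
    obtain ⟨-, h4, h5⟩ := hup i h1 h2 t z ht hz
    have e1 : (i : ℝ) / J = i * δ := by rw [hδdef]; ring
    have e2 : (2 : ℝ) / J = 2 * δ := by rw [hδdef]; ring
    have e3 : (N₁ + 2 + 840 * Γ) / J = δ * (N₁ + 2 + 840 * Γ) := by rw [hδdef]; ring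
    refine ⟨t, z, ht, by linarith, ?_, ?_⟩
    · rw [e1, e3]; nlinarith
    · rw [e2]; nlinarith
  · -- the value at `θ = 1`
    have hnd := not_deep (S := S) (η := η) hu hΓ (by linarith : (1 : ℝ) ≤ 5 * Γ) (by linarith) hδ hδ2
      hη (by linarith) (fun w hw => hGx 0 0 (by simp; linarith) (by simp; rw [hZ]; positivity) w
        (by simp only [zero_smul, add_zero]; linarith)) hF hext
    have hmem : gfun u y v h δ (J * δ) 0 0 ∈ Val J :=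
      ⟨0, 0, by simp; linarith, by simp; rw [hZ]; positivity, rfl⟩
    refine le_trans ?_ (le_csSup (hbdd J (by omega) (by omega)) hmem)
    unfold gfun
    rw [hδJ]
    simp only [zero_smul, add_zero, norm_zero]
    have : -(120 * A * (5 * Γ) + 20 * Γ) ≤ (W u δ 1 y - 1 - 3 * h * δ) / δ := by
      rw [le_div_iff₀ hδ]; linarith
    linarith
  · intro j h1 h2
    have := hsq j h2
    have : 0 ≤ ((j : ℝ) * δ) ^ 2 / 2 + 8 * (2 - √(j * δ)) := by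
      have : 0 ≤ ((j : ℝ) * δ) ^ 2 / 2 := by positivity
      linarith
    exact mul_nonneg hE₀0 this
  · intro j h1 h2
    have h3 := hθle j h2
    have h4 := hθpos j h1
    have : ((j : ℝ) * δ) ^ 2 / 2 + 8 * (2 - √(j * δ)) ≤ 18 := by
      have := Real.sqrt_nonneg ((j : ℝ) * δ)
      nlinarith
    calc q j = E₀ * (((j : ℝ) * δ) ^ 2 / 2 + 8 * (2 - √(j * δ))) := rfl
      _ ≤ E₀ * 18 := mul_le_mul_of_nonneg_left this hE₀0
      _ = 18 * E₀ := by ring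
  · intro j h1 h2 hj
    have hj2 : (2 : ℝ) ≤ j := by exact_mod_cast h1
    have ep : ((j + 1 : ℕ) : ℝ) * δ = j * δ + δ := by push_cast; ring
    have em : ((j - 1 : ℕ) : ℝ) * δ = j * δ - δ := by
      rw [Nat.cast_sub h1.le]; push_cast; ring
    have hq : 2 * q j + δ ^ 2 * E₀ * (1 + 1 / (j * δ)) ≤ q (j + 1) + q (j - 1) := by
      simp only [q, ep, em]
      exact step_q hE₀0 hδ (by nlinarith) (by linarith [hθle j h2.le])
    have hG3 : 2 * G j - δ ^ 2 * E₀ * (1 + 1 / (j * δ)) ≤ G (j + 1) + G (j - 1) := by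
      apply le_of_forall_pos_le_add
      intro ε hε
      have hlt : G j - min (ε / 2) 1 < G j := by
        have : 0 < min (ε / 2) 1 := lt_min (by linarith) one_pos
        linarith
      obtain ⟨r, ⟨t, z, ht, hz, rfl⟩, hr⟩ := exists_lt_of_lt_csSup (hne j) hlt
      have hm1 := min_le_left (ε / 2) 1
      have hm2 := min_le_right (ε / 2) 1
      have hg : -(N₁ + 1) ≤ gfun u y v h δ (j * δ) t z := by linarith
      obtain ⟨hs1, hs2⟩ := hsmall j h1.le h2.le t z ht hz hg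
      obtain ⟨a, b, ha, hb, h3⟩ := gfun_three hu hΓ hA hS hF ht hδ (by linarith) hη
        (by nlinarith : δ < j * δ) (hθle j h2.le) (by linarith : 0 ≤ N₁ + 1) (hGx t z ht hz)
        (by linarith) hg
      rw [← hE₀] at h3
      have hmove : ∀ c : E, ‖c‖ ≤ 2 * L → ‖δ • (c - v)‖ ≤ 2 * L + ‖v‖ := by
        intro c hc
        rw [norm_smul, Real.norm_eq_abs, abs_of_pos hδ]
        have := norm_sub_le c v
        nlinarith [norm_nonneg (c - v)]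
      have habs := abs_le.1 hs1
      have hp : gfun u y v h δ (j * δ + δ) (t + δ) (z + δ • (a - v)) ∈ Val (j + 1) := by
        refine ⟨t + δ, z + δ • (a - v), abs_le.2 ⟨by linarith, by linarith⟩, ?_, by rw [ep]⟩
        have := norm_add_le z (δ • (a - v))
        have := hmove a ha
        linarith
      have hm : gfun u y v h δ (j * δ - δ) (t - δ) (z - δ • (b - v)) ∈ Val (j - 1) := by
        refine ⟨t - δ, z - δ • (b - v), abs_le.2 ⟨by linarith, by linarith⟩, ?_, by rw [em]⟩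
        have := norm_sub_le z (δ • (b - v))
        have := hmove b hb
        linarith
      have hp' : _ ≤ G (j + 1) := le_csSup (hbdd (j + 1) (by omega) (by omega)) hp
      have hm' : _ ≤ G (j - 1) := le_csSup (hbdd (j - 1) (by omega) (by omega)) hm
      linarith
    linarith
  · push_cast; linarith
  · push_cast; linarith
  · rw [hE₀, hN₁, hAdef]; nlinarith

end Crest.Agent.R094
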