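import Crest.Agent.R094.Upper
import Crest.Agent.R094.Speed

/-! Row 94: local estimates for the penalised three-point function. -/

set_option autoImplicit false

open scoped InnerProductSpace
open Set Metric

namespace Crest.Agent.R094

variable {E : Type*} [NormedAddCommGroup E] [InnerProductSpace ℝ E]

theorem step_vec (z a b v : E) {K δ : ℝ} (hK : 0 ≤ K) (hδ : 0 ≤ δ) (h : 16 * K * δ ^ 2 ≤ 1) :
    K * (‖z + δ • (a - v)‖ ^ 2 + ‖z - δ • (b - v)‖ ^ 2 - 2 * ‖z‖ ^ 2) ≤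
      ‖a - b‖ ^ 2 / 4 + δ ^ 2 * K * (8 * K * ‖z‖ ^ 2 + 3 * ‖b - v‖ ^ 2) := by
  have e1 : a - v = (a - b) + (b - v) := by abel
  rw [e1]
  generalize a - b = e
  generalize b - v = f
  have h1 : ‖z + δ • (e + f)‖ ^ 2 = ‖z‖ ^ 2 + 2 * (δ * (⟪z, e⟫_ℝ + ⟪z, f⟫_ℝ)) + δ ^ 2 * ‖e + f‖ ^ 2 := by
    rw [norm_add_sq_real, inner_smul_right, inner_add_right, norm_smul, mul_pow, Real.norm_eq_abs,
      sq_abs]
  have h2 : ‖z - δ • f‖ ^ 2 = ‖z‖ ^ 2 - 2 * (δ * ⟪z, f⟫_ℝ) + δ ^ 2 * ‖f‖ ^ 2 := by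
    rw [norm_sub_sq_real, inner_smul_right, norm_smul, mul_pow, Real.norm_eq_abs, sq_abs]
  have h3 : ‖e + f‖ ^ 2 ≤ 2 * ‖e‖ ^ 2 + 2 * ‖f‖ ^ 2 := by
    have := norm_add_le e f
    have h0 := norm_nonneg (e + f)
    nlinarith [sq_nonneg (‖e‖ - ‖f‖), norm_nonneg e, norm_nonneg f]
  have h4 : ⟪z, e⟫_ℝ ≤ ‖z‖ * ‖e‖ := real_inner_le_norm z e
  rw [h1, h2]
  have h5 : K * δ * ⟪z, e⟫_ℝ ≤ K * δ * (‖z‖ * ‖e‖) :=
    mul_le_mul_of_nonneg_left h4 (mul_nonneg hK hδ)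
  have h6 : K * δ ^ 2 * ‖e + f‖ ^ 2 ≤ K * δ ^ 2 * (2 * ‖e‖ ^ 2 + 2 * ‖f‖ ^ 2) :=
    mul_le_mul_of_nonneg_left h3 (by positivity)
  have h7 : 16 * K * δ ^ 2 * ‖e‖ ^ 2 ≤ 1 * ‖e‖ ^ 2 :=
    mul_le_mul_of_nonneg_right h (by positivity)
  nlinarith [sq_nonneg (‖e‖ - 8 * K * δ * ‖z‖)]

theorem step_sqrt {θ δ : ℝ} (hδ : 0 < δ) (hδθ : δ ≤ θ) (hθ : θ ≤ 4) :
    δ ^ 2 / θ ≤ 8 * (2 * √θ - √(θ + δ) - √(θ - δ)) := by
  have hθ0 : 0 < θ := lt_of_lt_of_le hδ hδθ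
  set a := √(θ + δ) with ha
  set b := √(θ - δ) with hb
  set c := √θ with hc
  have a0 : 0 ≤ a := Real.sqrt_nonneg _
  have b0 : 0 ≤ b := Real.sqrt_nonneg _
  have c0 : 0 < c := Real.sqrt_pos.2 hθ0
  have a2 : a ^ 2 = θ + δ := Real.sq_sqrt (by linarith)
  have b2 : b ^ 2 = θ - δ := Real.sq_sqrt (by linarith)
  have c2 : c ^ 2 = θ := Real.sq_sqrt hθ0.le
  have cle : c ≤ 2 := by nlinarith
  have hab : a + b ≤ 2 * c := by
    have : (a + b) ^ 2 ≤ (2 * c) ^ 2 := by nlinarith [sq_nonneg (a - b)]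
    exact abs_le_of_sq_le_sq' this (by positivity) |>.2
  have hba : b ≤ a := Real.sqrt_le_sqrt (by linarith)
  -- δ ≤ c (a - b)
  have h1 : δ ≤ c * (a - b) := by nlinarith
  have h2 : δ ^ 2 ≤ c ^ 2 * (a - b) ^ 2 := by
    rw [← mul_pow]; exact pow_le_pow_left₀ hδ.le h1 2
  -- (a - b)^2 = (2c - (a+b)) (2c + (a+b)) ≤ 4 c (2c - a - b)
  have h3 : (a - b) ^ 2 ≤ 4 * c * (2 * c - a - b) := by nlinarith
  have h4 : 4 * c * (2 * c - a - b) ≤ 8 * (2 * c - a - b) := by nlinarith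
  rw [div_le_iff₀ hθ0, ← c2]
  nlinarith [sq_nonneg c]

variable [FiniteDimensional ℝ E]

/-- The penalised, normalised three-point function. -/
noncomputable def gfun (u : E → ℝ) (y v : E) (h δ θ t : ℝ) (z : E) : ℝ :=
  (W u δ θ (y + t • v + z) - θ - 3 * h * δ) / δ - (‖z‖ ^ 2 + t ^ 2) / 10 ^ 4

theorem gfun_upper {u : E → ℝ} {L Γ S η A h δ θ t : ℝ} {y v z : E} (hu : Lip u L) (hΓ : 1 ≤ Γ)
    (hA : 1000 ≤ A) (hS : 16 * A ≤ S) (hF : Frame u y (16 * A) v h (5 * Γ)) (ht : |t| ≤ A)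
    (hδ : 0 < δ) (hδ1 : δ ≤ 1) (hηδ : η ≤ δ) (hθ : 0 < θ) (hθ2 : θ ≤ 2)
    (hG : ∀ w, ‖w - (y + t • v + z)‖ ≤ 8 * L + Γ + 1 → Good u Γ S η w) :
    gfun u y v h δ θ t z + (‖z‖ ^ 2 + t ^ 2) / (2 * 10 ^ 4) ≤ 1 + 840 * Γ ∧
    θ + δ * (gfun u y v h δ θ t z - 840 * Γ) ≤ Env u θ (y + t • v + z) - u (y + t • v + z) ∧
    2 * h * δ + δ * (gfun u y v h δ θ t z - 1 - 840 * Γ) ≤
      u (y + t • v + z) - Tm u (2 * δ) (y + t • v + z) := by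
  have hL := hu.nonneg
  have hx := hG (y + t • v + z) (by simp; positivity)
  have henv := hx.pos.env θ hθ (by linarith)
  have h1 := upper_env hu (by linarith) (by linarith : (1 : ℝ) ≤ 5 * Γ) hF ht hδ hδ1 hθ hθ2
    (by linarith) (fun w hw => (hG w (by linarith)).pos.cvx.mono (by linarith))
  have h2 := upper_Tm (z := z) hu (by linarith) hF ht hδ hδ1 (hx.neg.cvx.mono (by linarith))
  have hz : ‖z‖ ^ 2 / A ^ 2 ≤ ‖z‖ ^ 2 / 10 ^ 6 := by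
    apply div_le_div_of_nonneg_left (by positivity) (by positivity)
    nlinarith
  have hg : δ * gfun u y v h δ θ t z =
      W u δ θ (y + t • v + z) - θ - 3 * h * δ - δ * ((‖z‖ ^ 2 + t ^ 2) / 10 ^ 4) := by
    unfold gfun; field_simp
  have hW : W u δ θ (y + t • v + z) =
      Env (Tp u δ) θ (y + t • v + z) - Tm u (2 * δ) (y + t • v + z) := rfl
  have hz0 : 0 ≤ ‖z‖ ^ 2 := by positivity
  have ht0 : 0 ≤ t ^ 2 := by positivity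
  have hz' : δ * (‖z‖ ^ 2 / A ^ 2) ≤ δ * (‖z‖ ^ 2 / 10 ^ 6) := mul_le_mul_of_nonneg_left hz hδ.le
  have hδz : 0 ≤ δ * ‖z‖ ^ 2 := by positivity
  have hδt : 0 ≤ δ * t ^ 2 := by positivity
  have hδΓ : 0 ≤ δ * Γ := by positivity
  refine ⟨?_, ?_, ?_⟩
  · have : δ * (gfun u y v h δ θ t z + (‖z‖ ^ 2 + t ^ 2) / (2 * 10 ^ 4)) ≤ δ * (1 + 840 * Γ) := by
      rw [mul_add, hg]; linarith
    exact le_of_mul_le_mul_left this hδ
  · rw [mul_sub, hg]; linarith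
  · rw [mul_sub, mul_sub, hg]; linarith

theorem gfun_three {u : E → ℝ} {L Γ S η A h δ θ t N : ℝ} {y v z : E} (hu : Lip u L) (hΓ : 1 ≤ Γ)
    (hA : 1000 ≤ A) (hS : 16 * A ≤ S) (hF : Frame u y (16 * A) v h (5 * Γ)) (ht : |t| ≤ A)
    (hδ : 0 < δ) (hδ1 : δ ≤ 1) (hηδ : η ≤ δ) (hθ : δ < θ) (hθ2 : θ ≤ 2) (hN : 0 ≤ N)
    (hG : ∀ w, ‖w - (y + t • v + z)‖ ≤ 8 * L + Γ + 1 → Good u Γ S η w)
    (hz : ‖z‖ ≤ A) (hg : -N ≤ gfun u y v h δ θ t z) :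
    ∃ a b : E, ‖a‖ ≤ 2 * L ∧ ‖b‖ ≤ 2 * L ∧
      2 * gfun u y v h δ θ t z
          - δ ^ 2 * ((88 * (N + 1 + 840 * Γ) + 600 * Γ + 4950 * A * Γ + 2) / 10 ^ 4) * (1 + 1 / θ) ≤
        gfun u y v h δ (θ + δ) (t + δ) (z + δ • (a - v)) +
          gfun u y v h δ (θ - δ) (t - δ) (z - δ • (b - v)) := by
  have hL := hu.nonneg
  have hθ0 : 0 < θ := hδ.trans hθ
  obtain ⟨hU, hext, -⟩ := gfun_upper hu hΓ hA hS hF ht hδ hδ1 hηδ hθ0 hθ2 hG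
  have hLθ : 4 * L * θ ≤ 8 * L + Γ + 1 := by nlinarith
  obtain ⟨a, b, ha, hb, hbopt, h3⟩ := three hu hδ hθ (y + t • v + z)
    (fun w hw => (hG w (by linarith)).pos.cvx.mono (by linarith))
    (fun w hw => (hG w (by linarith)).neg.cvx.mono (by linarith))
  refine ⟨a, b, ha, hb, ?_⟩
  have hFx : Frame u (y + t • v + z) (8 * A) v h (25 * Γ) := by
    have h1 := hF.transfer (by linarith) (σ₀ := t) (by linarith) z
    rw [show 16 * A / 2 = 8 * A by ring] at h1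
    refine h1.mono (by linarith) ?_
    have : 3 * ‖z‖ ^ 2 / (8 * (16 * A) ^ 2) ≤ 1 := by
      rw [div_le_one (by positivity)]
      nlinarith [norm_nonneg z]
    linarith
  have hsp := speed (N := N + 840 * Γ) hu hΓ (by linarith) (by linarith : (1 : ℝ) ≤ 25 * Γ)
    (by linarith) hδ hδ1 hηδ hθ.le hθ2 (by linarith) hG (by nlinarith) hFx hbopt
  have hvec := step_vec z a b v (K := 1 / 10 ^ 4) (δ := δ) (by norm_num) hδ.le (by nlinarith)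
  have e1 : y + (t + δ) • v + (z + δ • (a - v)) = y + t • v + z + δ • a := by
    rw [add_smul, smul_sub]; abel
  have e2 : y + (t - δ) • v + (z - δ • (b - v)) = y + t • v + z - δ • b := by
    rw [sub_smul, smul_sub]; abel
  have hW : 2 * (W u δ θ (y + t • v + z) / δ) + ‖a - b‖ ^ 2 / 4 ≤
      W u δ (θ + δ) (y + t • v + z + δ • a) / δ + W u δ (θ - δ) (y + t • v + z - δ • b) / δ := by
    rw [← add_div, le_div_iff₀ hδ]
    have : (2 * (W u δ θ (y + t • v + z) / δ) + ‖a - b‖ ^ 2 / 4) * δ =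
        2 * W u δ θ (y + t • v + z) + δ * ‖a - b‖ ^ 2 / 4 := by field_simp
    rw [this]; exact h3
  have hzz : ‖z‖ ^ 2 / (2 * 10 ^ 4) ≤ N + 1 + 840 * Γ := by
    have : 0 ≤ t ^ 2 := by positivity
    linarith
  have hθi : 0 < 1 / θ := by positivity
  have hAΓ : 0 ≤ A * Γ := by positivity
  have key : 8 * (1 / 10 ^ 4) * ‖z‖ ^ 2 + 3 * ‖b - v‖ ^ 2 + 2 ≤
      (88 * (N + 1 + 840 * Γ) + 600 * Γ + 4950 * A * Γ + 2) * (1 + 1 / θ) := by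
    have : 0 ≤ (88 * (N + 1 + 840 * Γ) + 600 * Γ + 2) * (1 / θ) := by positivity
    nlinarith
  have key2 : δ ^ 2 * (1 / 10 ^ 4) * (8 * (1 / 10 ^ 4) * ‖z‖ ^ 2 + 3 * ‖b - v‖ ^ 2 + 2) ≤
      δ ^ 2 * (1 / 10 ^ 4) *
        ((88 * (N + 1 + 840 * Γ) + 600 * Γ + 4950 * A * Γ + 2) * (1 + 1 / θ)) :=
    mul_le_mul_of_nonneg_left key (by positivity)
  unfold gfun
  rw [e1, e2]
  simp only [sub_div, add_div] at *
  nlinarith

end Crest.Agent.R094
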