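import Crest.Agent.R094.Frame

/-! Row 94: upper bounds for the two parts of `W`. -/

set_option autoImplicit false

open scoped InnerProductSpace
open Set Metric

namespace Crest.Agent.R094

variable {E : Type*} [NormedAddCommGroup E] [InnerProductSpace ℝ E]

variable [FiniteDimensional ℝ E]

variable {u : E → ℝ} {L A Γ₁ h t δ θ : ℝ} {y v z : E}

/-- Let `x = y + t v + z`, `Env u θ x = Tp u θ P + θ‖p‖²/2`, `P = x - θ p` (`exists_Env_eq`). Then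
`Env (Tp u δ) θ x ≤ Tp u (δ+θ) P + θ‖p‖²/2` (`Env_le'`, `Tp_add`), and by `Cvx.slope_mono` at `P`
`(Tp u (θ+δ) P - Tp u θ P)/δ ≤ (Tp u (8A) P - Tp u (4A) P)/(4A) ≤ h + 4 Γ_P`, where `Γ_P` is the constant
of the frame transferred to `P = y + (t-θ) v + (z - θ (p - v))` (scale `8A`). With
`Γ_x = 4Γ₁ + 3‖z‖²/(2048A²)` the constant of the frame transferred to `x`, `Frame.slope_near` and
`upper_slope` give `θ²‖p-v‖² ≤ 55 A Γ_x`, so `Γ_P ≤ 5Γ₁ + 7‖z‖²/(2048 A²)`. -/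
theorem upper_env (hu : Lip u L) (hA : 1 ≤ A) (hΓ : 1 ≤ Γ₁) (hF : Frame u y (16 * A) v h Γ₁)
    (ht : |t| ≤ A) (hδ : 0 < δ) (hδ1 : δ ≤ 1) (hθ : 0 < θ) (hθ2 : θ ≤ 2)
    (henv : Env u θ (y + t • v + z) - u (y + t • v + z) ≤ 3)
    (hc : ∀ w, ‖w - (y + t • v + z)‖ ≤ 4 * L → Cvx u (8 * A) w) :
    Env (Tp u δ) θ (y + t • v + z) ≤
      Env u θ (y + t • v + z) + δ * (h + 160 * Γ₁ + ‖z‖ ^ 2 / A ^ 2) := by
  have hA0 : 0 < A := by linarith
  have hFx := hF.transfer (by positivity) (σ₀ := t) (by linarith) z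
  obtain ⟨p, hp, hE⟩ := exists_Env_eq hu hθ.le (y + t • v + z)
  have hFP := hF.transfer (by positivity) (σ₀ := t - θ)
    ((abs_sub _ _).trans (by rw [abs_of_pos hθ]; linarith)) (z - θ • (p - v))
  have eP : y + (t - θ) • v + (z - θ • (p - v)) = y + t • v + z - θ • p := by module
  have e8 : 16 * A / 2 = 8 * A := by ring
  rw [eP, e8] at hFP
  rw [e8] at hFx
  set x := y + t • v + z with hx
  set P := x - θ • p with hP
  set Z := ‖z‖ ^ 2 / A ^ 2 with hZ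
  have hZ0 : 0 ≤ Z := by positivity
  have eΓx : 4 * Γ₁ + 3 * ‖z‖ ^ 2 / (8 * (16 * A) ^ 2) = 4 * Γ₁ + 3 / 2048 * Z := by
    rw [hZ]; field_simp; ring
  rw [eΓx] at hFx
  have hnear := hFx.slope_near (by positivity) hθ (c := 3) (p := p) (fun ξ => by
    have := upper_slope hu hθ hE ξ
    linarith)
  have hd : (θ * ‖p - v‖) ^ 2 ≤ 55 * A * (4 * Γ₁ + 3 / 2048 * Z) := by
    have h1 : θ ^ 2 * (1 / (2 * θ) + 1 / (16 * (8 * A))) ≤ 33 / 32 := by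
      have e : θ ^ 2 * (1 / (2 * θ) + 1 / (16 * (8 * A))) = θ / 2 + θ ^ 2 / (128 * A) := by
        field_simp; ring
      have h2 : θ ^ 2 / (128 * A) ≤ 1 / 32 := by
        rw [div_le_iff₀ (by positivity)]; nlinarith
      rw [e]; linarith
    have h3 : 1 ≤ A * Γ₁ := by nlinarith
    have h4 : 0 ≤ A * Z := by positivity
    have h5 : 0 ≤ 4 * (3 + (4 * Γ₁ + 3 / 2048 * Z) * (8 * A)) := by positivity
    calc (θ * ‖p - v‖) ^ 2 = θ ^ 2 * ‖p - v‖ ^ 2 := by ring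
      _ ≤ θ ^ 2 * (4 * (3 + (4 * Γ₁ + 3 / 2048 * Z) * (8 * A)) *
          (1 / (2 * θ) + 1 / (16 * (8 * A)))) := mul_le_mul_of_nonneg_left hnear (sq_nonneg θ)
      _ = 4 * (3 + (4 * Γ₁ + 3 / 2048 * Z) * (8 * A)) *
          (θ ^ 2 * (1 / (2 * θ) + 1 / (16 * (8 * A)))) := by ring
      _ ≤ 4 * (3 + (4 * Γ₁ + 3 / 2048 * Z) * (8 * A)) * (33 / 32) :=
          mul_le_mul_of_nonneg_left h1 h5
      _ ≤ _ := by nlinarith
  have hn : ‖z - θ • (p - v)‖ ^ 2 ≤ 2 * ‖z‖ ^ 2 + 2 * (θ * ‖p - v‖) ^ 2 := by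
    have h1 := norm_sub_le z (θ • (p - v))
    rw [norm_smul, Real.norm_eq_abs, abs_of_pos hθ] at h1
    have h2 := pow_le_pow_left₀ (norm_nonneg _) h1 2
    nlinarith [sq_nonneg (‖z‖ - θ * ‖p - v‖)]
  have hΓP : 4 * Γ₁ + 3 * ‖z - θ • (p - v)‖ ^ 2 / (8 * (16 * A) ^ 2) ≤ 40 * Γ₁ + Z / 4 := by
    have ez : ‖z‖ ^ 2 = Z * A ^ 2 := by rw [hZ]; field_simp
    have h1 : 3 * ‖z - θ • (p - v)‖ ^ 2 / (8 * (16 * A) ^ 2) ≤ 36 * Γ₁ + Z / 4 := by
      rw [div_le_iff₀ (by positivity)]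
      have h2 : A * (4 * Γ₁ + 3 / 2048 * Z) ≤ A ^ 2 * (4 * Γ₁ + 3 / 2048 * Z) :=
        mul_le_mul_of_nonneg_right (by nlinarith) (by positivity)
      have h3 : 0 ≤ A ^ 2 * Γ₁ := by positivity
      have h4 : 0 ≤ A ^ 2 * Z := by positivity
      rw [ez] at hn
      nlinarith
    linarith
  have hFP' := hFP.mono (by positivity) hΓP
  have hcP : Cvx u (8 * A) P := hc P (by
    rw [hP, sub_sub_cancel_left, norm_neg, norm_smul, Real.norm_eq_abs, abs_of_pos hθ]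
    nlinarith [norm_nonneg p, hu.nonneg])
  have hsl := hcP.slope_mono (s₁ := θ) (s₂ := δ + θ) (s₃ := 4 * A) (s₄ := 8 * A) hθ.le
    (by linarith) (by linarith) (by linarith) (by linarith) le_rfl
  have b1 := (abs_le.mp (hFP'.Tp_bound hu (ρ := 8 * A) (by positivity) le_rfl)).2
  have b2 := (abs_le.mp (hFP'.Tp_bound hu (ρ := 4 * A) (by positivity) (by linarith))).1
  have h6 : (Tp u (8 * A) P - Tp u (4 * A) P) / (8 * A - 4 * A) ≤ h + 160 * Γ₁ + Z := by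
    rw [div_le_iff₀ (by linarith)]
    linarith
  have h7 := hsl.trans h6
  rw [add_sub_cancel_right, div_le_iff₀ hδ] at h7
  have h8 := Env_le' (hu.tp hδ.le) hθ.le x p
  rw [Tp_add hu hδ.le hθ.le] at h8
  linarith

/-- `Cvx.Sp_mono` for `-u` and `Frame.Sm_bound` for the frame transferred to `x` (scale `8A`). -/
theorem upper_Tm (hu : Lip u L) (hA : 1 ≤ A) (hF : Frame u y (16 * A) v h Γ₁)
    (ht : |t| ≤ A) (hδ : 0 < δ) (hδ1 : δ ≤ 1) (hc : Cvx (-u) (8 * A) (y + t • v + z)) :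
    u (y + t • v + z) - Tm u (2 * δ) (y + t • v + z) ≤ 2 * δ * (h + 4 * Γ₁ + ‖z‖ ^ 2 / A ^ 2) := by
  have hA0 : 0 < A := by linarith
  have hFx := hF.transfer (by positivity) (σ₀ := t) (by linarith) z
  have e8 : 16 * A / 2 = 8 * A := by ring
  rw [e8] at hFx
  have h1 := (abs_le.mp (hFx.Sm_bound hu (by positivity))).2
  have h2 := hc.Sp_mono (s := 2 * δ) (s' := 8 * A) (by positivity) (by linarith) le_rfl
  have h3 : 3 * ‖z‖ ^ 2 / (8 * (16 * A) ^ 2) = 3 / 2048 * (‖z‖ ^ 2 / A ^ 2) := by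
    field_simp; ring
  have h4 : 0 ≤ ‖z‖ ^ 2 / A ^ 2 := by positivity
  rw [Tm_eq_Sp u (by positivity), sub_sub_cancel]
  exact mul_le_mul_of_nonneg_left (by linarith) (by positivity)

end Crest.Agent.R094
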