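import Crest.Agent.R094.ZStep
import Crest.Agent.R094.Scale

/-! Row 94: frames at all scales. -/

set_option autoImplicit false

open scoped InnerProductSpace
open Set Metric

namespace Crest.Agent.R094

variable {E : Type*} [NormedAddCommGroup E] [InnerProductSpace ℝ E]

variable [FiniteDimensional ℝ E]

theorem zlemma_step {u : E → ℝ} {L top s l h : ℝ} {y v : E} (hu : Lip u L) (hs : 0 < s)
    (hl : 0 < l) (hlL : l ≤ L ^ 2) (hst : 10 ^ 4 * s ≤ top)
    (hc : ∀ w ∈ ball y (2 * 10 ^ 9 * L * top), Cvx u top w ∧ Cvx (-u) top w)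
    (he : ∀ w ∈ ball y (2 * 10 ^ 9 * L * top),
      Env u (10 ^ 10 * s) w - u w ≤ 10 ^ 15 * (s * l) ∧
        Env (-u) (10 ^ 10 * s) w + u w ≤ 10 ^ 15 * (s * l))
    (hF : Frame u y (10 ^ 4 * s) v h (10 ^ 20 * l)) :
    ∃ (v' : E) (h' : ℝ), Frame u y s v' h' (10 ^ 18 * l) := by
  obtain ⟨q, hq, rfl⟩ : ∃ q : ℝ, 0 < q ∧ l = q ^ 2 :=
    ⟨Real.sqrt l, Real.sqrt_pos.2 hl, (Real.sq_sqrt hl.le).symm⟩
  have hL := hu.nonneg
  have hqL : q ≤ L := (pow_le_pow_iff_left₀ hq.le hL two_ne_zero).1 hlL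
  have hr : 0 < s * q := by positivity
  have hk : 0 < s * q ^ 2 := by positivity
  have e1 : ∀ t : ℝ, t * (s * q) ^ 2 / (s * q ^ 2) = t * s := fun t => by field_simp
  have hmem : ∀ w ∈ ball (0 : E) (10 ^ 9 * (L * (s * q) / (s * q ^ 2) + 1)),
      y + (s * q) • w ∈ ball y (2 * 10 ^ 9 * L * top) := by
    intro w hw
    rw [mem_ball_zero_iff] at hw
    rw [mem_ball, dist_eq_norm, add_sub_cancel_left, norm_smul, Real.norm_of_nonneg hr.le]
    calc s * q * ‖w‖ < s * q * (10 ^ 9 * (L * (s * q) / (s * q ^ 2) + 1)) :=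
          mul_lt_mul_of_pos_left hw hr
      _ = 10 ^ 9 * s * (L + q) := by field_simp
      _ ≤ 10 ^ 9 * s * (L + L) := by gcongr
      _ = 2 * 10 ^ 9 * L * s := by ring
      _ ≤ 2 * 10 ^ 9 * L * top := by
          refine mul_le_mul_of_nonneg_left ?_ (by positivity)
          linarith
  have hS : (10 ^ 4 : ℝ) ≤ top * (s * q ^ 2) / (s * q) ^ 2 := by
    have e : top * (s * q ^ 2) / (s * q) ^ 2 = top / s := by field_simp
    rw [e, le_div_iff₀ hs]
    exact hst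
  have hF1 : Frame u (y + (s * q) • (0 : E)) (10 ^ 4 * (s * q) ^ 2 / (s * q ^ 2)) v h
      (10 ^ 20 * q ^ 2) := by
    rw [e1, smul_zero, add_zero]
    exact hF
  have hF2 := Frame.rescale hr hk (by positivity) hF1
  have e2 : 10 ^ 20 * q ^ 2 * (s * q) ^ 2 / (s * q ^ 2) ^ 2 = 10 ^ 20 := by field_simp
  rw [e2] at hF2
  obtain ⟨v', h', hF3⟩ := zstep (hu.rescale y hr hk) (fun w hw => by
      obtain ⟨h1, h2⟩ := hc _ (hmem w hw)
      refine ⟨(Cvx.rescale hu hr hk h1).mono hS, ?_⟩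
      rw [← resc_neg]
      exact (Cvx.rescale hu.neg hr hk h2).mono hS)
    (fun w hw => by
      obtain ⟨h1, h2⟩ := he _ (hmem w hw)
      rw [← resc_neg, Env_resc hu y hr hk (by positivity), Env_resc hu.neg y hr hk (by positivity),
        e1, resc_apply, ← sub_div, ← add_div, div_le_iff₀ hk, div_le_iff₀ hk]
      exact ⟨h1, h2⟩) hF2
  have hF4 := Frame.of_rescale hr hk one_pos hF3
  have e3 : 10 ^ 18 * (s * q ^ 2) ^ 2 / (s * q) ^ 2 = 10 ^ 18 * q ^ 2 := by field_simp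
  rw [e1, e3, smul_zero, add_zero, one_mul] at hF4
  exact ⟨_, _, hF4⟩

/-- Induction on `n`: the claim for all `s ∈ [top / (10⁴)^(n+1), top]`. If `s ≥ top/10⁴` use
`Lip.frame_zero` (`lam s = L²`). Otherwise take the frame at scale `10⁴ s` (constant
`10¹⁸ lam (10⁴ s) ≤ 10²⁰ lam s`), rescale with `r = s √(lam s)`, `k = s · lam s` (so `r²/k = s`,
`r²/k² = 1 / lam s`, new Lipschitz constant `L' = L/√(lam s) ≥ 1`, `10⁹ (L'+1) r ≤ 2·10⁹ L s`), apply `zstep`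
at `0` and scale back (`Frame.of_rescale`). -/
theorem zlemma {u : E → ℝ} {L top : ℝ} {y : E} {lam : ℝ → ℝ} (hu : Lip u L) (htop : 0 < top)
    (hl0 : ∀ θ, 0 < θ → 0 < lam θ) (hlL : ∀ θ, 0 < θ → lam θ ≤ L ^ 2)
    (hl4 : ∀ θ, 0 < θ → lam (10 ^ 4 * θ) ≤ 100 * lam θ)
    (hl10 : ∀ θ, 0 < θ → lam (10 ^ 10 * θ) ≤ 10 ^ 5 * lam θ)
    (hltop : ∀ θ, top / 10 ^ 4 ≤ θ → lam θ = L ^ 2)
    (hc : ∀ w ∈ ball y (2 * 10 ^ 9 * L * top), Cvx u top w ∧ Cvx (-u) top w)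
    (he : ∀ w ∈ ball y (2 * 10 ^ 9 * L * top), ∀ θ, 0 < θ →
      Env u θ w - u w ≤ lam θ * θ ∧ Env (-u) θ w + u w ≤ lam θ * θ) :
    ∀ s, 0 < s → s ≤ top → ∃ (v : E) (h : ℝ), Frame u y s v h (10 ^ 18 * lam s) := by
  have key : ∀ n : ℕ, ∀ s, top / (10 ^ 4) ^ (n + 1) ≤ s → s ≤ top →
      ∃ (v : E) (h : ℝ), Frame u y s v h (10 ^ 18 * lam s) := by
    have base : ∀ s, top / 10 ^ 4 ≤ s → ∃ (v : E) (h : ℝ), Frame u y s v h (10 ^ 18 * lam s) := by
      intro s hs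
      have hs0 : 0 < s := lt_of_lt_of_le (by positivity) hs
      refine ⟨0, 0, (hu.frame_zero y hs0).mono hs0 ?_⟩
      rw [hltop s hs]
      nlinarith [sq_nonneg L]
    intro n
    induction n with
    | zero => intro s hs _; exact base s (by simpa using hs)
    | succ n ih =>
      intro s hs hst
      by_cases h1 : top / 10 ^ 4 ≤ s
      · exact base s h1
      have hs0 : 0 < s := lt_of_lt_of_le (by positivity) hs
      have h2 : 10 ^ 4 * s ≤ top := by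
        rw [not_le, lt_div_iff₀ (by positivity)] at h1
        linarith
      have h3 : top / (10 ^ 4) ^ (n + 1) ≤ 10 ^ 4 * s := by
        rw [div_le_iff₀ (by positivity)] at hs ⊢
        calc top ≤ s * (10 ^ 4) ^ (n + 1 + 1) := hs
          _ = 10 ^ 4 * s * (10 ^ 4) ^ (n + 1) := by ring
      obtain ⟨v, h, hF⟩ := ih _ h3 h2
      refine zlemma_step hu hs0 (hl0 s hs0) (hlL s hs0) h2 hc (fun w hw => ?_)
        (hF.mono (by positivity) (by linarith [hl4 s hs0]))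
      have h4 := he w hw (10 ^ 10 * s) (by positivity)
      have h5 : lam (10 ^ 10 * s) * (10 ^ 10 * s) ≤ 10 ^ 15 * (s * lam s) := by
        calc lam (10 ^ 10 * s) * (10 ^ 10 * s) ≤ 10 ^ 5 * lam s * (10 ^ 10 * s) :=
              mul_le_mul_of_nonneg_right (hl10 s hs0) (by positivity)
          _ = 10 ^ 15 * (s * lam s) := by ring
      exact ⟨h4.1.trans h5, h4.2.trans h5⟩
  intro s hs hst
  obtain ⟨n, hn⟩ := pow_unbounded_of_one_lt (top / s) (show (1 : ℝ) < 10 ^ 4 by norm_num)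
  refine key n s ?_ hst
  rw [div_lt_iff₀ hs] at hn
  rw [div_le_iff₀ (by positivity)]
  have h1 : (10 ^ 4 : ℝ) ^ n ≤ (10 ^ 4) ^ (n + 1) :=
    pow_le_pow_right₀ (by norm_num) (Nat.le_succ n)
  nlinarith

end Crest.Agent.R094
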