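import Crest.Agent.R094.Frame

/-! Row 94: improvement of the frame constant from scale `10⁴` to scale `1`. -/

set_option autoImplicit false

open scoped InnerProductSpace
open Set Metric

namespace Crest.Agent.R094

variable {E : Type*} [NormedAddCommGroup E] [InnerProductSpace ℝ E]

variable [FiniteDimensional ℝ E]

/-- A function within `e` below a convex function and within `e` above a concave function on `[-1,1]`
is within `e` of its chord. -/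
theorem near_chord {f gp gm : ℝ → ℝ} {e : ℝ} (hp : ConvexOn ℝ (Icc (-1) 1) gp)
    (hm : ConcaveOn ℝ (Icc (-1) 1) gm)
    (h1 : ∀ σ ∈ Icc (-1 : ℝ) 1, f σ ≤ gp σ ∧ gp σ ≤ f σ + e)
    (h2 : ∀ σ ∈ Icc (-1 : ℝ) 1, gm σ ≤ f σ ∧ f σ ≤ gm σ + e) :
    ∀ σ ∈ Icc (-1 : ℝ) 1, |f σ - f 0 - σ * ((f 1 - f (-1)) / 2)| ≤ 2 * e := by
  have key : ∀ σ ∈ Icc (-1 : ℝ) 1, |f σ - ((1 - σ) / 2 * f (-1) + (1 + σ) / 2 * f 1)| ≤ e := by
    intro σ hσ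
    have ha : 0 ≤ (1 - σ) / 2 := by linarith [hσ.2]
    have hb : 0 ≤ (1 + σ) / 2 := by linarith [hσ.1]
    have m1 : (-1 : ℝ) ∈ Icc (-1 : ℝ) 1 := ⟨le_rfl, by norm_num⟩
    have m2 : (1 : ℝ) ∈ Icc (-1 : ℝ) 1 := ⟨by norm_num, le_rfl⟩
    have e1 : ((1 - σ) / 2) • (-1 : ℝ) + ((1 + σ) / 2) • (1 : ℝ) = σ := by
      simp only [smul_eq_mul]
      ring
    have a1 := hp.2 m1 m2 ha hb (by ring)
    have a2 := hm.2 m1 m2 ha hb (by ring)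
    rw [e1] at a1 a2
    simp only [smul_eq_mul] at a1 a2
    have b1 := mul_le_mul_of_nonneg_left (h1 _ m1).2 ha
    have b2 := mul_le_mul_of_nonneg_left (h1 _ m2).2 hb
    have b3 := mul_le_mul_of_nonneg_left (h2 _ m1).2 ha
    have b4 := mul_le_mul_of_nonneg_left (h2 _ m2).2 hb
    rw [abs_le]
    constructor <;> linarith [(h1 σ hσ).1, (h2 σ hσ).1]
  intro σ hσ
  have k1 := abs_le.1 (key σ hσ)
  have k2 := abs_le.1 (key 0 ⟨by norm_num, by norm_num⟩)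
  rw [abs_le]
  constructor <;> linarith [k1.1, k1.2, k2.1, k2.2]

/-- The slope estimate at scale `10¹⁰`. -/
def ZSlope (u : E → ℝ) (w p : E) : Prop :=
  ∀ ξ : E, |u (w + ξ) - u w - ⟪p, ξ⟫_ℝ| ≤ 5 * 10 ^ 15 + ‖ξ‖ ^ 2 / 10 ^ 10

omit [FiniteDimensional ℝ E] in
lemma ZSlope.neg {u : E → ℝ} {w p : E} (h : ZSlope u w p) : ZSlope (-u) w (-p) := by
  intro ξ
  have := h ξ
  rw [← abs_neg] at this
  convert this using 2
  simp only [Pi.neg_apply, inner_neg_left]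
  ring

omit [FiniteDimensional ℝ E] in
lemma zstep_slope {u : E → ℝ} {L h σ : ℝ} {y v v' p : E} (hu : Lip u L)
    (hc : ∀ w ∈ ball y (10 ^ 9 * (L + 1)), Cvx u (10 ^ 4) w)
    (hF : Frame u y (10 ^ 4) v h (10 ^ 20)) (hv : ‖v' - v‖ ^ 2 ≤ 10 ^ 20 / 2)
    (h0 : 0 ≤ σ) (h1 : σ ≤ 1) (hv' : ZSlope u y v') (hp : ZSlope u (y + σ • v') p)
    (n1 : ‖v'‖ ≤ 2 * L) (n2 : ‖p‖ ≤ 2 * L) : ‖p - v'‖ ^ 2 ≤ 5 * 10 ^ 16 := by
  have hL := hu.nonneg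
  set ξ : E := (10 ^ 8 / 2 : ℝ) • (p - v') with hξ
  have x1 : ‖ξ‖ = 10 ^ 8 / 2 * ‖p - v'‖ := by
    rw [hξ, norm_smul, Real.norm_of_nonneg (by norm_num)]
  have x2 : ⟪p, ξ⟫_ℝ - ⟪v', ξ⟫_ℝ = 10 ^ 8 / 2 * ‖p - v'‖ ^ 2 := by
    rw [← inner_sub_left, hξ, real_inner_smul_right, real_inner_self_eq_norm_sq]
  have x3 : ‖ξ‖ ^ 2 = 10 ^ 16 / 4 * ‖p - v'‖ ^ 2 := by
    rw [x1]
    ring
  have hq : y + ξ ∈ ball y (10 ^ 9 * (L + 1)) := by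
    rw [mem_ball_iff_norm, add_sub_cancel_left, x1]
    linarith [norm_sub_le p v']
  have hT := hF.transfer (σ₀ := 0) (by norm_num) (by norm_num) ξ
  rw [zero_smul, add_zero] at hT
  have a1 := (abs_le.1 (hT.Sp_bound hu (by norm_num))).2
  have a2 : Tp u σ (y + ξ) - u (y + ξ) ≤ σ * Sp u (10 ^ 4 / 2) (y + ξ) := by
    rcases h0.eq_or_lt with rfl | h0'
    · rw [Tp_zero]
      simp
    · rw [Tp_eq_Sp u h0', add_sub_cancel_left]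
      exact mul_le_mul_of_nonneg_left ((hc _ hq).Sp_mono h0' (by linarith) (by norm_num)) h0
  have a3 := le_Tp hu h0 (y + ξ) v'
  rw [add_right_comm] at a3
  have a4 := (abs_le.1 (hF σ (by rw [abs_of_nonneg h0]; linarith) (σ • (v' - v)))).1
  have e1 : y + σ • v + σ • (v' - v) = y + σ • v' := by
    rw [smul_sub]
    abel
  have e2 : ⟪v, v' - v⟫_ℝ = ‖v'‖ ^ 2 / 2 - ‖v‖ ^ 2 / 2 - ‖v' - v‖ ^ 2 / 2 := by
    have := norm_add_sq_real v (v' - v)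
    rw [add_sub_cancel] at this
    linarith
  rw [e1, real_inner_smul_right, e2, norm_smul, mul_pow, Real.norm_of_nonneg h0] at a4
  have a5 := (abs_le.1 (hp ξ)).1
  have a6 := (abs_le.1 (hv' ξ)).2
  have b1 : σ * Sp u (10 ^ 4 / 2) (y + ξ) ≤
      σ * h + (4 * 10 ^ 20 + 3 * ‖ξ‖ ^ 2 / (8 * (10 ^ 4) ^ 2)) := by
    have c1 : (0 : ℝ) ≤ 4 * 10 ^ 20 + 3 * ‖ξ‖ ^ 2 / (8 * (10 ^ 4) ^ 2) := by positivity
    have c2 := mul_le_mul_of_nonneg_left a1 h0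
    have c3 := mul_le_of_le_one_left c1 h1
    linarith
  have b2 : σ * ‖v' - v‖ ^ 2 ≤ ‖v' - v‖ ^ 2 := mul_le_of_le_one_left (sq_nonneg _) h1
  have b3 : σ ^ 2 * ‖v' - v‖ ^ 2 ≤ ‖v' - v‖ ^ 2 :=
    mul_le_of_le_one_left (sq_nonneg _) (pow_le_one₀ h0 h1)
  rw [x3] at a5 a6 b1
  linarith

omit [FiniteDimensional ℝ E] in
lemma zstep_conv {u : E → ℝ} {L : ℝ} {y v' : E} (hu : Lip u L) (hc : Cvx u (10 ^ 4) (y - v'))
    (hp : ∀ σ ∈ Icc (-1 : ℝ) 1, ∃ p, ZSlope u (y + σ • v') p ∧ ‖p - v'‖ ^ 2 ≤ 5 * 10 ^ 16) :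
    ∃ g : ℝ → ℝ, ConvexOn ℝ (Icc (-1) 1) g ∧ ∀ σ ∈ Icc (-1 : ℝ) 1,
      u (y + σ • v') - σ * ‖v'‖ ^ 2 / 2 ≤ g σ ∧
        g σ ≤ u (y + σ • v') - σ * ‖v'‖ ^ 2 / 2 + (5 * 10 ^ 15 + 10 ^ 17) := by
  refine ⟨fun σ => Tp u (σ + 1) (y - v') + ‖v'‖ ^ 2 / 2, ⟨convex_Icc _ _, ?_⟩, fun σ hσ => ?_⟩
  · intro a ha b hb s t hs ht hst
    have := hc.2 (x := a + 1) (y := b + 1) ⟨by linarith [ha.1], by linarith [ha.2]⟩
      ⟨by linarith [hb.1], by linarith [hb.2]⟩ hs ht hst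
    simp only [smul_eq_mul] at this ⊢
    have e1 : s * (a + 1) + t * (b + 1) = s * a + t * b + 1 := by linear_combination hst
    rw [e1] at this
    have e2 : s * (‖v'‖ ^ 2 / 2) + t * (‖v'‖ ^ 2 / 2) = ‖v'‖ ^ 2 / 2 := by
      rw [← add_mul, hst, one_mul]
    linarith
  · have h0 : 0 ≤ σ + 1 := by linarith [hσ.1]
    have h2 : σ + 1 ≤ 2 := by linarith [hσ.2]
    constructor
    · have := le_Tp hu h0 (y - v') v'
      have e1 : y - v' + (σ + 1) • v' = y + σ • v' := by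
        rw [add_smul, one_smul]
        abel
      rw [e1] at this
      linarith
    · obtain ⟨p, hp1, hp2⟩ := hp σ hσ
      rw [← le_sub_iff_add_le]
      refine Tp_le fun a => ?_
      have e1 : y - v' + (σ + 1) • a = y + σ • v' + (σ + 1) • (a - v') := by
        simp only [smul_sub, add_smul, one_smul]
        abel
      have a1 := (abs_le.1 (hp1 ((σ + 1) • (a - v')))).2
      rw [← e1, real_inner_smul_right, norm_smul, mul_pow, Real.norm_of_nonneg h0] at a1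
      have a2 := norm_add_sq_real v' (a - v')
      rw [add_sub_cancel] at a2
      have a3 : ⟪p, a - v'⟫_ℝ - ⟪v', a - v'⟫_ℝ - ‖a - v'‖ ^ 2 / 4 ≤ 5 * 10 ^ 16 := by
        rw [← inner_sub_left]
        nlinarith [real_inner_le_norm (p - v') (a - v'), sq_nonneg (‖p - v'‖ - ‖a - v'‖ / 2)]
      have a4 := mul_le_mul_of_nonneg_left a3 h0
      have a5 : (σ + 1) ^ 2 * ‖a - v'‖ ^ 2 ≤ 2 * ((σ + 1) * ‖a - v'‖ ^ 2) := by
        have := mul_le_mul_of_nonneg_right h2 (mul_nonneg h0 (sq_nonneg ‖a - v'‖))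
        linarith
      have a6 := mul_nonneg h0 (sq_nonneg ‖a - v'‖)
      rw [a2]
      linarith

/-- Write `M = 10⁴`, `R = 10¹⁰`, `ω = 10¹⁵`, `Γ' = 10²⁰`. For `w` in the ball let `p w` be the slope of
`exists_slope` at scale `R` (`‖p w‖ ≤ 2L`, error `5ω + ‖ξ‖²/R`), `v' = p y`, `γ σ = y + σ v'`.
(1) `‖v' - v‖² ≤ Γ'/2` (`sq_le_of_inner_le`, frame at `σ = 0`).
(2) For `|σ| ≤ 1`, `w = γ σ`: `‖p w - v'‖² ≤ B := 4 (10ω + Γ'(M+5)) / M²`. For `σ ≥ 0`: transfer the frame to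
`q = y + ξ` (scale `M/2`, constant `Γ_q = 4Γ' + 3‖ξ‖²/(8M²)`); `u (w+ξ) - u (y+ξ) ≤ σ‖v'‖²/2 + Tp u σ q - u q
≤ σ (h + ‖v'‖²/2 + Γ_q)` (`le_Tp`, `Cvx.Sp_mono`, `Frame.Sp_bound`), while the frame at
`w = y + σ v + σ (v' - v)` gives `u w - u y ≥ σ (h + ‖v'‖²/2) - ‖v'-v‖² - Γ' M`. Hence
`⟪p w - v', ξ⟫ ≤ 10ω + Γ'(M+5) + ‖ξ‖²/M²`; take `ξ = (M²/2)(p w - v')` (norm `≤ 2·10⁸ L`). For `σ < 0` use the
base point `q = w + ξ = y + σ v + (σ (v'-v) + ξ)` and `ξ = (M²/2)(v' - p w)`.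
(3) `f σ = u (γ σ) - σ‖v'‖²/2`, `gp σ = Tp u (σ+1) (γ (-1)) + ‖v'‖²/2`, `gm σ = Tm u (1-σ) (γ 1) - ‖v'‖²/2`
satisfy `near_chord` with `e = 5ω + 2B` (for `ρ = σ+1 ∈ [0,2]`, `e' = a - v'`:
`u (γ(-1) + ρ a) - ρ‖a‖²/2 ≤ u (γ σ) - ρ‖v'‖²/2 + 5ω + ρ (⟪p - v', e'⟫ - ‖e'‖²/4)`).
(4) `h' = (f 1 - f (-1))/2`; total error `15ω + 12B + ‖z‖²(1/32 + 1/R) ≤ 10¹⁸ + ‖z‖²/16`. -/
theorem zstep {u : E → ℝ} {L h : ℝ} {y v : E} (hu : Lip u L)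
    (hc : ∀ w ∈ ball y (10 ^ 9 * (L + 1)), Cvx u (10 ^ 4) w ∧ Cvx (-u) (10 ^ 4) w)
    (he : ∀ w ∈ ball y (10 ^ 9 * (L + 1)),
      Env u (10 ^ 10) w - u w ≤ 10 ^ 15 ∧ Env (-u) (10 ^ 10) w + u w ≤ 10 ^ 15)
    (hF : Frame u y (10 ^ 4) v h (10 ^ 20)) :
    ∃ (v' : E) (h' : ℝ), Frame u y 1 v' h' (10 ^ 18) := by
  have hL := hu.nonneg
  have sl : ∀ w ∈ ball y (10 ^ 9 * (L + 1)), ∃ p : E, ‖p‖ ≤ 2 * L ∧ ZSlope u w p := fun w hw =>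
    exists_slope hu (by norm_num) (he w hw).1 (he w hw).2
  obtain ⟨v', n1, hv'⟩ := sl y (mem_ball_self (by positivity))
  have hv : ‖v' - v‖ ^ 2 ≤ 10 ^ 20 / 2 := by
    refine (hF.slope_near (θ := 10 ^ 10 / 2) (c := 5 * 10 ^ 15) (by norm_num) (by norm_num)
      fun ξ => ?_).trans (by norm_num)
    linarith [(abs_le.1 (hv' ξ)).2]
  have hb : ∀ σ ∈ Icc (-1 : ℝ) 1, y + σ • v' ∈ ball y (10 ^ 9 * (L + 1)) := by
    intro σ hσ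
    rw [mem_ball_iff_norm, add_sub_cancel_left, norm_smul, Real.norm_eq_abs]
    have := mul_le_of_le_one_left (norm_nonneg v') (abs_le.2 hσ)
    linarith
  have hp : ∀ σ ∈ Icc (-1 : ℝ) 1, ∃ p, ZSlope u (y + σ • v') p ∧ ‖p - v'‖ ^ 2 ≤ 5 * 10 ^ 16 := by
    intro σ hσ
    obtain ⟨p, n2, hp⟩ := sl _ (hb σ hσ)
    refine ⟨p, hp, ?_⟩
    rcases le_total 0 σ with h0 | h0
    · exact zstep_slope hu (fun w hw => (hc w hw).1) hF hv h0 hσ.2 hv' hp n1 n2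
    · have := zstep_slope (σ := -σ) (v' := -v') (p := -p) hu.neg (fun w hw => (hc w hw).2) hF.neg
        (by rwa [← neg_sub', norm_neg]) (by linarith) (by linarith [hσ.1]) hv'.neg
        (by rw [smul_neg, neg_smul, neg_neg]; exact hp.neg) (by rwa [norm_neg])
        (by rwa [norm_neg])
      rwa [← neg_sub', norm_neg] at this
  have hn : ∀ σ ∈ Icc (-1 : ℝ) 1, -σ ∈ Icc (-1 : ℝ) 1 := fun σ hσ =>
    ⟨by linarith [hσ.2], by linarith [hσ.1]⟩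
  obtain ⟨gp, c1, g1⟩ := zstep_conv (y := y) (v' := v') hu (by
    have := (hc _ (hb (-1) ⟨le_rfl, by norm_num⟩)).1
    rwa [neg_one_smul, ← sub_eq_add_neg] at this) hp
  obtain ⟨gm, c2, g2⟩ := zstep_conv (y := y) (v' := -v') hu.neg (by
    have := (hc _ (hb 1 ⟨by norm_num, le_rfl⟩)).2
    rwa [one_smul, ← sub_neg_eq_add] at this) (fun σ hσ => by
    obtain ⟨p, p1, p2⟩ := hp _ (hn σ hσ)
    exact ⟨-p, by rw [smul_neg, ← neg_smul]; exact p1.neg, by rwa [← neg_sub', norm_neg]⟩)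
  have nc := near_chord (f := fun σ => u (y + σ • v') - σ * ‖v'‖ ^ 2 / 2) (gm := fun σ => -gm (-σ))
    c1 ⟨convex_Icc _ _, fun a ha b hb s t hs ht hst => by
      have := c2.2 (hn a ha) (hn b hb) hs ht hst
      simp only [smul_eq_mul] at this ⊢
      rw [neg_add, ← mul_neg s a, ← mul_neg t b]
      linarith⟩ g1 (fun σ hσ => by
      have := g2 _ (hn σ hσ)
      rw [smul_neg, neg_smul, neg_neg, norm_neg, Pi.neg_apply] at this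
      constructor <;> linarith [this.1, this.2])
  refine ⟨v', (u (y + (1 : ℝ) • v') - 1 * ‖v'‖ ^ 2 / 2 -
    (u (y + (-1 : ℝ) • v') - -1 * ‖v'‖ ^ 2 / 2)) / 2, fun σ hσ z => ?_⟩
  have a1 := abs_le.1 (nc σ (abs_le.1 hσ))
  obtain ⟨p, p1, p2⟩ := hp σ (abs_le.1 hσ)
  have a2 := abs_le.1 (p1 z)
  have a3 : |⟪p, z⟫_ℝ - ⟪v', z⟫_ℝ| ≤ 8 * ‖p - v'‖ ^ 2 + ‖z‖ ^ 2 / 32 := by
    rw [← inner_sub_left]
    nlinarith [abs_real_inner_le_norm (p - v') z, sq_nonneg (4 * ‖p - v'‖ - ‖z‖ / 4)]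
  have a4 := abs_le.1 a3
  simp only [zero_smul, add_zero] at a1
  rw [abs_le]
  constructor <;> linarith [a1.1, a1.2, a2.1, a2.2, a4.1, a4.2, sq_nonneg ‖z‖]

end Crest.Agent.R094
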